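import Mathlib

/-!
# Row 197, module T5: abstract builder of a CW structure

From a family of characteristic maps `Φ n i : (Fin n → ℝ) → X` into a Hausdorff space we build a
`Topology.CWComplex` structure on the whole space.
-/

set_option autoImplicit false

open Set Metric

namespace Crest.Agent.R197

section aux

variable {X : Type} [TopologicalSpace X] [T2Space X] {n : ℕ} (f : (Fin n → ℝ) → X)

/-- the inverse of a saturated injective map on the open ball is continuous -/
theorem cw_build_symm (cont : ContinuousOn f (closedBall 0 1)) (inj : InjOn f (ball 0 1))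
    (sat : ∀ x y, x ∈ ball (0 : Fin n → ℝ) 1 → y ∈ sphere (0 : Fin n → ℝ) 1 → f x ≠ f y) :
    ContinuousOn (inj.toPartialEquiv f (ball 0 1)).symm
      (inj.toPartialEquiv f (ball 0 1)).target := by
  set e := inj.toPartialEquiv f (ball 0 1) with he
  have hsource : e.source = ball 0 1 := rfl
  have htarget : e.target = f '' ball 0 1 := rfl
  have hcoe : (e : (Fin n → ℝ) → X) = f := rfl
  rw [continuousOn_iff_isClosed]
  intro K hK
  -- the closed set in `X`
  refine ⟨f '' (K ∩ closedBall 0 1), ?_, ?_⟩
  · have hcomp : IsCompact (K ∩ closedBall (0 : Fin n → ℝ) 1) :=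
      (isCompact_closedBall 0 1).inter_left hK
    exact (hcomp.image_of_continuousOn (cont.mono inter_subset_right)).isClosed
  · ext x
    constructor
    · rintro ⟨hxK, hxt⟩
      refine ⟨⟨e.symm x, ⟨hxK, ?_⟩, ?_⟩, hxt⟩
      · exact ball_subset_closedBall (hsource ▸ e.map_target hxt)
      · exact e.right_inv hxt
    · rintro ⟨⟨y, ⟨hyK, hyB⟩, hyx⟩, hxt⟩
      refine ⟨?_, hxt⟩
      -- `y` lies in the open ball
      have hx' : x ∈ f '' ball 0 1 := htarget ▸ hxt
      obtain ⟨z, hz, hzx⟩ := hx'
      have hy : y ∈ ball (0 : Fin n → ℝ) 1 := by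
        by_contra hy
        have hys : y ∈ sphere (0 : Fin n → ℝ) 1 := by
          rw [mem_sphere]
          rw [mem_closedBall] at hyB
          rw [mem_ball] at hy
          exact le_antisymm hyB (not_lt.mp hy)
        exact sat z y hz hys (hzx.trans hyx.symm)
      have : e.symm x = y := by
        rw [← hyx]
        exact e.left_inv (hsource ▸ hy)
      show e.symm x ∈ K
      rw [this]
      exact hyK

end aux


end Crest.Agent.R197
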