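import Mathlib

/-!
# Row 197 (S0300): basic definitions

All groups live over the index sets `Fin 4` (letters `x i`), `Fin 4` (letters `y k`) and `Ltr = Fin 9`
(letters `r α`).  `0..6` are the "face letters" (they centralise), `7 = a`, `8 = b`.
-/

set_option autoImplicit false

namespace Crest.Agent.R197

/-- The nine letters: `0..6` = faces, `7 = a`, `8 = b`. -/
abbrev Ltr := Fin 9

section words
variable {H : Type*} [Group H]

/-- `A i k = y_k x_i⁻¹`. -/
def Aw (x y : Fin 4 → H) (i k : Fin 4) : H := y k * (x i)⁻¹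

/-- `B i k = x_i⁻¹ y_k`. -/
def Bw (x y : Fin 4 → H) (i k : Fin 4) : H := (x i)⁻¹ * y k

/-- the scaled loop of the 4-cycle `(i,j;k,l)` at scale `n`. -/
def lam (x y : Fin 4 → H) (i j k l : Fin 4) (n : ℤ) : H :=
  (Aw x y i k) ^ n * (Aw x y j k) ^ (-n) * (Aw x y j l) ^ n * (Aw x y i l) ^ (-n)

end words

/-- first / second index of the `X`-pair of a letter -/
def x1 : Ltr → Fin 4 := ![0, 1, 1, 2, 2, 3, 3, 0, 1]
def x2 : Ltr → Fin 4 := ![1, 2, 2, 3, 3, 0, 0, 1, 2]
/-- first / second index of the `Y`-pair of a letter -/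
def y1 : Ltr → Fin 4 := ![2, 1, 3, 0, 2, 1, 3, 1, 0]
def y2 : Ltr → Fin 4 := ![3, 2, 0, 1, 3, 2, 0, 2, 1]

/-- the permutation of the `x`-indices attached to a letter -/
def pX : Ltr → Equiv.Perm (Fin 4) := ![1, 1, 1, 1, 1, 1, 1, 1, Equiv.swap 0 2]
/-- the permutation of the `y`-indices attached to a letter -/
def pY : Ltr → Equiv.Perm (Fin 4) := ![1, 1, 1, 1, 1, 1, 1, Equiv.swap 0 2, 1]

/-- `i` belongs to the `X`-pair of `α` -/
def inX (α : Ltr) (i : Fin 4) : Prop := i = x1 α ∨ i = x2 α
/-- `k` belongs to the `Y`-pair of `α` -/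
def inY (α : Ltr) (k : Fin 4) : Prop := k = y1 α ∨ k = y2 α

instance (α : Ltr) (i : Fin 4) : Decidable (inX α i) := by unfold inX; infer_instance
instance (α : Ltr) (k : Fin 4) : Decidable (inY α k) := by unfold inY; infer_instance

/-- The relations of `E`. -/
structure RelE {H : Type*} [Group H] (x y : Fin 4 → H) (r : Ltr → H) : Prop where
  x0 : x 0 = 1
  hex : ∀ (α : Ltr) (i k : Fin 4), inX α i → inY α k →
    Aw x y i k * r α = r α * Bw x y (pX α i) (pY α k)

/-- The relations of `G`. -/
structure RelG {H : Type*} [Group H] (x y : Fin 4 → H) (r : Ltr → H) : Prop extends RelE x y r where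
  la : ∀ n : ℤ, lam x y 0 1 1 2 n = 1
  lb : ∀ n : ℤ, lam x y 1 2 0 1 n = 1

/-- generators -/
inductive Gen
  | x (i : Fin 4)
  | y (k : Fin 4)
  | r (α : Ltr)
  deriving DecidableEq, Fintype

abbrev fx (i : Fin 4) : FreeGroup Gen := FreeGroup.of (Gen.x i)
abbrev fy (k : Fin 4) : FreeGroup Gen := FreeGroup.of (Gen.y k)
abbrev fr (α : Ltr) : FreeGroup Gen := FreeGroup.of (Gen.r α)

/-- the hexagon relators -/
def hexRel (t : Ltr × Fin 4 × Fin 4) : FreeGroup Gen :=
  (Aw fx fy t.2.1 t.2.2 * fr t.1) * (fr t.1 * Bw fx fy (pX t.1 t.2.1) (pY t.1 t.2.2))⁻¹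

/-- relators of `E` -/
def relsE : Set (FreeGroup Gen) :=
  {fx 0} ∪ hexRel '' {t | inX t.1 t.2.1 ∧ inY t.1 t.2.2}

/-- relators of `G` -/
def relsG : Set (FreeGroup Gen) :=
  relsE ∪ (Set.range (fun n : ℤ => lam fx fy 0 1 1 2 n) ∪ Set.range (fun n : ℤ => lam fx fy 1 2 0 1 n))

/-- the finitely presented group `E` -/
abbrev EE := PresentedGroup relsE
/-- the group `G` of the theorem -/
abbrev GG := PresentedGroup relsG

section lamlemmas
variable {H K : Type*} [Group H] [Group K]

theorem map_Aw (f : H →* K) (x y : Fin 4 → H) (i k : Fin 4) :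
    f (Aw x y i k) = Aw (fun i => f (x i)) (fun k => f (y k)) i k := by
  simp [Aw]

theorem map_Bw (f : H →* K) (x y : Fin 4 → H) (i k : Fin 4) :
    f (Bw x y i k) = Bw (fun i => f (x i)) (fun k => f (y k)) i k := by
  simp [Bw]

theorem map_lam (f : H →* K) (x y : Fin 4 → H) (i j k l : Fin 4) (n : ℤ) :
    f (lam x y i j k l n) = lam (fun i => f (x i)) (fun k => f (y k)) i j k l n := by
  simp [lam, map_Aw]

end lamlemmas

namespace EE
def x (i : Fin 4) : EE := PresentedGroup.of (Gen.x i)
def y (k : Fin 4) : EE := PresentedGroup.of (Gen.y k)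
def r (α : Ltr) : EE := PresentedGroup.of (Gen.r α)

theorem rel : RelE x y r := by
  constructor
  · exact PresentedGroup.one_of_mem (rels := relsE) (x := fx 0) (Or.inl rfl)
  · intro α i k hi hk
    have h := PresentedGroup.one_of_mem (rels := relsE) (x := hexRel (α, i, k))
      (Or.inr ⟨(α, i, k), ⟨hi, hk⟩, rfl⟩)
    simp only [hexRel, map_mul, map_inv, map_Aw, map_Bw] at h
    exact mul_inv_eq_one.mp h

/-- universal property of `E` -/
def lift {H : Type*} [Group H] {x y : Fin 4 → H} {r : Ltr → H} (h : RelE x y r) : EE →* H :=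
  PresentedGroup.toGroup (f := fun g => match g with
    | Gen.x i => x i
    | Gen.y k => y k
    | Gen.r α => r α) (by
    rintro w (rfl | ⟨⟨α, i, k⟩, ⟨hi, hk⟩, rfl⟩)
    · simpa using h.x0
    · simp only [hexRel, map_mul, map_inv, map_Aw, map_Bw, FreeGroup.lift_apply_of]
      exact mul_inv_eq_one.mpr (h.hex α i k hi hk))

section
variable {H : Type*} [Group H] {x' y' : Fin 4 → H} {r' : Ltr → H} (h : RelE x' y' r')
@[simp] theorem lift_x (i : Fin 4) : lift h (x i) = x' i := by simp [lift, x]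
@[simp] theorem lift_y (k : Fin 4) : lift h (y k) = y' k := by simp [lift, y]
@[simp] theorem lift_r (α : Ltr) : lift h (r α) = r' α := by simp [lift, r]
end

theorem hom_ext {H : Type*} [Group H] {f g : EE →* H} (hx : ∀ i, f (x i) = g (x i))
    (hy : ∀ k, f (y k) = g (y k)) (hr : ∀ α, f (r α) = g (r α)) : f = g := by
  apply PresentedGroup.ext
  rintro (i | k | α)
  · exact hx i
  · exact hy k
  · exact hr α

end EE

namespace GG
def x (i : Fin 4) : GG := PresentedGroup.of (Gen.x i)
def y (k : Fin 4) : GG := PresentedGroup.of (Gen.y k)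
def r (α : Ltr) : GG := PresentedGroup.of (Gen.r α)

theorem rel : RelG x y r := by
  refine { x0 := ?_, hex := ?_, la := ?_, lb := ?_ }
  · exact PresentedGroup.one_of_mem (rels := relsG) (x := fx 0) (Or.inl (Or.inl rfl))
  · intro α i k hi hk
    have h := PresentedGroup.one_of_mem (rels := relsG) (x := hexRel (α, i, k))
      (Or.inl (Or.inr ⟨(α, i, k), ⟨hi, hk⟩, rfl⟩))
    simp only [hexRel, map_mul, map_inv, map_Aw, map_Bw] at h
    exact mul_inv_eq_one.mp h
  · intro n
    have h := PresentedGroup.one_of_mem (rels := relsG) (x := lam fx fy 0 1 1 2 n)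
      (Or.inr (Or.inl ⟨n, rfl⟩))
    rwa [map_lam] at h
  · intro n
    have h := PresentedGroup.one_of_mem (rels := relsG) (x := lam fx fy 1 2 0 1 n)
      (Or.inr (Or.inr ⟨n, rfl⟩))
    rwa [map_lam] at h

/-- universal property of `G` -/
def lift {H : Type*} [Group H] {x y : Fin 4 → H} {r : Ltr → H} (h : RelG x y r) : GG →* H :=
  PresentedGroup.toGroup (f := fun g => match g with
    | Gen.x i => x i
    | Gen.y k => y k
    | Gen.r α => r α) (by
    rintro w ((rfl | ⟨⟨α, i, k⟩, ⟨hi, hk⟩, rfl⟩) | (⟨n, rfl⟩ | ⟨n, rfl⟩))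
    · simpa using h.x0
    · simp only [hexRel, map_mul, map_inv, map_Aw, map_Bw, FreeGroup.lift_apply_of]
      exact mul_inv_eq_one.mpr (h.hex α i k hi hk)
    · simp only [map_lam, FreeGroup.lift_apply_of]
      exact h.la n
    · simp only [map_lam, FreeGroup.lift_apply_of]
      exact h.lb n)

section
variable {H : Type*} [Group H] {x' y' : Fin 4 → H} {r' : Ltr → H} (h : RelG x' y' r')
@[simp] theorem lift_x (i : Fin 4) : lift h (x i) = x' i := by simp [lift, x]
@[simp] theorem lift_y (k : Fin 4) : lift h (y k) = y' k := by simp [lift, y]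
@[simp] theorem lift_r (α : Ltr) : lift h (r α) = r' α := by simp [lift, r]
end

theorem hom_ext {H : Type*} [Group H] {f g : GG →* H} (hx : ∀ i, f (x i) = g (x i))
    (hy : ∀ k, f (y k) = g (y k)) (hr : ∀ α, f (r α) = g (r α)) : f = g := by
  apply PresentedGroup.ext
  rintro (i | k | α)
  · exact hx i
  · exact hy k
  · exact hr α

end GG

/-- the projection `E → G` -/
def proj : EE →* GG := EE.lift GG.rel.toRelE

/-- `P m` = normal closure in `E` of the two scaled loops `a`, `b` at scale `-m`. -/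
def PP (m : ℕ) : Subgroup EE :=
  Subgroup.normalClosure {lam EE.x EE.y 0 1 1 2 (-(m : ℤ)), lam EE.x EE.y 1 2 0 1 (-(m : ℤ))}

/-- the element which is not in the residual of `P m` -/
def p0 : EE := lam EE.x EE.y 0 1 1 2 (-2)

/-- lower central series of a subgroup, inside the big group: `gam N 0 = N`, `gam N (k+1) = ⁅gam N k, N⁆`. -/
def gam {E : Type*} [Group E] (N : Subgroup E) : ℕ → Subgroup E
  | 0 => N
  | k + 1 => ⁅gam N k, N⁆

/-- An extension of `Γ'` by the `G`-module `V` (action through `f : Γ' → G`). -/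
structure ExtVia {Γ' G : Type} [Group Γ'] [Group G] (f : Γ' →* G) (V : Type) [AddCommGroup V]
    [DistribMulAction G V] where
  U : Type
  [grp : Group U]
  ι : Multiplicative V →* U
  κ : U →* Γ'
  inj : Function.Injective ι
  surj : Function.Surjective κ
  exact : ∀ u, κ u = 1 ↔ ∃ v, ι v = u
  act : ∀ (u : U) (v : V),
    u * ι (Multiplicative.ofAdd v) * u⁻¹ = ι (Multiplicative.ofAdd (f (κ u) • v))

attribute [instance] ExtVia.grp

/-- Property (Q'): every f.p. group over `G` factors through a f.p. group `E'` over `G` such that all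
extensions of `E'` by `G`-modules are pulled back from `G`. -/
def ExtProp (G : Type) [Group G] : Prop :=
  ∀ (E₁ : Type) [Group E₁] [Group.IsFinitelyPresented E₁] (g : E₁ →* G),
    ∃ (E' : Type) (_ : Group E') (_ : Group.IsFinitelyPresented E') (g₁ : E₁ →* E') (g₂ : E' →* G),
      g₂.comp g₁ = g ∧
      ∀ (V : Type) [AddCommGroup V] [DistribMulAction G V] (X' : ExtVia g₂ V),
        ∃ (X : ExtVia (MonoidHom.id G) V) (Θ : X'.U →* X.U),
          (∀ v, Θ (X'.ι v) = X.ι v) ∧ ∀ u, X.κ (Θ u) = g₂ (X'.κ u)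

/-- `G` has an aspherical presentation `⟨I | r⟩`: the relation module is free on the relators, stated as
the existence of equivariant homomorphisms out of the kernel with prescribed values on the relators. -/
def AsphericalPresentation (G : Type) [Group G] : Prop :=
  ∃ (I J : Type) (π : FreeGroup I →* G) (r : J → FreeGroup I),
    Function.Surjective π ∧ π.ker = Subgroup.normalClosure (Set.range r) ∧
    ∀ (V : Type) [AddCommGroup V] [DistribMulAction G V] (v : J → V),
      ∃ s : FreeGroup I → V,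
        (∀ a b, π a = 1 → π b = 1 → s (a * b) = s a + s b) ∧
        (∀ w a, π a = 1 → s (w * a * w⁻¹) = π w • s a) ∧
        ∀ j, s (r j) = v j

end Crest.Agent.R197
private theorem rz_8dc004812d : type_of% @_root_.Crest.Agent.R197.gam.eq_def := @_root_.Crest.Agent.R197.gam.eq_def -- L215
private theorem rz_fa89b7b2bc : type_of% @_root_.Crest.Agent.R197.gam.eq_1 := @_root_.Crest.Agent.R197.gam.eq_1 -- L215
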