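import Mathlib
import Crest.Agent.R197.Defs

-- ▼ part R197/RedProd
section

/-!
# Row 197, module A1: reduced products of groups over a filter on `ℕ`

`RP W F = (∀ n, W n) ⧸ {w | ∀ᶠ n in F, w n = 1}`, functoriality, and lifting of homomorphisms from
finitely presented groups.
-/

set_option autoImplicit false

open Filter

namespace Crest.Agent.R197

/-- the subgroup of families which are eventually trivial -/
def evTriv (W : ℕ → Type*) [∀ n, Group (W n)] (F : Filter ℕ) : Subgroup (∀ n, W n) where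
  carrier := {w | ∀ᶠ n in F, w n = 1}
  one_mem' := Eventually.of_forall fun _ => rfl
  mul_mem' := by
    intro a b ha hb
    filter_upwards [ha, hb] with n h1 h2
    simp [h1, h2]
  inv_mem' := by
    intro a ha
    filter_upwards [ha] with n h1
    simp [h1]

theorem mem_evTriv {W : ℕ → Type*} [∀ n, Group (W n)] {F : Filter ℕ} {w : ∀ n, W n} :
    w ∈ evTriv W F ↔ ∀ᶠ n in F, w n = 1 := Iff.rfl

instance evTriv_normal (W : ℕ → Type*) [∀ n, Group (W n)] (F : Filter ℕ) :
    (evTriv W F).Normal := by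
  refine ⟨fun a ha g => ?_⟩
  filter_upwards [mem_evTriv.mp ha] with n h1
  simp [h1]

/-- reduced product of the groups `W n` along the filter `F` -/
abbrev RP (W : ℕ → Type*) [∀ n, Group (W n)] (F : Filter ℕ) := (∀ n, W n) ⧸ evTriv W F

namespace RP

variable {W : ℕ → Type*} [∀ n, Group (W n)] {F : Filter ℕ}

/-- the class of a family -/
def mk (F : Filter ℕ) : (∀ n, W n) →* RP W F := QuotientGroup.mk' (evTriv W F)

theorem mk_surjective : Function.Surjective (mk (W := W) F) := QuotientGroup.mk'_surjective _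

theorem mk_eq_one_iff {w : ∀ n, W n} : mk F w = 1 ↔ ∀ᶠ n in F, w n = 1 := by
  rw [← mem_evTriv]
  exact QuotientGroup.eq_one_iff w

theorem mk_eq_mk_iff {w w' : ∀ n, W n} : mk F w = mk F w' ↔ ∀ᶠ n in F, w n = w' n := by
  rw [← mul_inv_eq_one, ← map_inv, ← map_mul, mk_eq_one_iff]
  simp only [Pi.mul_apply, Pi.inv_apply, mul_inv_eq_one]


section map
variable {W' : ℕ → Type*} [∀ n, Group (W' n)]

/-- the homomorphism of reduced products induced by a family of homomorphisms -/
def map (F : Filter ℕ) (q : ∀ n, W n →* W' n) : RP W F →* RP W' F :=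
  QuotientGroup.map (evTriv W F) (evTriv W' F)
    (MonoidHom.mk' (fun w n => q n (w n)) (by intro a b; funext n; simp)) (by
      intro w hw
      filter_upwards [mem_evTriv.mp hw] with n h
      simp [h])

@[simp] theorem map_mk (q : ∀ n, W n →* W' n) (w : ∀ n, W n) :
    map F q (mk F w) = mk F (fun n => q n (w n)) := rfl

theorem map_surjective {q : ∀ n, W n →* W' n} (hq : ∀ n, Function.Surjective (q n)) :
    Function.Surjective (map F q) := by
  intro z
  obtain ⟨w, rfl⟩ := mk_surjective z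
  choose u hu using hq
  exact ⟨mk F (fun n => u n (w n)), by simp [hu]⟩

theorem map_mk_eq_one_iff {q : ∀ n, W n →* W' n} {w : ∀ n, W n} :
    map F q (mk F w) = 1 ↔ ∀ᶠ n in F, q n (w n) = 1 := by
  rw [map_mk, mk_eq_one_iff]

/-- every element of the kernel is represented by a family in the kernels -/
theorem exists_mk_of_mem_ker {q : ∀ n, W n →* W' n} {z : RP W F} (hz : z ∈ (map F q).ker) :
    ∃ w : ∀ n, W n, (∀ n, w n ∈ (q n).ker) ∧ mk F w = z := by
  classical
  obtain ⟨w, rfl⟩ := mk_surjective z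
  have h := map_mk_eq_one_iff.mp hz
  refine ⟨fun n => if q n (w n) = 1 then w n else 1, fun n => ?_, ?_⟩
  · by_cases hn : q n (w n) = 1
    · simp [hn, MonoidHom.mem_ker]
    · simp [hn]
  · rw [mk_eq_mk_iff]
    filter_upwards [h] with n hn
    simp [hn]


end map

section ofFam
variable {E : Type*} [Group E]

/-- the homomorphism into the reduced product given by a family of homomorphisms -/
def ofFam (F : Filter ℕ) (ρ : ∀ n, E →* W n) : E →* RP W F :=
  (mk F).comp (MonoidHom.mk' (fun e n => ρ n e) (by intro a b; funext n; simp))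

@[simp] theorem ofFam_apply (ρ : ∀ n, E →* W n) (e : E) :
    ofFam F ρ e = mk F (fun n => ρ n e) := rfl



/-- Two families of homomorphisms from a finitely generated group with the same classes agree
`F`-eventually. -/
theorem eventually_eq_of_fg [Group.FG E] {ρ ρ' : ∀ n, E →* W n}
    (h : ∀ e, mk F (fun n => ρ n e) = mk F (fun n => ρ' n e)) :
    ∀ᶠ n in F, ρ n = ρ' n := by
  obtain ⟨S, hS⟩ := Group.FG.out (G := E)
  have h1 : ∀ᶠ n in F, ∀ e ∈ S, ρ n e = ρ' n e := by
    rw [Filter.eventually_all_finset]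
    intro e _
    exact mk_eq_mk_iff.mp (h e)
  filter_upwards [h1] with n hn
  refine MonoidHom.eq_of_eqOn_dense hS ?_
  intro e he
  exact hn e (Finset.mem_coe.mp he)


end ofFam

/-- A homomorphism from a finitely presented group to a reduced product lifts to a family of
homomorphisms. -/
theorem lift_fp {E' : Type*} [Group E'] [hE : Group.IsFinitelyPresented E'] (ρ : E' →* RP W F) :
    ∃ ρn : ∀ n, E' →* W n, ∀ e, mk F (fun n => ρn n e) = ρ e := by
  classical
  obtain ⟨d, φ, hφ, S, hS, hker⟩ := hE.out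
  -- lift the generators
  choose w hw using fun i : Fin d => mk_surjective (W := W) (F := F) (ρ (φ (FreeGroup.of i)))
  let σ : ∀ n, FreeGroup (Fin d) →* W n := fun n => FreeGroup.lift (fun i => w i n)
  have hσ : ofFam F σ = ρ.comp φ := by
    apply FreeGroup.ext_hom
    intro i
    simp only [ofFam_apply, MonoidHom.comp_apply, ← hw i]
    congr 1
    funext n
    simp [σ]
  have hσ' : ∀ a, mk F (fun n => σ n a) = ρ (φ a) := fun a => DFunLike.congr_fun hσ a
  have hrel : ∀ᶠ n in F, ∀ s ∈ S, σ n s = 1 := by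
    rw [Filter.eventually_all_finite hS]
    intro s hs
    have h1 : φ s = 1 := by
      rw [← MonoidHom.mem_ker, ← hker]
      exact Subgroup.subset_normalClosure hs
    have h2 := hσ' s
    rw [h1, map_one, mk_eq_one_iff] at h2
    exact h2
  have key : ∀ n, ∃ τ : E' →* W n, (∀ s ∈ S, σ n s = 1) → ∀ a, τ (φ a) = σ n a := by
    intro n
    by_cases hn : ∀ s ∈ S, σ n s = 1
    · have hle : φ.ker ≤ (σ n).ker := by
        rw [← hker]
        exact Subgroup.normalClosure_le_normal (fun s hs => hn s hs)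
      refine ⟨(φ.liftOfSurjective hφ) ⟨σ n, hle⟩, fun _ a => ?_⟩
      exact MonoidHom.liftOfRightInverse_comp_apply _ _ _ ⟨σ n, hle⟩ a
    · exact ⟨1, fun h => absurd h hn⟩
  choose τ hτ using key
  refine ⟨τ, fun e => ?_⟩
  obtain ⟨a, rfl⟩ := hφ e
  rw [← hσ' a, mk_eq_mk_iff]
  filter_upwards [hrel] with n hn
  exact hτ n hn a


end RP

end Crest.Agent.R197
end

-- ▼ part R197/Step
section

/-!
# Row 197, task A2: single step lemma (helper490)
-/

set_option autoImplicit false

namespace Crest.Agent.R197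

theorem step_single {E E' G W W' : Type} [Group E] [Group E'] [Group G] [Group W] [Group W']
    (π : E →* G) (hπ : Function.Surjective π) (hperf : ⁅π.ker, π.ker⁆ = π.ker)
    (f : E →* E') (f₂ : E' →* G) (hf : f₂.comp f = π)
    (hext : ∀ (V : Type) [AddCommGroup V] [DistribMulAction G V] (X' : ExtVia f₂ V),
      ∃ (X : ExtVia (MonoidHom.id G) V) (Θ : X'.U →* X.U),
        (∀ v, Θ (X'.ι v) = X.ι v) ∧ ∀ u, X.κ (Θ u) = f₂ (X'.κ u))
    (q : W →* W') (hq : Function.Surjective q) (hab : ∀ a ∈ q.ker, ∀ b ∈ q.ker, a * b = b * a)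
    (ρ : E →* W) (ρ' : E' →* W') (hρ : q.comp ρ = ρ'.comp f)
    (hc : ∀ (e' : E') (w : W) (e : E), q w = ρ' e' → f₂ e' = π e →
      ∀ v ∈ q.ker, w * v * w⁻¹ = ρ e * v * (ρ e)⁻¹) :
    ∃ ρ'' : E' →* W, q.comp ρ'' = ρ' ∧ ρ''.comp f = ρ := by
  classical
  have hfe : ∀ e, f₂ (f e) = π e := fun e => DFunLike.congr_fun hf e
  have hρe : ∀ e, q (ρ e) = ρ' (f e) := fun e => DFunLike.congr_fun hρ e
  -- the module
  letI cgV : CommGroup q.ker :=
    { (inferInstance : Group q.ker) with
      mul_comm := fun a b => Subtype.ext (hab a a.2 b b.2) }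
  -- the action of `E` on `ker q`
  let φE : E →* MulAut q.ker := (MulAut.conjNormal (H := q.ker)).comp ρ
  have hφE : π.ker ≤ φE.ker := by
    intro e he
    rw [MonoidHom.mem_ker] at he ⊢
    ext v
    change ρ e * (v : W) * (ρ e)⁻¹ = v
    have h1 := hc (f e) (ρ e) 1 (hρe e) (by rw [hfe, he, map_one]) v v.2
    rw [h1]; simp
  let φ : G →* MulAut q.ker := (π.liftOfSurjective hπ) ⟨φE, hφE⟩
  have hφ : ∀ e, φ (π e) = φE e := fun e => π.liftOfRightInverse_comp_apply _ (Function.rightInverse_surjInv hπ) ⟨φE, hφE⟩ e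
  letI actV : DistribMulAction G (Additive q.ker) :=
    { smul := fun g v => Additive.ofMul (φ g (Additive.toMul v))
      one_smul := fun v => by
        change Additive.ofMul (φ 1 (Additive.toMul v)) = v
        rw [map_one]; rfl
      mul_smul := fun g h v => by
        change Additive.ofMul (φ (g * h) (Additive.toMul v)) =
          Additive.ofMul (φ g (φ h (Additive.toMul v)))
        rw [map_mul]; rfl
      smul_zero := fun g => by
        change Additive.ofMul (φ g 1) = 0
        rw [map_one]; rfl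
      smul_add := fun g v w => by
        change Additive.ofMul (φ g (Additive.toMul v * Additive.toMul w)) =
          Additive.ofMul (φ g (Additive.toMul v)) + Additive.ofMul (φ g (Additive.toMul w))
        rw [map_mul]; rfl }
  have hact : ∀ (e : E) (v : Additive q.ker),
      ((Additive.toMul (π e • v) : q.ker) : W) = ρ e * ((Additive.toMul v : q.ker) : W) * (ρ e)⁻¹ := by
    intro e v
    change ((φ (π e) (Additive.toMul v) : q.ker) : W) = _
    rw [hφ]
    rfl
  -- the pull back extension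
  let U' : Subgroup (E' × W) :=
    (ρ'.comp (MonoidHom.fst E' W)).eqLocus (q.comp (MonoidHom.snd E' W))
  have hU' : ∀ u : U', ρ' (u : E' × W).1 = q (u : E' × W).2 := fun u => u.2
  let ι' : Multiplicative (Additive q.ker) →* U' :=
    { toFun := fun v => ⟨(1, ((Additive.toMul (Multiplicative.toAdd v) : q.ker) : W)), by
        change ρ' 1 = q _
        rw [map_one]
        exact ((Additive.toMul (Multiplicative.toAdd v) : q.ker).2).symm⟩
      map_one' := rfl
      map_mul' := fun a b => by
        apply Subtype.ext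
        exact Prod.ext (by simp) rfl }
  have hι'1 : ∀ v, ((ι' v : U') : E' × W).1 = 1 := fun v => rfl
  have hι'2 : ∀ v, ((ι' v : U') : E' × W).2 =
      ((Additive.toMul (Multiplicative.toAdd v) : q.ker) : W) := fun v => rfl
  let κ' : U' →* E' := (MonoidHom.fst E' W).comp U'.subtype
  have hκ' : ∀ u : U', κ' u = (u : E' × W).1 := fun u => rfl
  let X' : ExtVia f₂ (Additive q.ker) :=
    { U := U'
      ι := ι'
      κ := κ'
      inj := by
        intro a b hab'
        have h1 := congrArg (fun u : U' => (u : E' × W).2) hab'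
        simp only [hι'2] at h1
        exact Subtype.ext h1
      surj := by
        intro e'
        obtain ⟨w, hw⟩ := hq (ρ' e')
        exact ⟨⟨(e', w), hw.symm⟩, rfl⟩
      exact := by
        intro u
        constructor
        · intro h
          have h1 : (u : E' × W).1 = 1 := h
          have h2 : q (u : E' × W).2 = 1 := by rw [← hU' u, h1, map_one]
          refine ⟨Multiplicative.ofAdd (Additive.ofMul (⟨(u : E' × W).2, h2⟩ : q.ker)), ?_⟩
          apply Subtype.ext
          exact Prod.ext h1.symm rfl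
        · rintro ⟨v, rfl⟩
          rfl
      act := by
        intro u v
        apply Subtype.ext
        refine Prod.ext ?_ ?_
        · change (u : E' × W).1 * 1 * ((u : E' × W).1)⁻¹ = 1
          simp
        · obtain ⟨e, he⟩ := hπ (f₂ (u : E' × W).1)
          have h1 : f₂ (κ' u) = π e := he.symm
          change (u : E' × W).2 * ((Additive.toMul v : q.ker) : W) * ((u : E' × W).2)⁻¹ =
            ((Additive.toMul (f₂ (κ' u) • v) : q.ker) : W)
          rw [h1, hact]
          exact hc (u : E' × W).1 (u : E' × W).2 e (hU' u).symm he.symm _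
            (Additive.toMul v : q.ker).2 }
  obtain ⟨X, Θ, hΘι, hΘκ⟩ := hext (Additive q.ker) X'
  -- the homomorphism `j`
  let j : E →* U' :=
    { toFun := fun e => ⟨(f e, ρ e), (hρe e).symm⟩
      map_one' := by apply Subtype.ext; exact Prod.ext (map_one f) (map_one ρ)
      map_mul' := fun a b => by
        apply Subtype.ext; exact Prod.ext (map_mul f a b) (map_mul ρ a b) }
  have hj1 : ∀ e, ((j e : U') : E' × W).1 = f e := fun e => rfl
  have hj2 : ∀ e, ((j e : U') : E' × W).2 = ρ e := fun e => rfl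
  let Θ' : U' →* X.U := Θ
  let Θj : E →* X.U := Θ'.comp j
  have hXκ : ∀ e, X.κ (Θj e) = π e := fun e => by
    change X.κ (Θ (j e)) = _
    rw [hΘκ]
    exact hfe e
  -- `Θ ∘ j` is trivial on `ker π`
  have hker : π.ker ≤ Θj.ker := by
    rw [← hperf, Subgroup.commutator_le]
    intro a ha b hb
    rw [MonoidHom.mem_ker] at ha hb ⊢
    obtain ⟨va, hva⟩ := (X.exact (Θj a)).1 (by rw [hXκ, ha])
    obtain ⟨vb, hvb⟩ := (X.exact (Θj b)).1 (by rw [hXκ, hb])
    rw [map_commutatorElement, ← hva, ← hvb, commutatorElement_eq_one_iff_mul_comm, ← map_mul,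
      ← map_mul, mul_comm]
  let σ : G →* X.U := (π.liftOfSurjective hπ) ⟨Θj, hker⟩
  have hσ : ∀ e, σ (π e) = Θj e := fun e => π.liftOfRightInverse_comp_apply _ (Function.rightInverse_surjInv hπ) ⟨Θj, hker⟩ e
  have hκσ : ∀ g, X.κ (σ g) = g := by
    intro g
    obtain ⟨e, rfl⟩ := hπ g
    rw [hσ, hXκ]
  -- the subgroup of `U'` which is the graph of the lift
  let S : Subgroup U' := Θ'.eqLocus (σ.comp (f₂.comp κ'))
  let κS : S →* E' := κ'.comp S.subtype
  have hS : ∀ u : S, Θ' (u : U') = σ (f₂ (κ' (u : U'))) := fun u => u.2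
  have hbij : Function.Bijective κS := by
    constructor
    · rw [injective_iff_map_eq_one]
      intro u hu
      have h1 : κ' (u : U') = 1 := hu
      obtain ⟨v, hv⟩ := (X'.exact (u : U')).1 h1
      have h2 := hS u
      rw [h1, map_one, map_one, ← hv] at h2
      have h3 : X.ι v = 1 := by rw [← hΘι]; exact h2
      have h4 : v = 1 := X.inj (by rw [h3, map_one])
      apply Subtype.ext
      rw [← hv, h4]
      exact map_one X'.ι
    · intro e'
      obtain ⟨u₀, hu₀⟩ := X'.surj e'
      have h1 : X.κ ((Θ u₀)⁻¹ * σ (f₂ e')) = 1 := by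
        rw [map_mul, map_inv, hκσ, hΘκ, hu₀]
        simp
      obtain ⟨v, hv⟩ := (X.exact _).1 h1
      have h2 : Θ (u₀ * X'.ι v) = σ (f₂ e') := by
        rw [map_mul, hΘι, hv]; group
      have h3 : X'.κ (u₀ * X'.ι v) = e' := by
        have : X'.κ (X'.ι v) = 1 := (X'.exact _).2 ⟨v, rfl⟩
        rw [map_mul, this, hu₀, mul_one]
      refine ⟨⟨u₀ * X'.ι v, ?_⟩, h3⟩
      change Θ (u₀ * X'.ι v) = σ (f₂ (X'.κ (u₀ * X'.ι v)))
      rw [h2, h3]
  let eqv : S ≃* E' := MulEquiv.ofBijective κS hbij
  let ρ'' : E' →* W :=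
    (MonoidHom.snd E' W).comp (U'.subtype.comp (S.subtype.comp eqv.symm.toMonoidHom))
  refine ⟨ρ'', ?_, ?_⟩
  · ext e'
    change q (((eqv.symm e' : S) : U') : E' × W).2 = ρ' e'
    rw [← hU']
    have : κS (eqv.symm e') = e' := eqv.apply_symm_apply e'
    exact congrArg ρ' this
  · ext e
    have hjS : (⟨j e, by
        change Θj e = σ (f₂ (f e))
        rw [hfe, hσ]⟩ : S) = eqv.symm (f e) := by
      apply eqv.injective
      rw [eqv.apply_symm_apply]
      rfl
    change (((eqv.symm (f e) : S) : U') : E' × W).2 = ρ e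
    rw [← hjS]
    rfl

end Crest.Agent.R197
end

-- ▼ part R197/Obstruction
section

/-! # Row 197, module A3: the obstruction theorem -/

set_option autoImplicit false

namespace Crest.Agent.R197

namespace Obs

open Filter
open scoped commutatorElement

section gamma
variable {E : Type*} [Group E] (N : Subgroup E) [hN : N.Normal]

instance gam_normal (k : ℕ) : (gam N k).Normal := by
  induction k with
  | zero => exact hN
  | succ k ih => exact Subgroup.commutator_normal _ _

theorem gam_succ_le (k : ℕ) : gam N (k + 1) ≤ gam N k := Subgroup.commutator_le_left _ _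

theorem gam_le (k : ℕ) : gam N k ≤ N := by
  induction k with
  | zero => exact le_rfl
  | succ k ih => exact (gam_succ_le N k).trans ih

/-- canonical projection -/
abbrev can (k : ℕ) : E →* E ⧸ gam N k := QuotientGroup.mk' _

/-- one step of the tower -/
def qq (k : ℕ) : (E ⧸ gam N (k + 1)) →* (E ⧸ gam N k) :=
  QuotientGroup.map _ _ (MonoidHom.id E) (gam_succ_le N k)

/-- projection to `E ⧸ N` -/
def ee (k : ℕ) : (E ⧸ gam N k) →* (E ⧸ N) :=
  QuotientGroup.map _ _ (MonoidHom.id E) (gam_le N k)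

@[simp] theorem qq_mk (k : ℕ) (e : E) : qq N k (QuotientGroup.mk e) = QuotientGroup.mk e := rfl
@[simp] theorem ee_mk (k : ℕ) (e : E) : ee N k (QuotientGroup.mk e) = QuotientGroup.mk e := rfl

theorem qq_surjective (k : ℕ) : Function.Surjective (qq N k) := by
  intro z
  obtain ⟨e, rfl⟩ := QuotientGroup.mk_surjective z
  exact ⟨QuotientGroup.mk e, rfl⟩

theorem ee_qq (k : ℕ) (z : E ⧸ gam N (k + 1)) : ee N k (qq N k z) = ee N (k + 1) z := by
  obtain ⟨e, rfl⟩ := QuotientGroup.mk_surjective z
  rfl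

theorem ee_zero (z : E ⧸ N) : ee N 0 (show E ⧸ gam N 0 from z) = z := by
  obtain ⟨e, rfl⟩ := QuotientGroup.mk_surjective z
  rfl

theorem qq_eq_one_iff (k : ℕ) (e : E) :
    qq N k (QuotientGroup.mk e) = 1 ↔ e ∈ gam N k := by
  rw [qq_mk, QuotientGroup.eq_one_iff]

/-- Elements over `N` centralise the kernel of a step. -/
theorem central_step (k : ℕ) (z v : E ⧸ gam N (k + 1)) (hz : ee N (k + 1) z = 1)
    (hv : qq N k v = 1) : z * v = v * z := by
  obtain ⟨a, rfl⟩ := QuotientGroup.mk_surjective z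
  obtain ⟨b, rfl⟩ := QuotientGroup.mk_surjective v
  rw [ee_mk, QuotientGroup.eq_one_iff] at hz
  rw [qq_eq_one_iff] at hv
  rw [← QuotientGroup.mk_mul, ← QuotientGroup.mk_mul, eq_comm, QuotientGroup.eq]
  have h1 : ⁅a⁻¹, b⁻¹⁆ ∈ gam N (k + 1) := by
    have h2 : ⁅b⁻¹, a⁻¹⁆ ∈ gam N (k + 1) :=
      Subgroup.commutator_mem_commutator ((gam N k).inv_mem hv) (N.inv_mem hz)
    rw [← inv_mem_iff, commutatorElement_inv]
    exact h2
  have h3 : (b * a)⁻¹ * (a * b) = ⁅a⁻¹, b⁻¹⁆ := by
    simp [commutatorElement_def, mul_assoc]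
  rw [h3]
  exact h1

end gamma

/-- The uniform step lemma. -/
theorem step_uniform {E E' G : Type} [Group E] [Group E'] [Group G] [Group.FG E]
    [Group.IsFinitelyPresented E'] [Group.FG E']
    (π : E →* G) (hπ : Function.Surjective π) (P : ℕ → Subgroup E) [hn : ∀ n, (P n).Normal]
    (hperf : ⁅π.ker, π.ker⁆ = π.ker)
    (f : E →* E') (f₂ : E' →* G) (hf : f₂.comp f = π)
    (hext : ∀ (V : Type) [AddCommGroup V] [DistribMulAction G V] (X' : ExtVia f₂ V),
      ∃ (X : ExtVia (MonoidHom.id G) V) (Θ : X'.U →* X.U),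
        (∀ v, Θ (X'.ι v) = X.ι v) ∧ ∀ u, X.κ (Θ u) = f₂ (X'.κ u))
    (τ : ∀ n, E' →* E ⧸ P n)
    (hτ : ∀ e' e, f₂ e' = π e → ∀ᶠ n in atTop, τ n e' = (QuotientGroup.mk e : E ⧸ P n)) :
    ∃ n₀, ∀ n, n₀ ≤ n → ∀ (k : ℕ) (ρ' : E' →* E ⧸ gam (P n) k), ρ'.comp f = can (P n) k →
      (ee (P n) k).comp ρ' = τ n →
      ∃ ρ'' : E' →* E ⧸ gam (P n) (k + 1), (qq (P n) k).comp ρ'' = ρ' ∧
        ρ''.comp f = can (P n) (k + 1) := by
  classical
  by_contra hcon
  push Not at hcon
  -- bad indices
  let Bad : ℕ → Prop := fun n => ∃ (k : ℕ) (ρ' : E' →* E ⧸ gam (P n) k),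
    ρ'.comp f = can (P n) k ∧ (ee (P n) k).comp ρ' = τ n ∧
      ∀ ρ'' : E' →* E ⧸ gam (P n) (k + 1), (qq (P n) k).comp ρ'' = ρ' →
        ρ''.comp f ≠ can (P n) (k + 1)
  have hfreq : ∃ᶠ n in atTop, Bad n := by
    rw [frequently_atTop]
    intro n₀
    obtain ⟨n, hn₀, k, ρ', h1, h2, h3⟩ := hcon n₀
    exact ⟨n, hn₀, k, ρ', h1, h2, h3⟩
  have hdata : ∀ n, ∃ (k : ℕ) (ρ' : E' →* E ⧸ gam (P n) k), Bad n →
      (ρ'.comp f = can (P n) k ∧ (ee (P n) k).comp ρ' = τ n ∧
      ∀ ρ'' : E' →* E ⧸ gam (P n) (k + 1), (qq (P n) k).comp ρ'' = ρ' →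
        ρ''.comp f ≠ can (P n) (k + 1)) := by
    intro n
    by_cases hb : Bad n
    · obtain ⟨k, ρ', h⟩ := hb
      exact ⟨k, ρ', fun _ => h⟩
    · exact ⟨0, 1, fun h => absurd h hb⟩
  choose k ρ' hρ' using hdata
  let F : Filter ℕ := atTop ⊓ 𝓟 {n | Bad n}
  have hF : NeBot F := frequently_iff_neBot.mp hfreq
  have hFb : ∀ᶠ n in F, Bad n := by
    have : {n | Bad n} ∈ F := mem_inf_of_right (mem_principal_self _)
    exact this
  have hFt : F ≤ atTop := inf_le_left
  let W : ℕ → Type := fun n => E ⧸ gam (P n) (k n + 1)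
  let W' : ℕ → Type := fun n => E ⧸ gam (P n) (k n)
  let q : RP W F →* RP W' F := RP.map F (fun n => qq (P n) (k n))
  have hq : Function.Surjective q := RP.map_surjective (fun n => qq_surjective (P n) (k n))
  let ρ : E →* RP W F := RP.ofFam F (fun n => can (P n) (k n + 1))
  let ρR : E' →* RP W' F := RP.ofFam F ρ'
  have hρ : q.comp ρ = ρR.comp f := by
    ext e
    change RP.mk F (fun n => qq (P n) (k n) (can (P n) (k n + 1) e)) =
      RP.mk F (fun n => ρ' n (f e))
    rw [RP.mk_eq_mk_iff]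
    filter_upwards [hFb] with n hb
    have h1 := DFunLike.congr_fun (hρ' n hb).1 e
    exact h1.symm
  have hab : ∀ a ∈ q.ker, ∀ b ∈ q.ker, a * b = b * a := by
    intro a ha b hb
    obtain ⟨a, ha', rfl⟩ := RP.exists_mk_of_mem_ker ha
    obtain ⟨b, hb', rfl⟩ := RP.exists_mk_of_mem_ker hb
    rw [← map_mul, ← map_mul]
    congr 1
    funext n
    have h1 : qq (P n) (k n) (a n) = 1 := ha' n
    have h2 : qq (P n) (k n) (b n) = 1 := hb' n
    refine central_step (P n) (k n) (a n) (b n) ?_ h2
    rw [← ee_qq, h1, map_one]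
  have hc : ∀ (e' : E') (w : RP W F) (e : E), q w = ρR e' → f₂ e' = π e →
      ∀ v ∈ q.ker, w * v * w⁻¹ = ρ e * v * (ρ e)⁻¹ := by
    intro e' w e hw he v hv
    obtain ⟨w, rfl⟩ := RP.mk_surjective w
    obtain ⟨v, hv', rfl⟩ := RP.exists_mk_of_mem_ker hv
    have hw' : RP.mk F (fun n => qq (P n) (k n) (w n)) = RP.mk F (fun n => ρ' n e') := hw
    rw [RP.mk_eq_mk_iff] at hw'
    change RP.mk F w * RP.mk F v * (RP.mk F w)⁻¹ =
      RP.mk F (fun n => can (P n) (k n + 1) e) * RP.mk F v *
        (RP.mk F (fun n => can (P n) (k n + 1) e))⁻¹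
    rw [← map_inv, ← map_inv, ← map_mul, ← map_mul, ← map_mul, ← map_mul, RP.mk_eq_mk_iff]
    filter_upwards [hw', hFb, hFt (hτ e' e he)] with n h1 hb h2
    have h3 : qq (P n) (k n) (v n) = 1 := hv' n
    have h4 : ee (P n) (k n) (ρ' n e') = τ n e' := DFunLike.congr_fun (hρ' n hb).2.1 e'
    simp only [Pi.mul_apply, Pi.inv_apply]
    -- `z = can e⁻¹ * w` lies over `P n`
    have h5 : ee (P n) (k n + 1) ((can (P n) (k n + 1) e)⁻¹ * w n) = 1 := by
      rw [map_mul, map_inv, ← ee_qq _ _ (w n), h1, h4, h2]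
      simp
    have h6 := central_step (P n) (k n) _ (v n) h5 h3
    have h7 : w n = can (P n) (k n + 1) e * ((can (P n) (k n + 1) e)⁻¹ * w n) := by
      rw [mul_inv_cancel_left]
    generalize (can (P n) (k n + 1) e)⁻¹ * w n = z at h6 h7
    rw [h7, mul_inv_rev]
    calc can (P n) (k n + 1) e * z * v n * (z⁻¹ * (can (P n) (k n + 1) e)⁻¹)
        = can (P n) (k n + 1) e * (z * v n) * z⁻¹ * (can (P n) (k n + 1) e)⁻¹ := by group
      _ = can (P n) (k n + 1) e * (v n * z) * z⁻¹ * (can (P n) (k n + 1) e)⁻¹ := by rw [h6]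
      _ = can (P n) (k n + 1) e * v n * (can (P n) (k n + 1) e)⁻¹ := by group
  obtain ⟨ρ'', h1, h2⟩ := step_single π hπ hperf f f₂ hf hext q hq hab ρ ρR hρ hc
  obtain ⟨ρn, hρn⟩ := RP.lift_fp ρ''
  have e1 : ∀ᶠ n in F, (qq (P n) (k n)).comp (ρn n) = ρ' n := by
    refine RP.eventually_eq_of_fg (E := E') ?_
    intro e'
    have h3 : q (ρ'' e') = ρR e' := DFunLike.congr_fun h1 e'
    rw [← hρn e'] at h3
    exact h3
  have e2 : ∀ᶠ n in F, (ρn n).comp f = can (P n) (k n + 1) := by
    refine RP.eventually_eq_of_fg (E := E) ?_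
    intro e
    have h3 : ρ'' (f e) = ρ e := DFunLike.congr_fun h2 e
    rw [← hρn (f e)] at h3
    exact h3
  obtain ⟨n, hb, h3, h4⟩ := (hFb.and (e1.and e2)).exists
  exact (hρ' n hb).2.2 (ρn n) h3 h4

theorem fg_of_fp (E : Type*) [Group E] [hE : Group.IsFinitelyPresented E] : Group.FG E := by
  obtain ⟨n, φ, hφ, _⟩ := hE.out
  exact Group.fg_of_surjective hφ

/-- The homs `τ n : E' → E ⧸ P n` for large `n`. -/
theorem exists_tau {E E' G : Type} [Group E] [Group E'] [Group G] [Group.FG E]
    [Group.IsFinitelyPresented E']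
    (π : E →* G) (hπ : Function.Surjective π) (P : ℕ → Subgroup E) [hn : ∀ n, (P n).Normal]
    (hmono : Monotone P) (hker : π.ker = ⨆ n, P n)
    (f : E →* E') (f₂ : E' →* G) (hf : f₂.comp f = π) :
    ∃ τ : ∀ n, E' →* E ⧸ P n,
      (∀ e' e, f₂ e' = π e → ∀ᶠ n in atTop, τ n e' = (QuotientGroup.mk e : E ⧸ P n)) ∧
      ∀ᶠ n in atTop, (τ n).comp f = QuotientGroup.mk' (P n) := by
  -- the hom `G → RP`
  let θ : E →* RP (fun n => E ⧸ P n) atTop := RP.ofFam atTop (fun n => QuotientGroup.mk' (P n))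
  have hθ : π.ker ≤ θ.ker := by
    rw [hker, iSup_le_iff]
    intro n e he
    rw [MonoidHom.mem_ker]
    change RP.mk atTop (fun n => (QuotientGroup.mk e : E ⧸ P n)) = 1
    rw [RP.mk_eq_one_iff]
    filter_upwards [eventually_ge_atTop n] with j hj
    rw [QuotientGroup.eq_one_iff]
    exact hmono hj he
  let ϑ : G →* RP (fun n => E ⧸ P n) atTop := (π.liftOfSurjective hπ) ⟨θ, hθ⟩
  have hϑ : ∀ e, ϑ (π e) = θ e := fun e =>
    MonoidHom.liftOfRightInverse_comp_apply _ _ _ ⟨θ, hθ⟩ e
  obtain ⟨τ, hτ⟩ := RP.lift_fp (ϑ.comp f₂)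
  have key : ∀ e' e, f₂ e' = π e → ∀ᶠ n in atTop, τ n e' = (QuotientGroup.mk e : E ⧸ P n) := by
    intro e' e he
    have h1 := hτ e'
    rw [MonoidHom.comp_apply, he, hϑ] at h1
    exact RP.mk_eq_mk_iff.mp h1
  refine ⟨τ, key, ?_⟩
  refine RP.eventually_eq_of_fg (E := E) ?_
  intro e
  rw [RP.mk_eq_mk_iff]
  exact key (f e) e (DFunLike.congr_fun hf e)

end Obs

open Obs Filter in
/-- The obstruction theorem. -/
theorem obstruction {E G : Type} [Group E] [Group G] [Group.IsFinitelyPresented E]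
    (π : E →* G) (hπ : Function.Surjective π) (P : ℕ → Subgroup E) (hn : ∀ n, (P n).Normal)
    (hmono : Monotone P) (hfng : ∀ n, (P n).IsFinitelyNormallyGenerated)
    (hker : π.ker = ⨆ n, P n) (hperf : ⁅π.ker, π.ker⁆ = π.ker) (hG : ExtProp G) (m : ℕ) :
    ∃ n₀, ∀ n, n₀ ≤ n → ∀ k, P m ≤ gam (P n) k := by
  have := hn
  have : Group.FG E := fg_of_fp E
  have hPm : P m ≤ π.ker := by rw [hker]; exact le_iSup P m
  have : Group.IsFinitelyPresented (E ⧸ P m) :=
    Group.IsFinitelyPresented.quotient (P m) (hfng m)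
  obtain ⟨E', _, hE', g₁, g₂, hg, hext⟩ := hG (E ⧸ P m) (QuotientGroup.lift (P m) π hPm)
  have := hE'
  have : Group.FG E' := fg_of_fp E'
  let f : E →* E' := g₁.comp (QuotientGroup.mk' (P m))
  have hf : g₂.comp f = π := by
    ext e
    exact DFunLike.congr_fun hg (QuotientGroup.mk e)
  obtain ⟨τ, hτ1, hτ2⟩ := exists_tau π hπ P hmono hker f g₂ hf
  obtain ⟨n₀, hn₀⟩ := step_uniform π hπ P hperf f g₂ hf hext τ hτ1
  obtain ⟨n₁, hn₁⟩ := eventually_atTop.mp hτ2
  refine ⟨max n₀ n₁, fun n hnn k => ?_⟩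
  have main : ∀ k, ∃ ρ' : E' →* E ⧸ gam (P n) k, ρ'.comp f = can (P n) k ∧
      (ee (P n) k).comp ρ' = τ n := by
    intro k
    induction k with
    | zero =>
      refine ⟨τ n, hn₁ n (le_of_max_le_right hnn), ?_⟩
      refine MonoidHom.ext fun e' => ?_
      exact ee_zero (P n) (τ n e')
    | succ k ih =>
      obtain ⟨ρ', h1, h2⟩ := ih
      obtain ⟨ρ'', h3, h4⟩ := hn₀ n (le_of_max_le_left hnn) k ρ' h1 h2
      refine ⟨ρ'', h4, ?_⟩
      ext e'
      rw [MonoidHom.comp_apply, ← ee_qq, ← h2, MonoidHom.comp_apply, ← h3]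
      rfl
  obtain ⟨ρ', h1, _⟩ := main k
  intro p hp
  have h2 : can (P n) k p = 1 := by
    rw [← h1]
    change ρ' (g₁ (QuotientGroup.mk' (P m) p)) = 1
    have : QuotientGroup.mk' (P m) p = 1 := (QuotientGroup.eq_one_iff p).mpr hp
    rw [this, map_one, map_one]
  exact (QuotientGroup.eq_one_iff p).mp h2

end Crest.Agent.R197
end

-- ▼ part R197/AsphExt

/-! Row 197, module F': an aspherical presentation gives the extension property. -/

set_option autoImplicit false

namespace Crest.Agent.R197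

namespace AsphExt

/-! ### finite supports -/

section supp
variable {I : Type}

open Classical in
/-- retraction `F(I) → F(I')` -/
noncomputable def ret (I' : Set I) : FreeGroup I →* FreeGroup I' :=
  FreeGroup.lift (fun i => if h : i ∈ I' then FreeGroup.of ⟨i, h⟩ else 1)

/-- inclusion `F(I') → F(I)` -/
def inc (I' : Set I) : FreeGroup I' →* FreeGroup I := FreeGroup.map Subtype.val

theorem ret_inc (I' : Set I) (w : FreeGroup I') : ret I' (inc I' w) = w := by
  have : (ret I').comp (inc I') = MonoidHom.id _ := by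
    apply FreeGroup.ext_hom
    intro i
    simp [ret, inc]
  exact DFunLike.congr_fun this w

def Supp (I' : Set I) (w : FreeGroup I) : Prop := inc I' (ret I' w) = w

theorem supp_mono {I' I'' : Set I} (h : I' ⊆ I'') (w : FreeGroup I) (hw : Supp I' w) :
    Supp I'' w := by
  have key : ∀ u : FreeGroup I', inc I' u = inc I'' (FreeGroup.map (Set.inclusion h) u) := by
    intro u
    have : inc I' = (inc I'').comp (FreeGroup.map (Set.inclusion h)) := by
      apply FreeGroup.ext_hom
      intro i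
      simp [inc]
    rw [this]; rfl
  unfold Supp at *
  rw [← hw, key, ret_inc]

theorem supp_mul {I' : Set I} {a b : FreeGroup I} (ha : Supp I' a) (hb : Supp I' b) :
    Supp I' (a * b) := by
  unfold Supp at *
  rw [map_mul, map_mul, ha, hb]

theorem supp_inv {I' : Set I} {a : FreeGroup I} (ha : Supp I' a) : Supp I' a⁻¹ := by
  unfold Supp at *
  rw [map_inv, map_inv, ha]

theorem supp_of {I' : Set I} {i : I} (hi : i ∈ I') : Supp I' (FreeGroup.of i) := by
  simp [Supp, ret, inc, hi]

theorem exists_supp (w : FreeGroup I) : ∃ I' : Set I, I'.Finite ∧ Supp I' w := by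
  induction w using FreeGroup.induction_on with
  | C1 => exact ⟨∅, Set.finite_empty, by simp [Supp]⟩
  | of i => exact ⟨{i}, Set.finite_singleton i, supp_of rfl⟩
  | inv_of i h =>
    obtain ⟨I', h1, h2⟩ := h
    exact ⟨I', h1, supp_inv h2⟩
  | mul a b ha hb =>
    obtain ⟨I1, h1, h1'⟩ := ha
    obtain ⟨I2, h2, h2'⟩ := hb
    exact ⟨I1 ∪ I2, h1.union h2, supp_mul (supp_mono Set.subset_union_left _ h1')
      (supp_mono Set.subset_union_right _ h2')⟩

theorem exists_supp_family {K : Type} (hK : Finite K) (w : K → FreeGroup I) :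
    ∃ I' : Set I, I'.Finite ∧ ∀ k, Supp I' (w k) := by
  choose f hf hf' using fun k => exists_supp (w k)
  exact ⟨⋃ k, f k, Set.finite_iUnion hf, fun k => supp_mono (Set.subset_iUnion f k) _ (hf' k)⟩

end supp

/-! ### finitely many relators -/

theorem exists_finite_relators {F J : Type} [Group F] (r : J → F) (w : F)
    (hw : w ∈ Subgroup.normalClosure (Set.range r)) :
    ∃ J' : Set J, J'.Finite ∧ w ∈ Subgroup.normalClosure (r '' J') := by
  let N : Subgroup F :=
    { carrier := {w | ∃ J' : Set J, J'.Finite ∧ w ∈ Subgroup.normalClosure (r '' J')}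
      one_mem' := ⟨∅, Set.finite_empty, one_mem _⟩
      mul_mem' := by
        rintro a b ⟨J1, h1, h1'⟩ ⟨J2, h2, h2'⟩
        exact ⟨J1 ∪ J2, h1.union h2, mul_mem
          (Subgroup.normalClosure_mono (Set.image_mono Set.subset_union_left) h1')
          (Subgroup.normalClosure_mono (Set.image_mono Set.subset_union_right) h2')⟩
      inv_mem' := by
        rintro a ⟨J1, h1, h1'⟩
        exact ⟨J1, h1, inv_mem h1'⟩ }
  have hN : N.Normal := ⟨by
    rintro a ⟨J1, h1, h1'⟩ g
    exact ⟨J1, h1, Subgroup.normalClosure_normal.conj_mem a h1' g⟩⟩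
  have : Subgroup.normalClosure (Set.range r) ≤ N := by
    apply Subgroup.normalClosure_le_normal
    rintro _ ⟨j, rfl⟩
    exact ⟨{j}, Set.finite_singleton j, Subgroup.subset_normalClosure ⟨j, rfl, rfl⟩⟩
  exact this hw

theorem exists_finite_relators_family {F J K : Type} [Group F] (hK : Finite K) (r : J → F)
    (w : K → F) (hw : ∀ k, w k ∈ Subgroup.normalClosure (Set.range r)) :
    ∃ J' : Set J, J'.Finite ∧ ∀ k, w k ∈ Subgroup.normalClosure (r '' J') := by
  choose f hf hf' using fun k => exists_finite_relators r (w k) (hw k)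
  exact ⟨⋃ k, f k, Set.finite_iUnion hf, fun k =>
    Subgroup.normalClosure_mono (Set.image_mono (Set.subset_iUnion f k)) (hf' k)⟩

/-! ### the extension of `G` -/

section ext
variable {G : Type} [Group G] {V : Type} [AddCommGroup V] [DistribMulAction G V]

/-- action on `Multiplicative V` through `f` -/
def act {Γ : Type} [Group Γ] (V : Type) [AddCommGroup V] [DistribMulAction G V] (f : Γ →* G) :
    Γ →* MulAut (Multiplicative V) :=
  { toFun := fun w => AddEquiv.toMultiplicative (DistribMulAction.toAddEquiv V (f w))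
    map_one' := by
      ext v
      change Multiplicative.ofAdd (f 1 • Multiplicative.toAdd v) = v
      simp
    map_mul' := by
      intro a b
      ext v
      change Multiplicative.ofAdd (f (a * b) • Multiplicative.toAdd v) =
        Multiplicative.ofAdd (f a • (f b • Multiplicative.toAdd v))
      rw [map_mul, mul_smul] }

theorem act_apply {Γ : Type} [Group Γ] (f : Γ →* G) (w : Γ) (v : V) :
    act V f w (Multiplicative.ofAdd v) = Multiplicative.ofAdd (f w • v) := rfl

variable {F : Type} [Group F] (π : F →* G) (s : F → V)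

/-- the normal subgroup `{(-s a, a)}` -/
def nn (h1 : ∀ a b, π a = 1 → π b = 1 → s (a * b) = s a + s b)
    (_h2 : ∀ w a, π a = 1 → s (w * a * w⁻¹) = π w • s a) :
    Subgroup (Multiplicative V ⋊[act V π] F) where
  carrier := {p | π p.right = 1 ∧ p.left = Multiplicative.ofAdd (- s p.right)}
  one_mem' := by
    have : s 1 = 0 := by
      have := h1 1 1 (map_one _) (map_one _)
      simpa using this
    simp [this]
  mul_mem' := by
    rintro ⟨v, a⟩ ⟨v', b⟩ ⟨ha, hv⟩ ⟨hb, hv'⟩
    simp only at ha hv hb hv'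
    refine ⟨by simp [ha, hb], ?_⟩
    simp only [SemidirectProduct.mul_left, SemidirectProduct.mul_right, hv, hv', act_apply, ha,
      one_smul, h1 a b ha hb, ← ofAdd_add]
    congr 1
    abel
  inv_mem' := by
    rintro ⟨v, a⟩ ⟨ha, hv⟩
    simp only at ha hv
    have h0 : s 1 = 0 := by
      have := h1 1 1 (map_one _) (map_one _)
      simpa using this
    have hi : s a⁻¹ = - s a := by
      have := h1 a a⁻¹ ha (by simp [ha])
      rw [mul_inv_cancel, h0] at this
      exact (neg_eq_of_add_eq_zero_right this.symm).symm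
    refine ⟨by simp [ha], ?_⟩
    simp only [SemidirectProduct.inv_left, SemidirectProduct.inv_right, hv, hi, ← ofAdd_neg,
      act_apply]
    simp [ha]

theorem nn_normal (h1 : ∀ a b, π a = 1 → π b = 1 → s (a * b) = s a + s b)
    (h2 : ∀ w a, π a = 1 → s (w * a * w⁻¹) = π w • s a) : (nn π s h1 h2).Normal := by
  constructor
  rintro ⟨v, a⟩ ⟨ha, hv⟩ ⟨u, w⟩
  simp only at ha hv
  refine ⟨by simp [ha], ?_⟩
  have e : (⟨u, w⟩ : Multiplicative V ⋊[act V π] F)⁻¹
      = ⟨Multiplicative.ofAdd (- ((π w)⁻¹ • Multiplicative.toAdd u)), w⁻¹⟩ := by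
    ext
    · simp only [SemidirectProduct.inv_left]
      rw [← ofAdd_toAdd u, ← ofAdd_neg, act_apply]
      simp
    · simp
  rw [e]
  obtain ⟨u, rfl⟩ : ∃ u' : V, u = Multiplicative.ofAdd u' := ⟨Multiplicative.toAdd u, rfl⟩
  simp only [SemidirectProduct.mul_left, SemidirectProduct.mul_right, hv, act_apply,
    h2 w a ha, ← ofAdd_add, toAdd_ofAdd]
  congr 1
  simp [ha, smul_neg, smul_smul]

/-- the extension of `G` by `V` determined by `s` -/
def extX (hπ : Function.Surjective π)
    (h1 : ∀ a b, π a = 1 → π b = 1 → s (a * b) = s a + s b)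
    (h2 : ∀ w a, π a = 1 → s (w * a * w⁻¹) = π w • s a) : ExtVia (MonoidHom.id G) V :=
  haveI := nn_normal π s h1 h2
  { U := (Multiplicative V ⋊[act V π] F) ⧸ nn π s h1 h2
    ι := (QuotientGroup.mk' (nn π s h1 h2)).comp SemidirectProduct.inl
    κ := QuotientGroup.lift (nn π s h1 h2) (π.comp SemidirectProduct.rightHom) (by
      rintro ⟨v, a⟩ ⟨ha, -⟩
      simpa using ha)
    inj := by
      rw [injective_iff_map_eq_one]
      intro v hv
      have : (SemidirectProduct.inl v : Multiplicative V ⋊[act V π] F) ∈ nn π s h1 h2 :=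
        (QuotientGroup.eq_one_iff _).mp hv
      obtain ⟨-, h⟩ := this
      have h0 : s 1 = 0 := by
        have := h1 1 1 (map_one _) (map_one _)
        simpa using this
      simpa [h0] using h
    surj := by
      intro g
      obtain ⟨w, rfl⟩ := hπ g
      exact ⟨QuotientGroup.mk' _ (SemidirectProduct.inr w), by simp⟩
    exact := by
      intro u
      obtain ⟨⟨v, w⟩, rfl⟩ := QuotientGroup.mk'_surjective _ u
      constructor
      · intro h
        have hw : π w = 1 := by simpa using h
        refine ⟨v * Multiplicative.ofAdd (s w), ?_⟩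
        apply QuotientGroup.eq.mpr
        refine ⟨by simpa using hw, ?_⟩
        obtain ⟨v, rfl⟩ : ∃ u' : V, v = Multiplicative.ofAdd u' := ⟨Multiplicative.toAdd v, rfl⟩
        simp [← ofAdd_add, ← ofAdd_neg]
      · rintro ⟨v', h⟩
        rw [← h]
        simp
    act := by
      intro u v
      obtain ⟨⟨u, w⟩, rfl⟩ := QuotientGroup.mk'_surjective _ u
      rw [MonoidHom.comp_apply, MonoidHom.comp_apply, ← map_inv, ← map_mul, ← map_mul]
      congr 1
      ext
      · obtain ⟨u, rfl⟩ : ∃ u' : V, u = Multiplicative.ofAdd u' := ⟨Multiplicative.toAdd u, rfl⟩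
        simp only [SemidirectProduct.mul_left, SemidirectProduct.mul_right,
          SemidirectProduct.inv_left, SemidirectProduct.left_inl, SemidirectProduct.right_inl,
          ← ofAdd_neg, act_apply, ← ofAdd_add, mul_one]
        simp [smul_smul]
      · simp }

end ext

end AsphExt

open AsphExt

/-- module F' -/
theorem extProp_of_asph (G : Type) [Group G] (h : AsphericalPresentation G) : ExtProp G := by
  classical
  obtain ⟨I, J, π, r, hπ, hker, hs⟩ := h
  intro E₁ _ hE₁ g
  obtain ⟨n, φ, hφ, T, hTfin, hT⟩ := hE₁.out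
  haveI : Finite T := hTfin
  choose w hw using fun i : Fin n => hπ (g (φ (FreeGroup.of i)))
  let ψ : FreeGroup (Fin n) →* FreeGroup I := FreeGroup.lift w
  have hψ : π.comp ψ = g.comp φ := by
    apply FreeGroup.ext_hom
    intro i
    simp [ψ, hw]
  have hψ' : ∀ u, π (ψ u) = g (φ u) := fun u => DFunLike.congr_fun hψ u
  have hTr : ∀ t : T, ψ t ∈ Subgroup.normalClosure (Set.range r) := by
    intro t
    rw [← hker, MonoidHom.mem_ker, hψ']
    have : (t : FreeGroup (Fin n)) ∈ φ.ker := hT ▸ Subgroup.subset_normalClosure t.2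
    rw [MonoidHom.mem_ker.mp this, map_one]
  obtain ⟨J', hJ', hJt⟩ := exists_finite_relators_family (inferInstance : Finite T) r _ hTr
  haveI : Finite J' := hJ'
  obtain ⟨I1, hI1, hI1w⟩ := exists_supp_family (inferInstance : Finite (Fin n)) w
  obtain ⟨I2, hI2, hI2r⟩ := exists_supp_family (inferInstance : Finite J') (fun j : J' => r j)
  let I' := I1 ∪ I2
  haveI : Finite I' := hI1.union hI2
  have hwI : ∀ i, Supp I' (w i) := fun i => supp_mono Set.subset_union_left _ (hI1w i)
  have hrI : ∀ j : J', Supp I' (r j) := fun j => supp_mono Set.subset_union_right _ (hI2r j)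
  let r' : J' → FreeGroup I' := fun j => ret I' (r j)
  have hr' : ∀ j : J', inc I' (r' j) = r j := fun j => hrI j
  -- the finitely presented group
  let E' := PresentedGroup (Set.range r')
  let mk : FreeGroup I' →* E' := PresentedGroup.mk (Set.range r')
  have hmk : Function.Surjective mk := PresentedGroup.mk_surjective _
  have hmkker : mk.ker = Subgroup.normalClosure (Set.range r') := QuotientGroup.ker_mk' _
  have hπr : ∀ j, π (r j) = 1 := by
    intro j
    rw [← MonoidHom.mem_ker, hker]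
    exact Subgroup.subset_normalClosure ⟨j, rfl⟩
  let g₂ : E' →* G := QuotientGroup.lift _ (π.comp (inc I')) (by
    have : Subgroup.normalClosure (Set.range r') ≤ (π.comp (inc I')).ker := by
      apply Subgroup.normalClosure_le_normal
      rintro _ ⟨j, rfl⟩
      simp only [SetLike.mem_coe, MonoidHom.mem_ker, MonoidHom.comp_apply, hr', hπr]
    intro x hx
    exact this hx)
  have hg₂ : ∀ u, g₂ (mk u) = π (inc I' u) := fun u => rfl
  -- the map from E₁
  let ψ₁ : FreeGroup (Fin n) →* E' := (mk.comp (ret I')).comp ψ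
  have hψ₁T : φ.ker ≤ ψ₁.ker := by
    rw [← hT]
    apply Subgroup.normalClosure_le_normal
    intro t ht
    have h1 := hJt ⟨t, ht⟩
    have h2 : Subgroup.normalClosure (r '' J') ≤ (mk.comp (ret I')).ker := by
      apply Subgroup.normalClosure_le_normal
      rintro _ ⟨j, hj, rfl⟩
      have : ret I' (r j) = r' ⟨j, hj⟩ := rfl
      simp only [SetLike.mem_coe, MonoidHom.mem_ker, MonoidHom.comp_apply, this]
      rw [← MonoidHom.mem_ker, hmkker]
      exact Subgroup.subset_normalClosure ⟨_, rfl⟩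
    exact h2 h1
  let g₁ : E₁ →* E' := MonoidHom.liftOfSurjective φ hφ ⟨ψ₁, hψ₁T⟩
  have hg₁ : ∀ u, g₁ (φ u) = ψ₁ u := fun u =>
    MonoidHom.liftOfRightInverse_comp_apply φ _ (Function.rightInverse_surjInv hφ) ⟨ψ₁, hψ₁T⟩ u
  haveI : Finite (Set.range r') := Set.finite_range r'
  refine ⟨E', inferInstance, inferInstance, g₁, g₂, ?_, ?_⟩
  · apply MonoidHom.ext
    intro e
    obtain ⟨u, rfl⟩ := hφ e
    rw [MonoidHom.comp_apply, hg₁]
    have hψI : ∀ u, Supp I' (ψ u) := by
      intro u
      have : ((inc I').comp (ret I')).comp ψ = ψ := by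
        apply FreeGroup.ext_hom
        intro i
        have := hwI i
        unfold Supp at this
        simpa [ψ] using this
      exact DFunLike.congr_fun this u
    change g₂ (mk (ret I' (ψ u))) = _
    rw [hg₂, hψI u, hψ']
  · intro V _ _ X'
    -- lifts of the generators
    choose z hz using fun i : I' => X'.surj (mk (FreeGroup.of i))
    let σ : FreeGroup I' →* X'.U := FreeGroup.lift z
    have hσ' : X'.κ.comp σ = mk := by
      apply FreeGroup.ext_hom
      intro i
      simp [σ, hz]
    have hσ : ∀ u, X'.κ (σ u) = mk u := fun u => DFunLike.congr_fun hσ' u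
    have hex : ∀ j : J', ∃ v : Multiplicative V, X'.ι v = σ (r' j) := by
      intro j
      apply (X'.exact _).mp
      rw [hσ, ← MonoidHom.mem_ker, hmkker]
      exact Subgroup.subset_normalClosure ⟨_, rfl⟩
    choose vj hvj using hex
    obtain ⟨s, h1, h2, h3⟩ := hs V (fun j => if hj : j ∈ J' then Multiplicative.toAdd (vj ⟨j, hj⟩)
      else 0)
    have h0 : s 1 = 0 := by
      have := h1 1 1 (map_one _) (map_one _)
      simpa using this
    -- key: σ on the kernel
    have hkey : ∀ a ∈ mk.ker, π (inc I' a) = 1 ∧ σ a = X'.ι (Multiplicative.ofAdd (s (inc I' a))) := by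
      intro a ha
      rw [hmkker] at ha
      let N : Subgroup (FreeGroup I') :=
        { carrier := {a | π (inc I' a) = 1 ∧ σ a = X'.ι (Multiplicative.ofAdd (s (inc I' a)))}
          one_mem' := by simp [h0]
          mul_mem' := by
            rintro a b ⟨ha, ha'⟩ ⟨hb, hb'⟩
            refine ⟨by simp [ha, hb], ?_⟩
            rw [map_mul, ha', hb', map_mul, h1 _ _ ha hb, ofAdd_add, map_mul]
          inv_mem' := by
            rintro a ⟨ha, ha'⟩
            refine ⟨by simp [ha], ?_⟩
            have hi : s (inc I' a)⁻¹ = - s (inc I' a) := by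
              have := h1 (inc I' a) (inc I' a)⁻¹ ha (by simp [ha])
              rw [mul_inv_cancel, h0] at this
              exact (neg_eq_of_add_eq_zero_right this.symm).symm
            rw [map_inv, ha', map_inv, hi, ofAdd_neg, map_inv] }
      have hN : N.Normal := ⟨by
        rintro a ⟨ha, ha'⟩ w
        refine ⟨by simp [ha], ?_⟩
        rw [map_mul, map_mul, ha', map_inv, X'.act, hσ, hg₂, map_mul, map_mul, map_inv,
          h2 _ _ ha]⟩
      have : Subgroup.normalClosure (Set.range r') ≤ N := by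
        apply Subgroup.normalClosure_le_normal
        rintro _ ⟨j, rfl⟩
        refine ⟨by rw [hr', hπr], ?_⟩
        rw [hr', h3, dif_pos j.2, ← hvj]
        rfl
      exact this ha
    refine ⟨extX π s hπ h1 h2, ?_⟩
    -- the surjection from the semidirect product
    let P : Multiplicative V ⋊[act V (π.comp (inc I'))] (FreeGroup I') →* X'.U :=
      SemidirectProduct.lift X'.ι σ (by
        intro w
        apply MonoidHom.ext
        intro v
        have h := X'.act (σ w) (Multiplicative.toAdd v)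
        rw [hσ, hg₂] at h
        exact h.symm)
    have hP : Function.Surjective P := by
      intro u
      obtain ⟨w, hw⟩ := hmk (X'.κ u)
      have : X'.κ (u * (σ w)⁻¹) = 1 := by
        rw [map_mul, map_inv, hσ, hw, mul_inv_cancel]
      obtain ⟨v, hv⟩ := (X'.exact _).mp this
      refine ⟨⟨v, w⟩, ?_⟩
      change X'.ι v * σ w = u
      rw [hv]; group
    let Q₀ : Multiplicative V ⋊[act V (π.comp (inc I'))] (FreeGroup I') →*
        Multiplicative V ⋊[act V π] (FreeGroup I) :=
      SemidirectProduct.map (MonoidHom.id _) (inc I') (by intro w; rfl)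
    haveI := nn_normal π s h1 h2
    let Q : Multiplicative V ⋊[act V (π.comp (inc I'))] (FreeGroup I') →* (extX π s hπ h1 h2).U :=
      (QuotientGroup.mk' (nn π s h1 h2)).comp Q₀
    have hPQ : P.ker ≤ Q.ker := by
      rintro ⟨v, a⟩ h
      have h' : X'.ι v * σ a = 1 := h
      have ha : a ∈ mk.ker := by
        rw [MonoidHom.mem_ker, ← hσ]
        have := congrArg X'.κ h'
        rw [map_mul, map_one, (X'.exact _).mpr ⟨v, rfl⟩, one_mul] at this
        exact this
      obtain ⟨hk1, hk2⟩ := hkey a ha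
      rw [hk2, ← map_mul] at h'
      have h'' := X'.inj (h'.trans (map_one _).symm)
      rw [MonoidHom.mem_ker]
      apply (QuotientGroup.eq_one_iff _).mpr
      refine ⟨hk1, ?_⟩
      change v = Multiplicative.ofAdd (- s (inc I' a))
      rw [ofAdd_neg]
      exact eq_inv_of_mul_eq_one_left h''
    let Θ : X'.U →* (extX π s hπ h1 h2).U := MonoidHom.liftOfSurjective P hP ⟨Q, hPQ⟩
    have hΘ : ∀ p, Θ (P p) = Q p := fun p =>
      MonoidHom.liftOfRightInverse_comp_apply P _ (Function.rightInverse_surjInv hP) ⟨Q, hPQ⟩ p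
    refine ⟨Θ, ?_, ?_⟩
    · intro v
      have : X'.ι v = P (SemidirectProduct.inl v) := by simp [P]
      rw [this, hΘ]
      rfl
    · intro u
      obtain ⟨⟨v, a⟩, rfl⟩ := hP u
      rw [hΘ]
      change π (inc I' a) = g₂ (X'.κ (X'.ι v * σ a))
      rw [map_mul, (X'.exact _).mpr ⟨v, rfl⟩, one_mul, hσ, hg₂]

end Crest.Agent.R197
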