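import Mathlib
import Crest.Agent.R197.Defs
import Crest.Agent.R197.NDefs
import Crest.Agent.R197.Coind

-- ▼ part R197/CdDefs
section

/-!
# Row 197, module D (`cd_GG`): interface definitions

`CoindLike G C`: every derivation of every subgroup of `G` into `C` is inner (true for `C = G → M`).
`SplitProp G`: every extension of `G` by `C / M`, `C` coinduced-like, splits.
-/

set_option autoImplicit false

namespace Crest.Agent.R197

/-- Every derivation from a subgroup of `G` into the `G`-module `C` is inner. -/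
def CoindLike (G C : Type) [Group G] [AddCommGroup C] [DistribMulAction G C] : Prop :=
  ∀ (K : Subgroup G) (δ : K → C),
    (∀ a b : K, δ (a * b) = δ a + (a : G) • δ b) → ∃ z : C, ∀ k : K, δ k = (k : G) • z - z

/-- Every extension of `G` by `Q = C / M` with `C` coinduced-like splits. -/
def SplitProp (G : Type) [Group G] : Prop :=
  ∀ (M C Q : Type) [AddCommGroup M] [AddCommGroup C] [AddCommGroup Q]
    [DistribMulAction G M] [DistribMulAction G C] [DistribMulAction G Q]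
    (ι : M →+ C) (p : C →+ Q),
    Function.Injective ι → Function.Surjective p → (∀ c, p c = 0 ↔ ∃ m, ι m = c) →
    (∀ (g : G) (m : M), ι (g • m) = g • ι m) → (∀ (g : G) (c : C), p (g • c) = g • p c) →
    CoindLike G C →
    ∀ X : ExtVia (MonoidHom.id G) Q, ∃ s : G →* X.U, ∀ g, X.κ (s g) = g

end Crest.Agent.R197
end

-- ▼ part R197/CdAlg
section

/-!
# Row 197, module D: algebraic preliminaries

Semidirect products `Sdp G C`, the twisting subgroup of an extension, the words `Lw`, and the solution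
of the linear system of the letters (`exists_v`).
-/

set_option autoImplicit false
set_option linter.unusedSectionVars false
set_option linter.unusedTactic false
set_option linter.unreachableTactic false

namespace Crest.Agent.R197
namespace Cd

/-! ### Words -/

section words
variable {H : Type*} [Group H]

/-- `a^n b^{-n} c^n d^{-n}` -/
def lam4 (a b c d : H) (n : ℤ) : H := a ^ n * b ^ (-n) * c ^ n * d ^ (-n)


theorem map_lam4 {K : Type*} [Group K] (f : H →* K) (a b c d : H) (n : ℤ) :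
    f (lam4 a b c d n) = lam4 (f a) (f b) (f c) (f d) n := by
  simp [lam4]

theorem lam4_mem (T : Subgroup H) {a b c d : H} (ha : a ∈ T) (hb : b ∈ T) (hc : c ∈ T) (hd : d ∈ T)
    (n : ℤ) : lam4 a b c d n ∈ T :=
  mul_mem (mul_mem (mul_mem (zpow_mem ha _) (zpow_mem hb _)) (zpow_mem hc _)) (zpow_mem hd _)

theorem Aw_mem (T : Subgroup H) {x y : Fin 4 → H} (hx : ∀ i, x i ∈ T) (hy : ∀ k, y k ∈ T)
    (i k : Fin 4) : Aw x y i k ∈ T := mul_mem (hy k) (inv_mem (hx i))


theorem lam_mem (T : Subgroup H) {x y : Fin 4 → H} (hx : ∀ i, x i ∈ T) (hy : ∀ k, y k ∈ T)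
    (i j k l : Fin 4) (n : ℤ) : lam x y i j k l n ∈ T :=
  lam4_mem T (Aw_mem T hx hy _ _) (Aw_mem T hx hy _ _) (Aw_mem T hx hy _ _) (Aw_mem T hx hy _ _) n

/-- `A_{0k}^n A_{ik}^{-n}` -/
def Lw (x y : Fin 4 → H) (i k : Fin 4) (n : ℤ) : H := (Aw x y 0 k) ^ n * (Aw x y i k) ^ (-n)

theorem Lw_mem (T : Subgroup H) {x y : Fin 4 → H} (hx : ∀ i, x i ∈ T) (hy : ∀ k, y k ∈ T)
    (i k : Fin 4) (n : ℤ) : Lw x y i k n ∈ T :=
  mul_mem (zpow_mem (Aw_mem T hx hy _ _) _) (zpow_mem (Aw_mem T hx hy _ _) _)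

theorem map_Lw {K : Type*} [Group K] (f : H →* K) (x y : Fin 4 → H) (i k : Fin 4) (n : ℤ) :
    f (Lw x y i k n) = Lw (fun i => f (x i)) (fun k => f (y k)) i k n := by
  simp [Lw, map_Aw]

@[simp] theorem Lw_zero (x y : Fin 4 → H) (i k : Fin 4) : Lw x y i k 0 = 1 := by simp [Lw]

@[simp] theorem Lw_i0 (x y : Fin 4 → H) (k : Fin 4) (n : ℤ) : Lw x y 0 k n = 1 := by simp [Lw]

theorem lam_eq_Lw (x y : Fin 4 → H) (i j k l : Fin 4) (n : ℤ) :
    lam x y i j k l n = (Lw x y i k n)⁻¹ * Lw x y j k n * (Lw x y j l n)⁻¹ * Lw x y i l n := by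
  simp only [lam, Lw, zpow_neg]
  group

theorem Lw_succ {x : Fin 4 → H} (hx0 : x 0 = 1) (y : Fin 4 → H) (i k : Fin 4) (n : ℤ) :
    Lw x y i k (n + 1) = y k * Lw x y i k n * (x i * (y k)⁻¹) := by
  have h0 : Aw x y 0 k = y k := by simp [Aw, hx0]
  rw [Lw, Lw, h0, add_comm n 1, zpow_add, zpow_one]
  have : (Aw x y i k) ^ (-(1 + n)) = (Aw x y i k) ^ (-n) * (Aw x y i k)⁻¹ := by
    rw [← zpow_neg_one, ← zpow_add]; congr 1; ring
  rw [this]
  simp only [Aw, mul_inv_rev, inv_inv, mul_assoc]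

theorem Lw_neg_one {x : Fin 4 → H} (hx0 : x 0 = 1) (y : Fin 4 → H) (i k : Fin 4) :
    Lw x y i k (-1) = (x i)⁻¹ := by
  simp [Lw, Aw, hx0]

/-- conjugated loops (L1) -/
theorem lam4_Bw (x y : Fin 4 → H) (i j k l : Fin 4) (n : ℤ) :
    lam4 (Bw x y i k) (Bw x y j k) (Bw x y j l) (Bw x y i l) n =
      (x i)⁻¹ * lam x y i j k l (n - 1) * x i := by
  have hB : ∀ (i k : Fin 4) (n : ℤ), (Bw x y i k) ^ n = (x i)⁻¹ * (Aw x y i k) ^ n * x i := by
    intro i k n
    have : Bw x y i k = (x i)⁻¹ * Aw x y i k * (x i)⁻¹⁻¹ := by simp [Bw, Aw, mul_assoc]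
    rw [this, conj_zpow, inv_inv]
  have e1 : ∀ (i k : Fin 4) (n : ℤ), (Bw x y i k) ^ n = (x i)⁻¹ * (Aw x y i k) ^ (n - 1) * y k := by
    intro i k n
    rw [hB]
    have : (Aw x y i k) ^ n = (Aw x y i k) ^ (n - 1) * Aw x y i k := by
      rw [← zpow_add_one]; congr 1; ring
    rw [this]
    simp [Aw, mul_assoc]
  have e2 : ∀ (i k : Fin 4) (n : ℤ), (Bw x y i k) ^ (-n) = (y k)⁻¹ * (Aw x y i k) ^ (-(n - 1)) * x i := by
    intro i k n
    rw [zpow_neg, e1, zpow_neg]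
    simp [mul_assoc]
  simp only [lam4, lam, e1 i k, e2 j k, e1 j l, e2 i l]
  group

theorem rec_unique (a b : H) (P Q : ℤ → H) (h0 : P 0 = Q 0)
    (hP : ∀ n, P (n + 1) = a * P n * b) (hQ : ∀ n, Q (n + 1) = a * Q n * b) : ∀ n, P n = Q n := by
  intro n
  induction n using Int.induction_on with
  | zero => exact h0
  | succ n ih => rw [hP, hQ, ih]
  | pred n ih =>
    have h1 := hP (-(n : ℤ) - 1)
    have h2 := hQ (-(n : ℤ) - 1)
    rw [sub_add_cancel] at h1 h2
    rw [h1, h2] at ih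
    exact mul_left_cancel (mul_right_cancel ih)

end words

/-! ### The semidirect product `C ⋊ G`, additive notation for `C` -/

/-- semidirect product -/
@[ext] structure Sdp (G C : Type) where
  c : C
  g : G

namespace Sdp
variable {G C : Type} [Group G] [AddCommGroup C] [DistribMulAction G C]

instance : Mul (Sdp G C) := ⟨fun a b => ⟨a.c + a.g • b.c, a.g * b.g⟩⟩
instance : One (Sdp G C) := ⟨⟨0, 1⟩⟩
instance : Inv (Sdp G C) := ⟨fun a => ⟨-(a.g⁻¹ • a.c), a.g⁻¹⟩⟩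

@[simp] theorem mul_c (a b : Sdp G C) : (a * b).c = a.c + a.g • b.c := rfl
@[simp] theorem mul_g (a b : Sdp G C) : (a * b).g = a.g * b.g := rfl
@[simp] theorem one_c : (1 : Sdp G C).c = 0 := rfl
@[simp] theorem one_g : (1 : Sdp G C).g = 1 := rfl
@[simp] theorem inv_c (a : Sdp G C) : (a⁻¹).c = -(a.g⁻¹ • a.c) := rfl
@[simp] theorem inv_g (a : Sdp G C) : (a⁻¹).g = a.g⁻¹ := rfl

instance : Group (Sdp G C) := Group.ofLeftAxioms
  (by intro a b c; ext <;> simp [mul_assoc, add_assoc, mul_smul, smul_add])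
  (by intro a; ext <;> simp)
  (by intro a; ext <;> simp)

/-- projection to the group -/
def gHom : Sdp G C →* G where
  toFun := Sdp.g
  map_one' := rfl
  map_mul' _ _ := rfl

@[simp] theorem gHom_apply (a : Sdp G C) : gHom a = a.g := rfl

/-- functoriality in the module -/
def map {Q : Type} [AddCommGroup Q] [DistribMulAction G Q] (p : C →+ Q)
    (hp : ∀ (g : G) (c : C), p (g • c) = g • p c) : Sdp G C →* Sdp G Q where
  toFun s := ⟨p s.c, s.g⟩
  map_one' := by ext <;> simp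
  map_mul' a b := by ext <;> simp [hp]

@[simp] theorem map_mk {Q : Type} [AddCommGroup Q] [DistribMulAction G Q] (p : C →+ Q)
    (hp : ∀ (g : G) (c : C), p (g • c) = g • p c) (s : Sdp G C) : map p hp s = ⟨p s.c, s.g⟩ := rfl

/-- The subgroup of `S × S × S × S` where the last is `first + second - third`. -/
def Lin : Subgroup (Sdp G C × Sdp G C × Sdp G C × Sdp G C) where
  carrier := {t | t.2.1.g = t.1.g ∧ t.2.2.1.g = t.1.g ∧ t.2.2.2.g = t.1.g ∧
    t.2.2.2.c = t.1.c + t.2.1.c - t.2.2.1.c}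
  mul_mem' := by
    rintro ⟨a1, a2, a3, a4⟩ ⟨b1, b2, b3, b4⟩ ⟨h1, h2, h3, h4⟩ ⟨k1, k2, k3, k4⟩
    simp only at h1 h2 h3 h4 k1 k2 k3 k4
    refine ⟨by simp [h1, k1], by simp [h2, k2], by simp [h3, k3], ?_⟩
    simp only [Prod.mk_mul_mk, mul_c, h1, h2, h3, h4, k4, smul_add, smul_sub]
    abel
  one_mem' := by simp
  inv_mem' := by
    rintro ⟨a1, a2, a3, a4⟩ ⟨h1, h2, h3, h4⟩
    simp only at h1 h2 h3 h4
    refine ⟨by simp [h1], by simp [h2], by simp [h3], ?_⟩
    simp only [Prod.inv_mk, inv_c, h1, h2, h3, h4, smul_add, smul_sub]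
    abel

theorem mem_Lin {a b c d : Sdp G C} : (a, b, c, d) ∈ (Lin : Subgroup (Sdp G C × Sdp G C × Sdp G C × Sdp G C)) ↔
    b.g = a.g ∧ c.g = a.g ∧ d.g = a.g ∧ d.c = a.c + b.c - c.c := Iff.rfl

end Sdp

/-! ### Twisting in an extension -/

section Tw
variable {G Q : Type} [Group G] [AddCommGroup Q] [DistribMulAction G Q]
  (X : ExtVia (MonoidHom.id G) Q)

/-- additive version of the inclusion of the kernel -/
def jj (q : Q) : X.U := X.ι (Multiplicative.ofAdd q)

theorem jj_add (a b : Q) : jj X (a + b) = jj X a * jj X b := by simp [jj]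
@[simp] theorem jj_zero : jj X 0 = 1 := by simp [jj]
theorem jj_neg (a : Q) : jj X (-a) = (jj X a)⁻¹ := by simp [jj]
theorem jj_inj {a b : Q} (h : jj X a = jj X b) : a = b := by
  have := X.inj h
  simpa using this
@[simp] theorem κ_jj (a : Q) : X.κ (jj X a) = 1 := (X.exact _).mpr ⟨_, rfl⟩
theorem exists_jj {u : X.U} (h : X.κ u = 1) : ∃ q, jj X q = u := by
  obtain ⟨v, hv⟩ := (X.exact u).mp h
  exact ⟨Multiplicative.toAdd v, hv⟩
theorem conj_jj (u : X.U) (q : Q) : u * jj X q * u⁻¹ = jj X (X.κ u • q) := X.act u q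
theorem mul_jj (u : X.U) (q : Q) : u * jj X q = jj X (X.κ u • q) * u := by
  rw [← conj_jj]; group

/-- triples `(u, (q, κ u), j(q) u)` -/
def Tw : Subgroup (X.U × Sdp G Q × X.U) where
  carrier := {t | X.κ t.1 = t.2.1.g ∧ t.2.2 = jj X t.2.1.c * t.1}
  mul_mem' := by
    rintro ⟨u, s, u'⟩ ⟨v, t, v'⟩ ⟨h1, h2⟩ ⟨k1, k2⟩
    simp only at h1 h2 k1 k2
    refine ⟨by simp [h1, k1], ?_⟩
    simp only [Prod.mk_mul_mk, Sdp.mul_c, h2, k2, jj_add, ← h1, ← conj_jj]
    group
  one_mem' := by simp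
  inv_mem' := by
    rintro ⟨u, s, u'⟩ ⟨h1, h2⟩
    simp only at h1 h2
    refine ⟨by simp [h1], ?_⟩
    simp only [Prod.inv_mk, Sdp.inv_c, h2, jj_neg, ← h1, ← map_inv, ← conj_jj]
    group


end Tw

/-! ### Two-sided recursion -/

theorem exists_int_rec {α : Type*} (e : ℤ → α ≃ α) (a : α) :
    ∃ h : ℤ → α, h 0 = a ∧ ∀ n, h (n + 1) = e n (h n) := by
  let up : ℕ → α := fun n => Nat.rec a (fun n b => e n b) n
  let dn : ℕ → α := fun n => Nat.rec a (fun n b => (e (-(n + 1 : ℤ))).symm b) n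
  let h : ℤ → α := fun n => match n with
    | Int.ofNat n => up n
    | Int.negSucc n => dn (n + 1)
  refine ⟨h, rfl, ?_⟩
  rintro (n | n)
  · rfl
  · rcases n with _ | n
    · have : h (Int.negSucc 0) = (e (-1)).symm a := by
        show (e (-((0 : ℕ) + 1 : ℤ))).symm a = _
        norm_num
      show h 0 = e (-1) (h (Int.negSucc 0))
      rw [this, Equiv.apply_symm_apply]
    · have h1 : Int.negSucc (n + 1) + 1 = Int.negSucc n := by
        simp [Int.negSucc_eq]
      rw [h1]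
      show dn (n + 1) = e (Int.negSucc (n + 1)) (dn (n + 1 + 1))
      have h2 : dn (n + 1 + 1) = (e (-((n + 1 : ℕ) + 1 : ℤ))).symm (dn (n + 1)) := rfl
      rw [h2]
      have h3 : (-((n + 1 : ℕ) + 1 : ℤ)) = Int.negSucc (n + 1) := by simp [Int.negSucc_eq]
      rw [h3, Equiv.apply_symm_apply]

section exists_v
variable {G M : Type*} [Group G] [AddCommGroup M] [DistribMulAction G M]

theorem exists_h (g : G) (μ : ℤ → M) :
    ∃ h : ℤ → M, h 0 = 0 ∧ ∀ n, h n - g • h (n - 1) = μ n := by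
  obtain ⟨h, h0, hs⟩ := exists_int_rec
    (fun n : ℤ => (MulAction.toPerm g : Equiv.Perm M).trans (Equiv.addRight (μ (n + 1)))) (0 : M)
  refine ⟨h, h0, fun n => ?_⟩
  have := hs (n - 1)
  simp only [sub_add_cancel, Equiv.trans_apply, MulAction.toPerm_apply, Equiv.coe_addRight] at this
  rw [this]
  abel

/-- `g(i,j;k,l) = v(j,k) - v(i,k) + v(i,l) - v(j,l)` -/
def gq (v : Fin 4 → Fin 4 → M) (i j k l : Fin 4) : M := v j k - v i k + v i l - v j l

/-- the matrix with prescribed `gq`-values on the nine letters -/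
def vmat (g : Ltr → M) : Fin 4 → Fin 4 → M :=
  let p := g 4 + g 3 - g 5 - g 1 + g 0 - g 2 - g 6
  ![![0, 0, 0, 0],
    ![0, p, p - g 7, p - g 7 - g 0],
    ![0, p - g 8, p - g 8 - g 7 - g 1, p - g 7 - g 0 + g 2],
    ![0, p - g 8 - g 3, p - g 8 - g 3 + g 5, - g 6]]

theorem gq_vmat (g : Ltr → M) (α : Ltr) :
    gq (vmat g) (x1 α) (x2 α) (y1 α) (y2 α) = g α := by
  fin_cases α <;> simp [gq, vmat, x1, x2, y1, y2] <;> abel

theorem gq_vmat_a (g : Ltr → M) :
    gq (vmat g) 0 1 1 0 = g 4 + g 3 - g 5 - g 1 + g 0 - g 2 - g 6 := by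
  simp [gq, vmat]

theorem gq_vmat_b (g : Ltr → M) :
    gq (vmat g) 1 0 0 1 = g 4 + g 3 - g 5 - g 1 + g 0 - g 2 - g 6 := by
  simp [gq, vmat]

theorem vmat_zero_left (g : Ltr → M) (k : Fin 4) : vmat g 0 k = 0 := by
  fin_cases k <;> simp [vmat]

theorem vmat_zero_right (g : Ltr → M) (i : Fin 4) : vmat g i 0 = 0 := by
  fin_cases i <;> simp [vmat]

theorem vmat_zero {g : Ltr → M} (hg : ∀ α, g α = 0) (i k : Fin 4) : vmat g i k = 0 := by
  fin_cases i <;> fin_cases k <;> simp [vmat, hg]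

/-- Solution of the linear system of the letters. -/
theorem exists_v (L : ℤ → Fin 4 → G) (x : Fin 4 → G) (r : Ltr → G) (μ : Ltr → ℤ → M)
    (hμ0 : ∀ α, μ α 0 = 0) (hμ1 : ∀ α, μ α (-1) = 0) :
    ∃ v : ℤ → Fin 4 → Fin 4 → M, (∀ i k, v 0 i k = 0) ∧ (∀ i k, v (-1) i k = 0) ∧
      (∀ n k, v n 0 k = 0) ∧ (∀ n i, v n i 0 = 0) ∧
      ∀ α n, (L n (x1 α))⁻¹ • gq (v n) (x1 α) (x2 α) (y1 α) (y2 α) -
        (r α * (x (pX α (x1 α)))⁻¹ * (L (n - 1) (pX α (x1 α)))⁻¹) •
          gq (v (n - 1)) (pX α (x1 α)) (pX α (x2 α)) (pY α (y1 α)) (pY α (y2 α)) = μ α n := by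
  choose h h0 hs using fun α : Ltr => exists_h (r α * (x (x1 α))⁻¹) (μ α)
  have h1 : ∀ α, h α (-1) = 0 := by
    intro α
    have := hs α 0
    rw [h0, hμ0, zero_sub, neg_eq_zero, smul_eq_zero_iff_eq] at this
    exact this
  have h2 : ∀ α, h α (-2) = 0 := by
    intro α
    have := hs α (-1)
    rw [h1, hμ1, zero_sub, neg_eq_zero, smul_eq_zero_iff_eq] at this
    exact this
  -- values on the faces
  let p : ℤ → M := fun n => L n (x1 4) • h 4 n + L n (x1 3) • h 3 n - L n (x1 5) • h 5 n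
    - L n (x1 1) • h 1 n + L n (x1 0) • h 0 n - L n (x1 2) • h 2 n - L n (x1 6) • h 6 n
  let g : ℤ → Ltr → M := fun n => ![L n (x1 0) • h 0 n, L n (x1 1) • h 1 n, L n (x1 2) • h 2 n,
    L n (x1 3) • h 3 n, L n (x1 4) • h 4 n, L n (x1 5) • h 5 n, L n (x1 6) • h 6 n,
    L n (x1 7) • (μ 7 n + (r 7 * (x 0)⁻¹ * (L (n - 1) 0)⁻¹) • p (n - 1)),
    L n (x1 8) • (μ 8 n + (r 8 * (x 1)⁻¹ * (L (n - 1) 1)⁻¹) • p (n - 1))]
  have hp : ∀ n, g n 4 + g n 3 - g n 5 - g n 1 + g n 0 - g n 2 - g n 6 = p n := fun n => rfl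
  have p1 : p (-1) = 0 := by simp [p, h1]
  have p2 : p (-2) = 0 := by simp [p, h2]
  refine ⟨fun n => vmat (g n), ?_, ?_, fun n k => vmat_zero_left _ k,
    fun n i => vmat_zero_right _ i, ?_⟩
  · intro i k
    apply vmat_zero
    intro α
    have e : (0 : ℤ) - 1 = -1 := by norm_num
    fin_cases α <;> simp [g, h0, hμ0, p1]
  · intro i k
    apply vmat_zero
    intro α
    have e : (-1 : ℤ) - 1 = -2 := by norm_num
    fin_cases α <;> simp [g, h1, hμ1, e, p2]
  · intro α n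
    rw [gq_vmat]
    by_cases h7 : α = 7
    · subst h7
      have e1 : pX 7 (x1 7) = 0 := rfl
      have e2 : pX 7 (x2 7) = 1 := rfl
      have e3 : pY 7 (y1 7) = 1 := by decide
      have e4 : pY 7 (y2 7) = 0 := by decide
      rw [e1, e2, e3, e4, gq_vmat_a, hp]
      show (L n (x1 7))⁻¹ • (L n (x1 7) • (μ 7 n + (r 7 * (x 0)⁻¹ * (L (n - 1) 0)⁻¹) • p (n - 1))) - _ = _
      rw [inv_smul_smul]
      abel
    by_cases h8 : α = 8
    · subst h8
      have e1 : pX 8 (x1 8) = 1 := by decide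
      have e2 : pX 8 (x2 8) = 0 := by decide
      have e3 : pY 8 (y1 8) = 0 := rfl
      have e4 : pY 8 (y2 8) = 1 := rfl
      rw [e1, e2, e3, e4, gq_vmat_b, hp]
      show (L n (x1 8))⁻¹ • (L n (x1 8) • (μ 8 n + (r 8 * (x 1)⁻¹ * (L (n - 1) 1)⁻¹) • p (n - 1))) - _ = _
      rw [inv_smul_smul]
      abel
    have e1 : pX α = 1 := by
      clear * - h7 h8
      fin_cases α <;> first | rfl | exact absurd rfl h7 | exact absurd rfl h8
    have e2 : pY α = 1 := by
      clear * - h7 h8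
      fin_cases α <;> first | rfl | exact absurd rfl h7 | exact absurd rfl h8
    have hg : ∀ n, g n α = L n (x1 α) • h α n := by
      intro n
      fin_cases α <;> first | rfl | exact absurd rfl h7 | exact absurd rfl h8
    simp only [e1, e2, Equiv.Perm.coe_one, id_eq]
    rw [gq_vmat, hg, hg, inv_smul_smul, mul_smul, inv_smul_smul]
    exact hs α n

end exists_v

end Cd
end Crest.Agent.R197
end

-- ▼ part R197/CdMain
section

/-!
# Row 197, module D: every extension of `G` by `C / M` splits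
-/

set_option autoImplicit false
set_option linter.unusedSimpArgs false

namespace Crest.Agent.R197
namespace Cd

/-- `Λ_n^i ∈ G`. -/
def Lam (i : Fin 4) (n : ℤ) : GG := Lw GG.x GG.y i 0 n

/-- the subgroup generated by the `Λ_n^i` -/
def KLam : Subgroup GG := Subgroup.closure (Set.range fun p : ℤ × Fin 4 => Lam p.2 p.1)

theorem Lam_mem (i : Fin 4) (n : ℤ) : Lam i n ∈ KLam :=
  Subgroup.subset_closure ⟨(n, i), rfl⟩

/-- the facts of module N used here -/
structure NFacts : Prop where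
  lam1 : ∀ (i j k l : Fin 4) (n : ℤ), lam GG.x GG.y i j k l n = 1
  free : ∀ (H : Type) [Group H] (w : ℤ → Fin 4 → H), (∀ i, w 0 i = 1) → (∀ n, w n 0 = 1) →
    ∃ f : KLam →* H, ∀ n i, f ⟨Lam i n, Lam_mem i n⟩ = w n i
  qbar : ∀ (α : Ltr) (H : Type) [Group H] (a b c d : H), c = d * a⁻¹ * b →
    (∀ n : ℤ, lam4 a b c d n = 1) →
    ∃ f : Qbar α →* H,
      f ⟨Aw GG.x GG.y (x1 α) (y1 α), Aw_mem_Qbar (Or.inl rfl) (Or.inl rfl)⟩ = a ∧
      f ⟨Aw GG.x GG.y (x2 α) (y1 α), Aw_mem_Qbar (Or.inr rfl) (Or.inl rfl)⟩ = b ∧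
      f ⟨Aw GG.x GG.y (x2 α) (y2 α), Aw_mem_Qbar (Or.inr rfl) (Or.inr rfl)⟩ = c ∧
      f ⟨Aw GG.x GG.y (x1 α) (y2 α), Aw_mem_Qbar (Or.inl rfl) (Or.inr rfl)⟩ = d

theorem Lam_zero (i : Fin 4) : Lam i 0 = 1 := by simp [Lam]
theorem Lam_i0 (n : ℤ) : Lam 0 n = 1 := by simp [Lam]

theorem Lw_GG (N : NFacts) (i k : Fin 4) (n : ℤ) : Lw GG.x GG.y i k n = Lam i n := by
  have h := N.lam1 0 i k 0 n
  rw [lam_eq_Lw] at h
  simp only [Lw_i0, inv_one, one_mul, mul_one] at h
  exact mul_inv_eq_one.mp h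

theorem lam4_mk {H K : Type*} [Group H] [Group K] (a b c d : H) (a' b' c' d' : K) (n : ℤ) :
    lam4 (a, a') (b, b') (c, c') (d, d') n = (lam4 a b c d n, lam4 a' b' c' d' n) :=
  Prod.ext (map_lam4 (MonoidHom.fst H K) (a, a') (b, b') (c, c') (d, d') n)
    (map_lam4 (MonoidHom.snd H K) (a, a') (b, b') (c, c') (d, d') n)

theorem Lin_unique {G C : Type} [Group G] [AddCommGroup C] [DistribMulAction G C]
    {a b c d d' : Sdp G C} (h : (a, b, c, d) ∈ (Sdp.Lin : Subgroup (Sdp G C × Sdp G C × Sdp G C × Sdp G C)))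
    (h' : (a, b, c, d') ∈ (Sdp.Lin : Subgroup (Sdp G C × Sdp G C × Sdp G C × Sdp G C))) : d = d' := by
  rw [Sdp.mem_Lin] at h h'
  ext
  · rw [h.2.2.2, h'.2.2.2]
  · rw [h.2.2.1, h'.2.2.1]

theorem Bw_fourth {H : Type*} [Group H] (x y : Fin 4 → H) (i j k l : Fin 4)
    (h : lam x y i j k l (-2) = 1) :
    Bw x y j l = Bw x y i l * (Bw x y i k)⁻¹ * Bw x y j k := by
  have h1 := lam4_Bw x y i j k l (-1)
  have e : (-1 : ℤ) - 1 = -2 := by norm_num
  rw [e, h] at h1
  simp only [lam4, neg_neg, zpow_one, zpow_neg_one, mul_one, inv_mul_cancel] at h1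
  have h2 : Bw x y j l = Bw x y i l * ((Bw x y i k)⁻¹ * Bw x y j k * (Bw x y j l)⁻¹ * Bw x y i l)⁻¹
      * (Bw x y i k)⁻¹ * Bw x y j k := by group
  rw [h1] at h2
  rw [h2]
  group

section beta
variable {C : Type} [AddCommGroup C] [DistribMulAction GG C]

/-- lifts of the `x i` -/
def xs (C : Type) [AddCommGroup C] (i : Fin 4) : Sdp GG C := ⟨0, GG.x i⟩
/-- lifts of the `y k` -/
def ys (z : Fin 4 → C) (k : Fin 4) : Sdp GG C := ⟨z k, GG.y k⟩

theorem exists_z (N : NFacts) (hC : CoindLike GG C) (k : Fin 4) (v : ℤ → Fin 4 → C)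
    (hv0 : ∀ i, v 0 i = 0) (hv1 : ∀ i, v (-1) i = 0) (hvx : ∀ n, v n 0 = 0) :
    ∃ z : C, ∀ n i, z - Lam i n • z = v n i - GG.y k • v (n - 1) i := by
  obtain ⟨f, hf⟩ := N.free (Sdp GG C)
    (fun n i => ⟨-(v n i - GG.y k • v (n - 1) i), Lam i n⟩)
    (by
      intro i
      have e : (0 : ℤ) - 1 = -1 := by norm_num
      ext <;> simp [hv0, hv1, Lam_zero])
    (by
      intro n
      ext <;> simp [hvx, Lam_i0])
  have hfg : ∀ (g : GG) (hg : g ∈ KLam), (f ⟨g, hg⟩).g = g := by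
    intro g hg
    unfold KLam at hg
    induction hg using Subgroup.closure_induction with
    | mem g hg =>
      obtain ⟨⟨n, i⟩, rfl⟩ := hg
      exact congrArg Sdp.g (hf n i)
    | one =>
      have : (⟨1, one_mem _⟩ : KLam) = 1 := rfl
      rw [this, map_one]; rfl
    | mul a b ha hb iha ihb =>
      have : (⟨a * b, mul_mem ha hb⟩ : KLam) = (⟨a, ha⟩ : KLam) * (⟨b, hb⟩ : KLam) := rfl
      rw [this, map_mul, Sdp.mul_g, iha, ihb]
    | inv a ha iha =>
      have : (⟨a⁻¹, inv_mem ha⟩ : KLam) = (⟨a, ha⟩ : KLam)⁻¹ := rfl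
      rw [this, map_inv, Sdp.inv_g, iha]
  obtain ⟨z, hz⟩ := hC KLam (fun q => (f q).c) (by
    intro a b
    rw [map_mul, Sdp.mul_c, hfg a.1 a.2])
  refine ⟨z, fun n i => ?_⟩
  have h1 := hz ⟨Lam i n, Lam_mem i n⟩
  simp only [hf n i] at h1
  have h2 : z - Lam i n • z = -(Lam i n • z - z) := by abel
  rw [h2, ← h1, neg_neg]

/-- (β1) -/
theorem beta1 (N : NFacts) (hC : CoindLike GG C) (v : ℤ → Fin 4 → Fin 4 → C)
    (hv0 : ∀ i k, v 0 i k = 0) (hv1 : ∀ i k, v (-1) i k = 0) (hvx : ∀ n k, v n 0 k = 0) :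
    ∃ z : Fin 4 → C, ∀ i k n, Lw (xs C) (ys z) i k n = ⟨v n i k, Lam i n⟩ := by
  choose z hz using fun k : Fin 4 => exists_z N hC k (fun n i => v n i k) (fun i => hv0 i k)
    (fun i => hv1 i k) (fun n => hvx n k)
  refine ⟨z, fun i k => ?_⟩
  have hx0 : xs C 0 = 1 := by ext <;> simp [xs, GG.rel.x0]
  refine rec_unique (ys z k) (xs C i * (ys z k)⁻¹) _ _ ?_ ?_ ?_
  · simp only [Lw_zero]
    ext <;> simp [hv0, Lam_zero]
  · intro n
    exact Lw_succ hx0 _ _ _ _
  · intro n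
    have hL : Lam i (n + 1) = GG.y k * Lam i n * (GG.x i * (GG.y k)⁻¹) := by
      rw [← Lw_GG N i k, ← Lw_GG N i k, Lw_succ GG.rel.x0]
    have h1 := hz k (n + 1) i
    simp only [add_sub_cancel_right] at h1
    ext
    · have h2 : v (n + 1) i k = z k + GG.y k • v n i k - Lam i (n + 1) • z k := by
        rw [add_sub_right_comm, h1]; abel
      simp only [h2, Sdp.mul_c, Sdp.mul_g, Sdp.inv_c, xs, ys, hL, zero_add, smul_neg, mul_smul,
        smul_inv_smul]
      abel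
    · exact hL

theorem lam_Sdp {v : ℤ → Fin 4 → Fin 4 → C} {z : Fin 4 → C}
    (hz : ∀ i k n, Lw (xs C) (ys z) i k n = ⟨v n i k, Lam i n⟩) (i j k l : Fin 4) (n : ℤ) :
    lam (xs C) (ys z) i j k l n = ⟨(Lam i n)⁻¹ • gq (v n) i j k l, 1⟩ := by
  rw [lam_eq_Lw, hz, hz, hz, hz]
  ext
  · simp only [Sdp.mul_c, Sdp.mul_g, Sdp.inv_c, Sdp.inv_g, gq, smul_neg, mul_smul, smul_add,
      smul_sub, inv_smul_smul, smul_inv_smul]
    abel
  · simp

end beta

section main
variable {M C Q : Type} [AddCommGroup M] [AddCommGroup C] [AddCommGroup Q]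
    [DistribMulAction GG M] [DistribMulAction GG C] [DistribMulAction GG Q]

/-- twisting by elements of `C` -/
def TwC (X : ExtVia (MonoidHom.id GG) Q) (p : C →+ Q) (hpg : ∀ (g : GG) (c : C), p (g • c) = g • p c) :
    Subgroup (X.U × Sdp GG C × X.U) :=
  (Tw X).comap (MonoidHom.prodMap (MonoidHom.id _)
    (MonoidHom.prodMap (Sdp.map p hpg) (MonoidHom.id _)))

theorem mem_TwC {X : ExtVia (MonoidHom.id GG) Q} {p : C →+ Q}
    {hpg : ∀ (g : GG) (c : C), p (g • c) = g • p c} {u u' : X.U} {s : Sdp GG C} :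
    (u, s, u') ∈ TwC X p hpg ↔ X.κ u = s.g ∧ u' = jj X (p s.c) * u := Iff.rfl

theorem splitProp_GG (N : NFacts) : SplitProp GG := by
  intro M C Q _ _ _ _ _ _ ι p hιinj hp hex hιg hpg hC X
  -- lifts
  choose lf hlf using X.surj
  let X₀ : Fin 4 → X.U := fun i => if i = 0 then 1 else lf (GG.x i)
  let Y₀ : Fin 4 → X.U := fun k => lf (GG.y k)
  let R₀ : Ltr → X.U := fun α => lf (GG.r α)
  have hX : ∀ i, X.κ (X₀ i) = GG.x i := by
    intro i
    by_cases hi : i = 0
    · subst hi; simp [X₀, GG.rel.x0]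
    · simp [X₀, hi, hlf]
  have hY₀ : ∀ k, X.κ (Y₀ k) = GG.y k := fun k => hlf _
  have hR₀ : ∀ α, X.κ (R₀ α) = GG.r α := fun α => hlf _
  have hX0 : X₀ 0 = 1 := by simp [X₀]
  -- a section of `p`
  obtain ⟨σ, hσ, hσ0⟩ : ∃ σ : Q → C, (∀ q, p (σ q) = q) ∧ σ 0 = 0 := by
    classical
    choose σ hσ using hp
    refine ⟨fun q => if q = 0 then 0 else σ q, fun q => ?_, by simp⟩
    by_cases hq : q = 0
    · simp [hq]
    · simp [hq, hσ]
  -- memberships in `TwC`
  have twX : ∀ i, (X₀ i, xs C i, X₀ i) ∈ TwC X p hpg := fun i =>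
    mem_TwC.mpr ⟨hX i, by simp [xs]⟩
  have twY : ∀ (Y : Fin 4 → X.U) (_ : ∀ k, X.κ (Y k) = GG.y k) (z : Fin 4 → C) (k : Fin 4),
      (Y k, ys z k, jj X (p (z k)) * Y k) ∈ TwC X p hpg := fun Y hY z k =>
    mem_TwC.mpr ⟨hY k, rfl⟩
  have twLw : ∀ (Y : Fin 4 → X.U) (_ : ∀ k, X.κ (Y k) = GG.y k) (z : Fin 4 → C) (i k : Fin 4) (n : ℤ),
      (Lw X₀ Y i k n, Lw (xs C) (ys z) i k n, Lw X₀ (fun k => jj X (p (z k)) * Y k) i k n) ∈
        TwC X p hpg := by
    intro Y hY z i k n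
    have h := Lw_mem (TwC X p hpg) (x := fun i => (X₀ i, xs C i, X₀ i))
      (y := fun k => (Y k, ys z k, jj X (p (z k)) * Y k)) twX (twY Y hY z) i k n
    have e1 := map_Lw (MonoidHom.fst X.U (Sdp GG C × X.U)) (fun i => (X₀ i, xs C i, X₀ i))
      (fun k => (Y k, ys z k, jj X (p (z k)) * Y k)) i k n
    have e2 := map_Lw ((MonoidHom.fst (Sdp GG C) X.U).comp (MonoidHom.snd X.U (Sdp GG C × X.U)))
      (fun i => (X₀ i, xs C i, X₀ i)) (fun k => (Y k, ys z k, jj X (p (z k)) * Y k)) i k n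
    have e3 := map_Lw ((MonoidHom.snd (Sdp GG C) X.U).comp (MonoidHom.snd X.U (Sdp GG C × X.U)))
      (fun i => (X₀ i, xs C i, X₀ i)) (fun k => (Y k, ys z k, jj X (p (z k)) * Y k)) i k n
    have : (Lw X₀ Y i k n, Lw (xs C) (ys z) i k n, Lw X₀ (fun k => jj X (p (z k)) * Y k) i k n)
        = Lw (fun i => (X₀ i, xs C i, X₀ i)) (fun k => (Y k, ys z k, jj X (p (z k)) * Y k)) i k n :=
      Prod.ext e1.symm (Prod.ext e2.symm e3.symm)
    rw [this]
    exact h
  have twlam : ∀ (Y : Fin 4 → X.U) (_ : ∀ k, X.κ (Y k) = GG.y k) (z : Fin 4 → C)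
      (i j k l : Fin 4) (n : ℤ),
      (lam X₀ Y i j k l n, lam (xs C) (ys z) i j k l n,
        lam X₀ (fun k => jj X (p (z k)) * Y k) i j k l n) ∈ TwC X p hpg := by
    intro Y hY z i j k l n
    have h := lam_mem (TwC X p hpg) (x := fun i => (X₀ i, xs C i, X₀ i))
      (y := fun k => (Y k, ys z k, jj X (p (z k)) * Y k)) twX (twY Y hY z) i j k l n
    have e1 := map_lam (MonoidHom.fst X.U (Sdp GG C × X.U)) (fun i => (X₀ i, xs C i, X₀ i))
      (fun k => (Y k, ys z k, jj X (p (z k)) * Y k)) i j k l n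
    have e2 := map_lam ((MonoidHom.fst (Sdp GG C) X.U).comp (MonoidHom.snd X.U (Sdp GG C × X.U)))
      (fun i => (X₀ i, xs C i, X₀ i)) (fun k => (Y k, ys z k, jj X (p (z k)) * Y k)) i j k l n
    have e3 := map_lam ((MonoidHom.snd (Sdp GG C) X.U).comp (MonoidHom.snd X.U (Sdp GG C × X.U)))
      (fun i => (X₀ i, xs C i, X₀ i)) (fun k => (Y k, ys z k, jj X (p (z k)) * Y k)) i j k l n
    have : (lam X₀ Y i j k l n, lam (xs C) (ys z) i j k l n,
        lam X₀ (fun k => jj X (p (z k)) * Y k) i j k l n)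
        = lam (fun i => (X₀ i, xs C i, X₀ i)) (fun k => (Y k, ys z k, jj X (p (z k)) * Y k)) i j k l n :=
      Prod.ext e1.symm (Prod.ext e2.symm e3.symm)
    rw [this]
    exact h
  -- Step B: flat lifts
  obtain ⟨Y, hY, hflat⟩ : ∃ Y : Fin 4 → X.U, (∀ k, X.κ (Y k) = GG.y k) ∧
      ∀ i j k l n, lam X₀ Y i j k l n = 1 := by
    have hκ : ∀ i k n, X.κ (Lw X₀ Y₀ i k n) = Lam i n := by
      intro i k n
      rw [map_Lw]
      simp only [hX, hY₀]
      exact Lw_GG N i k n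
    choose t ht using fun (n : ℤ) (i k : Fin 4) =>
      exists_jj X (u := Lw X₀ Y₀ i k n * (Lw X₀ Y₀ i 0 n)⁻¹) (by rw [map_mul, map_inv, hκ, hκ]; simp)
    have t0 : ∀ n i k, Lw X₀ Y₀ i k n = Lw X₀ Y₀ i 0 n → t n i k = 0 := by
      intro n i k h
      apply jj_inj X
      rw [ht, h]; simp
    obtain ⟨z, hz⟩ := beta1 N hC (fun n i k => σ (-t n i k))
      (fun i k => by simp only [t0 0 i k (by simp), neg_zero, hσ0])
      (fun i k => by simp only [t0 (-1) i k (by rw [Lw_neg_one hX0, Lw_neg_one hX0]), neg_zero, hσ0])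
      (fun n k => by simp only [t0 n 0 k (by simp), neg_zero, hσ0])
    refine ⟨fun k => jj X (p (z k)) * Y₀ k, fun k => by simp [hY₀], ?_⟩
    have key : ∀ i k n, Lw X₀ (fun k => jj X (p (z k)) * Y₀ k) i k n = Lw X₀ Y₀ i 0 n := by
      intro i k n
      have h := (mem_TwC.mp (twLw Y₀ hY₀ z i k n)).2
      rw [h, hz]
      simp only [hσ, jj_neg, ht]
      group
    intro i j k l n
    rw [lam_eq_Lw, key, key, key, key]
    group
  -- Step C: the letters
  have step : ∀ α : Ltr, ∃ a b c d : Sdp GG C, c = d * a⁻¹ * b ∧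
      (Aw X₀ Y (x1 α) (y1 α), a, R₀ α * Bw X₀ Y (pX α (x1 α)) (pY α (y1 α)) * (R₀ α)⁻¹) ∈ TwC X p hpg ∧
      (Aw X₀ Y (x2 α) (y1 α), b, R₀ α * Bw X₀ Y (pX α (x2 α)) (pY α (y1 α)) * (R₀ α)⁻¹) ∈ TwC X p hpg ∧
      (Aw X₀ Y (x2 α) (y2 α), c, R₀ α * Bw X₀ Y (pX α (x2 α)) (pY α (y2 α)) * (R₀ α)⁻¹) ∈ TwC X p hpg ∧
      (Aw X₀ Y (x1 α) (y2 α), d, R₀ α * Bw X₀ Y (pX α (x1 α)) (pY α (y2 α)) * (R₀ α)⁻¹) ∈ TwC X p hpg := by
    intro α
    have ex : ∀ i k, inX α i → inY α k → ∃ s : Sdp GG C,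
        (Aw X₀ Y i k, s, R₀ α * Bw X₀ Y (pX α i) (pY α k) * (R₀ α)⁻¹) ∈ TwC X p hpg := by
      intro i k hi hk
      obtain ⟨q, hq⟩ := exists_jj X
        (u := R₀ α * Bw X₀ Y (pX α i) (pY α k) * (R₀ α)⁻¹ * (Aw X₀ Y i k)⁻¹) (by
          rw [map_mul, map_mul, map_mul, map_inv, map_inv, map_Aw, map_Bw]
          simp only [hX, hY, hR₀]
          have := GG.rel.hex α i k hi hk
          rw [← this]
          group)
      refine ⟨⟨σ q, Aw GG.x GG.y i k⟩, mem_TwC.mpr ⟨?_, ?_⟩⟩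
      · rw [map_Aw]; simp only [hX, hY]
      · simp only [hσ, hq]; group
    obtain ⟨a, ha⟩ := ex (x1 α) (y1 α) (Or.inl rfl) (Or.inl rfl)
    obtain ⟨b, hb⟩ := ex (x2 α) (y1 α) (Or.inr rfl) (Or.inl rfl)
    obtain ⟨d, hd⟩ := ex (x1 α) (y2 α) (Or.inl rfl) (Or.inr rfl)
    refine ⟨a, b, d * a⁻¹ * b, d, rfl, ha, hb, ?_, hd⟩
    have h := mul_mem (mul_mem hd (inv_mem ha)) hb
    have e : (Aw X₀ Y (x2 α) (y2 α), d * a⁻¹ * b,
        R₀ α * Bw X₀ Y (pX α (x2 α)) (pY α (y2 α)) * (R₀ α)⁻¹) =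
        (Aw X₀ Y (x1 α) (y2 α), d, R₀ α * Bw X₀ Y (pX α (x1 α)) (pY α (y2 α)) * (R₀ α)⁻¹) *
        (Aw X₀ Y (x1 α) (y1 α), a, R₀ α * Bw X₀ Y (pX α (x1 α)) (pY α (y1 α)) * (R₀ α)⁻¹)⁻¹ *
        (Aw X₀ Y (x2 α) (y1 α), b, R₀ α * Bw X₀ Y (pX α (x2 α)) (pY α (y1 α)) * (R₀ α)⁻¹) := by
      simp only [Prod.inv_mk, Prod.mk_mul_mk, Prod.mk.injEq, true_and]
      refine ⟨by simp only [Aw]; group, ?_⟩
      rw [Bw_fourth X₀ Y _ _ _ _ (hflat (pX α (x1 α)) (pX α (x2 α)) (pY α (y1 α)) (pY α (y2 α)) (-2))]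
      group
    rw [e]
    exact h
  choose a b c d hcd ha hb hc hd using step
  -- the loops of the letters
  have hloop : ∀ α n, ∃ m : M, lam4 (a α) (b α) (c α) (d α) n = ⟨ι m, 1⟩ := by
    intro α n
    have h := lam4_mem (TwC X p hpg) (ha α) (hb α) (hc α) (hd α) n
    have f1 : lam4 (Aw X₀ Y (x1 α) (y1 α)) (Aw X₀ Y (x2 α) (y1 α)) (Aw X₀ Y (x2 α) (y2 α))
        (Aw X₀ Y (x1 α) (y2 α)) n = 1 := hflat _ _ _ _ _
    have f3 : lam4 (R₀ α * Bw X₀ Y (pX α (x1 α)) (pY α (y1 α)) * (R₀ α)⁻¹)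
        (R₀ α * Bw X₀ Y (pX α (x2 α)) (pY α (y1 α)) * (R₀ α)⁻¹)
        (R₀ α * Bw X₀ Y (pX α (x2 α)) (pY α (y2 α)) * (R₀ α)⁻¹)
        (R₀ α * Bw X₀ Y (pX α (x1 α)) (pY α (y2 α)) * (R₀ α)⁻¹) n = 1 := by
      have := map_lam4 (MulAut.conj (R₀ α)).toMonoidHom (Bw X₀ Y (pX α (x1 α)) (pY α (y1 α)))
        (Bw X₀ Y (pX α (x2 α)) (pY α (y1 α))) (Bw X₀ Y (pX α (x2 α)) (pY α (y2 α)))
        (Bw X₀ Y (pX α (x1 α)) (pY α (y2 α))) n
      simp only [MulEquiv.toMonoidHom_eq_coe, MonoidHom.coe_coe, MulAut.conj_apply] at this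
      rw [← this, lam4_Bw, hflat]
      simp
    rw [lam4_mk, lam4_mk, f1, f3] at h
    obtain ⟨g1, g2⟩ := mem_TwC.mp h
    rw [mul_one] at g2
    have g3 : p (lam4 (a α) (b α) (c α) (d α) n).c = 0 := by
      apply jj_inj X
      rw [← g2, jj_zero]
    obtain ⟨m, hm⟩ := (hex _).mp g3
    refine ⟨m, ?_⟩
    ext
    · exact hm.symm
    · rw [← g1, map_one]
  choose μ hμ using hloop
  have μ0 : ∀ α, μ α 0 = 0 := by
    intro α
    apply hιinj
    have := congrArg Sdp.c (hμ α 0)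
    simp only [lam4, neg_zero, zpow_zero, mul_one, Sdp.one_c] at this
    rw [← this, map_zero]
  have μ1 : ∀ α, μ α (-1) = 0 := by
    intro α
    apply hιinj
    have h1 : lam4 (a α) (b α) (c α) (d α) (-1) = 1 := by
      rw [hcd]
      simp only [lam4, neg_neg, zpow_one, zpow_neg_one]
      group
    have := congrArg Sdp.c (hμ α (-1))
    rw [h1, Sdp.one_c] at this
    rw [map_zero]
    exact this.symm
  -- Step D: the linear system
  obtain ⟨v, v0, v1, vx, vy, hv⟩ := exists_v (fun n i => Lam i n) GG.x GG.r μ μ0 μ1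
  -- Step E
  obtain ⟨z, hz⟩ := beta1 N hC (fun n i k => ι (v n i k))
    (fun i k => by simp only [v0, map_zero])
    (fun i k => by simp only [v1, map_zero])
    (fun n k => by simp only [vx, map_zero])
  have hlam : ∀ i j k l n, lam (xs C) (ys z) i j k l n =
      ⟨ι ((Lam i n)⁻¹ • gq (v n) i j k l), 1⟩ := by
    intro i j k l n
    rw [lam_Sdp hz]
    ext
    · simp only [gq, hιg, map_sub, map_add]
    · rfl
  let Y₂ : Fin 4 → X.U := fun k => jj X (p (z k)) * Y k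
  have hY₂ : ∀ k, X.κ (Y₂ k) = GG.y k := fun k => by simp [Y₂, hY]
  have hflat₂ : ∀ i j k l n, lam X₀ Y₂ i j k l n = 1 := by
    intro i j k l n
    have h := (mem_TwC.mp (twlam Y hY z i j k l n)).2
    have h0 : p (ι ((Lam i n)⁻¹ • gq (v n) i j k l)) = 0 := (hex _).mpr ⟨_, rfl⟩
    rw [hflat, hlam, mul_one] at h
    simp only [h0, jj_zero] at h
    exact h
  let rs : Ltr → Sdp GG C := fun α => ⟨0, GG.r α⟩
  have twR : ∀ α, (R₀ α, rs α, R₀ α) ∈ TwC X p hpg := fun α =>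
    mem_TwC.mpr ⟨hR₀ α, by simp [rs]⟩
  have twA : ∀ i k, (Aw X₀ Y i k, Aw (xs C) (ys z) i k, Aw X₀ Y₂ i k) ∈ TwC X p hpg := fun i k =>
    mul_mem (twY Y hY z k) (inv_mem (twX i))
  have twB : ∀ i k, (Bw X₀ Y i k, Bw (xs C) (ys z) i k, Bw X₀ Y₂ i k) ∈ TwC X p hpg := fun i k =>
    mul_mem (inv_mem (twX i)) (twY Y hY z k)
  have final : ∀ α, ∃ e : C, ∀ i k, inX α i → inY α k →
      R₀ α * Bw X₀ Y₂ (pX α i) (pY α k) * (R₀ α)⁻¹ =
        jj X (p (Aw GG.x GG.y i k • e - e)) * Aw X₀ Y₂ i k := by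
    intro α
    let As : Fin 4 → Fin 4 → Sdp GG C := fun i k => Aw (xs C) (ys z) i k
    let Bs : Fin 4 → Fin 4 → Sdp GG C := fun i k =>
      rs α * Bw (xs C) (ys z) (pX α i) (pY α k) * (rs α)⁻¹
    have hAsg : ∀ i k, (As i k).g = Aw GG.x GG.y i k := fun i k => rfl
    have hBsg : ∀ i k, inX α i → inY α k → (Bs i k).g = Aw GG.x GG.y i k := by
      intro i k hi hk
      show GG.r α * Bw GG.x GG.y (pX α i) (pY α k) * (GG.r α)⁻¹ = _
      rw [← GG.rel.hex α i k hi hk]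
      group
    let pr : Fin 4 → Fin 4 → Sdp GG C → Sdp GG C := fun i k s =>
      ⟨s.c + (Bs i k).c - (As i k).c, Aw GG.x GG.y i k⟩
    have hL : ∀ i k, inX α i → inY α k → ∀ s : Sdp GG C,
        (Aw X₀ Y i k, s, R₀ α * Bw X₀ Y (pX α i) (pY α k) * (R₀ α)⁻¹) ∈ TwC X p hpg →
        (s, Bs i k, As i k, pr i k s) ∈ (Sdp.Lin : Subgroup _) := by
      intro i k hi hk s hs
      have hg : s.g = Aw GG.x GG.y i k := by
        rw [← (mem_TwC.mp hs).1, map_Aw]
        simp only [hX, hY]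
      exact Sdp.mem_Lin.mpr ⟨by rw [hBsg i k hi hk, hg], by rw [hAsg, hg], by rw [hg], rfl⟩
    have hT : ∀ i k, ∀ s : Sdp GG C,
        (Aw X₀ Y i k, s, R₀ α * Bw X₀ Y (pX α i) (pY α k) * (R₀ α)⁻¹) ∈ TwC X p hpg →
        R₀ α * Bw X₀ Y₂ (pX α i) (pY α k) * (R₀ α)⁻¹ = jj X (p (pr i k s).c) * Aw X₀ Y₂ i k := by
      intro i k s hs
      have h1 := (mem_TwC.mp (mul_mem (mul_mem (twR α) (twB (pX α i) (pY α k))) (inv_mem (twR α)))).2
      have h2 := (mem_TwC.mp hs).2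
      have h3 := (mem_TwC.mp (twA i k)).2
      have h4 : (pr i k s).c = (Bs i k).c + s.c - (As i k).c := by
        show s.c + (Bs i k).c - (As i k).c = _
        abel
      rw [h3, h4, map_sub, map_add, sub_eq_add_neg, jj_add, jj_add, jj_neg]
      change R₀ α * Bw X₀ Y₂ (pX α i) (pY α k) * (R₀ α)⁻¹ = jj X (p (Bs i k).c) *
        (R₀ α * Bw X₀ Y (pX α i) (pY α k) * (R₀ α)⁻¹) at h1
      rw [h1, h2]
      simp only [As]
      group
    have La := hL (x1 α) (y1 α) (Or.inl rfl) (Or.inl rfl) (a α) (ha α)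
    have Lb := hL (x2 α) (y1 α) (Or.inr rfl) (Or.inl rfl) (b α) (hb α)
    have Lc := hL (x2 α) (y2 α) (Or.inr rfl) (Or.inr rfl) (c α) (hc α)
    have Ld := hL (x1 α) (y2 α) (Or.inl rfl) (Or.inr rfl) (d α) (hd α)
    -- the loop at scale `-2` of the target square
    have hm2 : lam (xs C) (ys z) (pX α (x1 α)) (pX α (x2 α)) (pY α (y1 α)) (pY α (y2 α)) (-2) = 1 := by
      rw [hlam]
      have h1 := hv α (-1)
      have e : (-1 : ℤ) - 1 = -2 := by norm_num
      have e2 : gq (v (-1)) (x1 α) (x2 α) (y1 α) (y2 α) = 0 := by simp [gq, v1]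
      rw [e, e2, smul_zero, zero_sub, μ1, neg_eq_zero, smul_eq_zero_iff_eq] at h1
      rw [h1, smul_zero, map_zero]
      rfl
    have Lcc : pr (x2 α) (y2 α) (c α) =
        pr (x1 α) (y2 α) (d α) * (pr (x1 α) (y1 α) (a α))⁻¹ * pr (x2 α) (y1 α) (b α) := by
      have h := mul_mem (mul_mem Ld (inv_mem La)) Lb
      have e1 : (d α, Bs (x1 α) (y2 α), As (x1 α) (y2 α), pr (x1 α) (y2 α) (d α)) *
          (a α, Bs (x1 α) (y1 α), As (x1 α) (y1 α), pr (x1 α) (y1 α) (a α))⁻¹ *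
          (b α, Bs (x2 α) (y1 α), As (x2 α) (y1 α), pr (x2 α) (y1 α) (b α)) =
          (c α, Bs (x2 α) (y2 α), As (x2 α) (y2 α),
            pr (x1 α) (y2 α) (d α) * (pr (x1 α) (y1 α) (a α))⁻¹ * pr (x2 α) (y1 α) (b α)) := by
        simp only [Prod.inv_mk, Prod.mk_mul_mk, Prod.mk.injEq, and_true]
        refine ⟨(hcd α).symm, ?_, ?_⟩
        · simp only [Bs]
          rw [Bw_fourth _ _ _ _ _ _ hm2]
          group
        · simp only [As, Aw]
          group
      rw [e1] at h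
      exact Lin_unique Lc h
    have Lloop : ∀ n, lam4 (pr (x1 α) (y1 α) (a α)) (pr (x2 α) (y1 α) (b α))
        (pr (x2 α) (y2 α) (c α)) (pr (x1 α) (y2 α) (d α)) n = 1 := by
      intro n
      have h := lam4_mem (Sdp.Lin : Subgroup _) La Lb Lc Ld n
      rw [lam4_mk, lam4_mk, lam4_mk, hμ] at h
      have eA : lam4 (As (x1 α) (y1 α)) (As (x2 α) (y1 α)) (As (x2 α) (y2 α)) (As (x1 α) (y2 α)) n =
          ⟨ι ((Lam (x1 α) n)⁻¹ • gq (v n) (x1 α) (x2 α) (y1 α) (y2 α)), 1⟩ := hlam _ _ _ _ _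
      have eB : lam4 (Bs (x1 α) (y1 α)) (Bs (x2 α) (y1 α)) (Bs (x2 α) (y2 α)) (Bs (x1 α) (y2 α)) n =
          ⟨ι ((GG.r α * (GG.x (pX α (x1 α)))⁻¹ * (Lam (pX α (x1 α)) (n - 1))⁻¹) •
            gq (v (n - 1)) (pX α (x1 α)) (pX α (x2 α)) (pY α (y1 α)) (pY α (y2 α))), 1⟩ := by
        have := map_lam4 (MulAut.conj (rs α)).toMonoidHom
          (Bw (xs C) (ys z) (pX α (x1 α)) (pY α (y1 α)))
          (Bw (xs C) (ys z) (pX α (x2 α)) (pY α (y1 α)))
          (Bw (xs C) (ys z) (pX α (x2 α)) (pY α (y2 α)))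
          (Bw (xs C) (ys z) (pX α (x1 α)) (pY α (y2 α))) n
        simp only [MulEquiv.toMonoidHom_eq_coe, MonoidHom.coe_coe, MulAut.conj_apply] at this
        simp only [Bs]
        rw [← this, lam4_Bw, hlam]
        ext
        · simp [rs, xs, hιg, mul_smul]
        · simp [rs, xs]
      rw [eA, eB, Sdp.mem_Lin] at h
      obtain ⟨-, -, h3, h4⟩ := h
      ext
      · rw [h4]
        show ι _ + ι _ - ι _ = 0
        rw [← hv α n, ← map_add, ← map_sub]
        simp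
      · exact h3
    obtain ⟨f, fa, fb, fc, fd⟩ := N.qbar α (Sdp GG C) _ _ _ _ Lcc Lloop
    have hfval : ∀ i k (hi : inX α i) (hk : inY α k), ∃ s : Sdp GG C,
        (Aw X₀ Y i k, s, R₀ α * Bw X₀ Y (pX α i) (pY α k) * (R₀ α)⁻¹) ∈ TwC X p hpg ∧
        f ⟨Aw GG.x GG.y i k, Aw_mem_Qbar hi hk⟩ = pr i k s := by
      rintro i k (rfl | rfl) (rfl | rfl)
      · exact ⟨a α, ha α, fa⟩
      · exact ⟨d α, hd α, fd⟩
      · exact ⟨b α, hb α, fb⟩
      · exact ⟨c α, hc α, fc⟩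
    have hfg : ∀ (g : GG) (hg : g ∈ Qbar α), (f ⟨g, hg⟩).g = g := by
      intro g hg
      unfold Qbar at hg
      induction hg using Subgroup.closure_induction with
      | mem g hg =>
        obtain ⟨i, k, hi, hk, rfl⟩ := hg
        obtain ⟨s, -, hs⟩ := hfval i k hi hk
        exact congrArg Sdp.g hs
      | one =>
        have : (⟨1, one_mem _⟩ : Qbar α) = 1 := rfl
        rw [this, map_one]; rfl
      | mul a b ha hb iha ihb =>
        have : (⟨a * b, mul_mem ha hb⟩ : Qbar α) = (⟨a, ha⟩ : Qbar α) * (⟨b, hb⟩ : Qbar α) := rfl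
        rw [this, map_mul, Sdp.mul_g, iha, ihb]
      | inv a ha iha =>
        have : (⟨a⁻¹, inv_mem ha⟩ : Qbar α) = (⟨a, ha⟩ : Qbar α)⁻¹ := rfl
        rw [this, map_inv, Sdp.inv_g, iha]
    obtain ⟨e, he⟩ := hC (Qbar α) (fun q => (f q).c) (by
      intro a b
      rw [map_mul, Sdp.mul_c, hfg a.1 a.2])
    refine ⟨e, fun i k hi hk => ?_⟩
    obtain ⟨s, hs, hfs⟩ := hfval i k hi hk
    have h1 := he ⟨Aw GG.x GG.y i k, Aw_mem_Qbar hi hk⟩
    simp only [hfs] at h1
    rw [← h1]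
    exact hT i k s hs
  choose e he using final
  let R₂ : Ltr → X.U := fun α => jj X (p (e α)) * R₀ α
  have hrel : RelG X₀ Y₂ R₂ := by
    refine { x0 := hX0, hex := ?_, la := fun n => hflat₂ _ _ _ _ _, lb := fun n => hflat₂ _ _ _ _ _ }
    intro α i k hi hk
    have h1 := he α i k hi hk
    have h2 : Aw X₀ Y₂ i k * jj X (p (e α)) =
        jj X (Aw GG.x GG.y i k • p (e α)) * Aw X₀ Y₂ i k := by
      rw [mul_jj, map_Aw]
      simp only [hX, hY₂]
    have h3 : R₀ α * Bw X₀ Y₂ (pX α i) (pY α k) =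
        jj X (p (Aw GG.x GG.y i k • e α - e α)) * Aw X₀ Y₂ i k * R₀ α := by
      rw [← h1]; group
    show Aw X₀ Y₂ i k * (jj X (p (e α)) * R₀ α) = jj X (p (e α)) * R₀ α * Bw X₀ Y₂ (pX α i) (pY α k)
    rw [mul_assoc (jj X (p (e α))), h3, map_sub, hpg, sub_eq_add_neg, add_comm, jj_add, jj_neg,
      ← mul_assoc, h2]
    group
  refine ⟨GG.lift hrel, ?_⟩
  have : X.κ.comp (GG.lift hrel) = MonoidHom.id GG := by
    apply GG.hom_ext
    · intro i; simp [hX]
    · intro k; simp [hY₂]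
    · intro α; simp [R₂, hR₀]
  intro g
  exact DFunLike.congr_fun this g

end main

end Cd
end Crest.Agent.R197
end

-- ▼ part R197/CdShift

/-!
# Row 197, module D1: dimension shifting

If every 2-cocycle with values in `CQ G M = Map(G,M)/M` is a coboundary (for all `M`),
then `Hⁿ(G, A) = 0` for all `A` and all `n ≥ 3`.  Extension forms `cd_of_CQSplit`, `isZero_of_splitProp`.
-/

set_option autoImplicit false

open CategoryTheory CategoryTheory.Limits

namespace Crest.Agent.R197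

theorem rep_exact_of {k G : Type} [CommRing k] [Group G] (S : ShortComplex (Rep.{0} k G))
    (h : ∀ c : S.X₂, S.g.hom c = 0 → ∃ m : S.X₁, S.f.hom m = c) : S.Exact := by
  refine (ShortComplex.exact_map_iff_of_faithful _ (forget₂ (Rep.{0} k G) (ModuleCat.{0} k))).1 ?_
  refine (ShortComplex.moduleCat_exact_iff _).2 ?_
  exact h

section rep
variable {G : Type} [Group G]

variable (M : Type) [AddCommGroup M] [DistribMulAction G M]

/-- the rep of a `G`-module -/
noncomputable abbrev mrep : Rep ℤ G := Rep.ofDistribMulAction ℤ G M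

variable {M} in
/-- equivariant additive maps give morphisms of representations -/
noncomputable def mhom {N : Type} [AddCommGroup N] [DistribMulAction G N] (f : M →+ N)
    (hf : ∀ (g : G) m, f (g • m) = g • f m) : mrep (G := G) M ⟶ mrep N :=
  Rep.ofHom ⟨f.toIntLinearMap, fun g => by ext m; exact hf g m⟩

/-- the short exact sequence `0 → M → CC G M → CQ G M → 0` -/
noncomputable def ses : ShortComplex (Rep ℤ G) where
  X₁ := mrep M
  X₂ := mrep (CC G M)
  X₃ := mrep (CQ G M)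
  f := mhom (diagC G M) diagC_smul
  g := mhom (CQ.mk) CQ.mk_smul
  zero := by
    ext m
    exact (CQ.mk_eq_zero _).mpr ⟨m, rfl⟩

theorem ses_shortExact : (ses (G := G) M).ShortExact where
  exact := by
    refine rep_exact_of _ ?_
    intro c hc
    exact (CQ.mk_eq_zero (G := G) (M := M) _).mp hc
  mono_f := (Rep.mono_iff_injective _).2 (diagC_injective (G := G) (M := M))
  epi_g := (Rep.epi_iff_surjective _).2 (CQ.mk_surjective (G := G) (M := M))

/-- `CC G M` is coinduced from the trivial subgroup -/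
noncomputable def coiIso :
    mrep (G := G) (CC G M) ≅
      Rep.coind (⊥ : Subgroup G).subtype (Rep.trivial ℤ (⊥ : Subgroup G) M) :=
  Rep.mkIso
    { toFun := fun c => ⟨c, fun g h => by
        have hg : (g : G) = 1 := Subgroup.mem_bot.mp g.2
        change c ((g : G) * h) = c h
        rw [hg, one_mul]⟩
      invFun := fun c => c.1
      left_inv := fun c => rfl
      right_inv := fun c => rfl
      map_add' := fun a b => rfl
      map_smul' := fun a b => rfl
      isIntertwining' := fun g => rfl }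

omit [DistribMulAction G M] in
theorem isZero_coi (n : ℕ) : IsZero (groupCohomology (mrep (G := G) (CC G M)) (n + 1)) := by
  have h1 : IsZero (groupCohomology (Rep.trivial ℤ (⊥ : Subgroup G) M) (n + 1)) :=
    isZero_groupCohomology_succ_of_subsingleton _ _
  have h2 := h1.of_iso (groupCohomology.coindIso (Rep.trivial ℤ (⊥ : Subgroup G) M) (n + 1))
  exact h2.of_iso ((groupCohomology.functor ℤ G (n + 1)).mapIso (coiIso M))

/-- dimension shift -/
theorem isZero_shift (n : ℕ) (h : IsZero (groupCohomology (mrep (G := G) (CQ G M)) (n + 1))) :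
    IsZero (groupCohomology (mrep (G := G) M) (n + 2)) := by
  have := groupCohomology.isIso_δ_of_isZero (ses_shortExact (G := G) M) (n + 1)
    (isZero_coi M n) (isZero_coi M (n + 1))
  exact h.of_iso (asIso (groupCohomology.δ (ses_shortExact (G := G) M) (n + 1) (n + 2) rfl)).symm

/-- every representation is the representation of its underlying `G`-module -/
theorem isZero_of_rep (V : Type) [AddCommGroup V] (m : Module ℤ V)
    (ρ : @Representation ℤ G V _ _ _ m) (n : ℕ)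
    (h : ∀ (M : Type) [AddCommGroup M] [DistribMulAction G M],
      IsZero (groupCohomology (mrep (G := G) M) n)) :
    IsZero (groupCohomology (@Rep.of ℤ G _ _ V _ m ρ) n) := by
  obtain rfl : m = AddCommGroup.toIntModule V := Subsingleton.elim _ _
  let inst : DistribMulAction G V :=
    { smul := fun g a => ρ g a
      one_smul := fun a => by change ρ 1 a = a; simp
      mul_smul := fun g h a => by change ρ (g * h) a = ρ g (ρ h a); simp
      smul_zero := fun g => map_zero _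
      smul_add := fun g => map_add _ }
  exact h V

/-- `H²` vanishes when 2-cocycles are coboundaries -/
theorem isZero_H2 (h : ∀ f : G × G → M, groupCohomology.IsCocycle₂ f → groupCohomology.IsCoboundary₂ f) :
    IsZero (groupCohomology (mrep (G := G) M) 2) := by
  rw [ModuleCat.isZero_iff_subsingleton]
  refine ⟨fun a b => ?_⟩
  have key : ∀ x : groupCohomology.H2 (mrep (G := G) M), x = 0 := by
    intro x
    induction x using groupCohomology.H2_induction_on with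
    | h x =>
      rw [groupCohomology.H2π_eq_zero_iff]
      have hx := groupCohomology.isCocycle₂_of_mem_cocycles₂ (k := ℤ) (G := G) (A := M) x.1 x.2
      exact (groupCohomology.coboundariesOfIsCoboundary₂ (k := ℤ) (h _ hx)).2
  rw [key a, key b]

end rep

section main
variable {G : Type} [Group G]

/-- a 2-cocycle gives an extension; if it splits then the cocycle is a coboundary -/
theorem isCoboundary_of_split (V : Type) [AddCommGroup V] [DistribMulAction G V]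
    (h : ∀ X : ExtVia (MonoidHom.id G) V, ∃ s : G →* X.U, ∀ g, X.κ (s g) = g)
    (f : G × G → V) (hf : groupCohomology.IsCocycle₂ f) : groupCohomology.IsCoboundary₂ f := by
  have h1 := groupCohomology.map_one_fst_of_isCocycle₂ hf
  have h2 := groupCohomology.map_one_snd_of_isCocycle₂ hf
  let mulU : Mul (V × G) := ⟨fun a b => (a.1 + a.2 • b.1 + f (a.2, b.2), a.2 * b.2)⟩
  let oneU : One (V × G) := ⟨(-f (1, 1), 1)⟩
  let invU : Inv (V × G) := ⟨fun a => (-f (1, 1) - a.2⁻¹ • a.1 - f (a.2⁻¹, a.2), a.2⁻¹)⟩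
  have hmul : ∀ a b : V × G, a * b = (a.1 + a.2 • b.1 + f (a.2, b.2), a.2 * b.2) := fun _ _ => rfl
  have hone : (1 : V × G) = (-f (1, 1), 1) := rfl
  have hinv : ∀ a : V × G, a⁻¹ = (-f (1, 1) - a.2⁻¹ • a.1 - f (a.2⁻¹, a.2), a.2⁻¹) := fun _ => rfl
  have assoc : ∀ a b c : V × G, a * b * c = a * (b * c) := by
    rintro ⟨a, g⟩ ⟨b, h⟩ ⟨c, j⟩
    simp only [hmul, Prod.mk.injEq, mul_assoc, and_true]
    have := hf g h j
    simp only [smul_add, mul_smul]
    rw [show a + g • b + f (g, h) + g • h • c + f (g * h, j)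
      = a + g • b + g • h • c + (f (g * h, j) + f (g, h)) by abel, this]
    abel
  have one_mul' : ∀ a : V × G, 1 * a = a := by
    rintro ⟨a, g⟩
    simp only [hmul, hone, one_smul, one_mul, h1, Prod.mk.injEq, and_true]
    abel
  have inv_mul' : ∀ a : V × G, a⁻¹ * a = 1 := by
    rintro ⟨a, g⟩
    simp only [hmul, hone, hinv, inv_mul_cancel, Prod.mk.injEq, and_true]
    abel
  let grpU : Group (V × G) := @Group.ofLeftAxioms (V × G) mulU invU oneU assoc one_mul' inv_mul'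
  have hmul : ∀ a b : V × G, a * b = (a.1 + a.2 • b.1 + f (a.2, b.2), a.2 * b.2) := fun _ _ => rfl
  have hone : (1 : V × G) = (-f (1, 1), 1) := rfl
  let ι : Multiplicative V →* (V × G) :=
    { toFun := fun v => (Multiplicative.toAdd v - f (1, 1), 1)
      map_one' := by
        rw [hone, toAdd_one, zero_sub]
      map_mul' := fun v w => by
        rw [hmul, toAdd_mul]
        simp only [one_smul, mul_one, Prod.mk.injEq, and_true]
        abel }
  let κ : (V × G) →* G :=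
    { toFun := fun a => a.2
      map_one' := rfl
      map_mul' := fun _ _ => rfl }
  let X : ExtVia (MonoidHom.id G) V :=
    { U := V × G
      grp := grpU
      ι := ι
      κ := κ
      inj := by
        intro v w hvw
        have : (Multiplicative.toAdd v - f (1, 1), (1 : G))
          = (Multiplicative.toAdd w - f (1, 1), (1 : G)) := hvw
        have := (Prod.mk.inj this).1
        exact Multiplicative.toAdd.injective (sub_left_injective this)
      surj := fun g => ⟨(0, g), rfl⟩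
      exact := by
        rintro ⟨a, g⟩
        constructor
        · intro hg
          have hg : g = 1 := hg
          subst hg
          refine ⟨Multiplicative.ofAdd (a + f (1, 1)), ?_⟩
          change (a + f (1, 1) - f (1, 1), (1 : G)) = (a, 1)
          rw [add_sub_cancel_right]
        · rintro ⟨v, hv⟩
          have hv : (Multiplicative.toAdd v - f (1, 1), (1 : G)) = (a, g) := hv
          exact (Prod.mk.inj hv).2.symm
      act := by
        rintro ⟨a, g⟩ v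
        rw [mul_inv_eq_iff_eq_mul]
        change (a, g) * (v - f (1, 1), (1 : G)) = (g • v - f (1, 1), (1 : G)) * (a, g)
        rw [hmul, hmul]
        refine Prod.ext ?_ ?_
        · change a + g • (v - f (1, 1)) + f (g, 1) = g • v - f (1, 1) + (1 : G) • a + f (1, g)
          rw [h1 g, h2 g, smul_sub, one_smul]
          abel
        · change g * 1 = 1 * g
          rw [mul_one, one_mul] }
  obtain ⟨s, hs⟩ := h X
  have hs' : ∀ g, (s g : V × G).2 = g := hs
  refine ⟨fun g => -(s g : V × G).1, fun g h => ?_⟩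
  have e : (s (g * h) : V × G) = (s g : V × G) * (s h : V × G) := map_mul s g h
  rw [hmul, hs', hs'] at e
  have e1 := congrArg Prod.fst e
  change (s (g * h) : V × G).1 = (s g : V × G).1 + g • (s h : V × G).1 + f (g, h) at e1
  change g • (-(s h : V × G).1) - (-(s (g * h) : V × G).1) + (-(s g : V × G).1) = f (g, h)
  rw [e1, smul_neg]
  abel

/-- **D1**: if all 2-cocycles with values in all `CQ G M` are coboundaries, then `Hⁿ(G, A) = 0` for `n ≥ 3`. -/
theorem cd_of_H2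
    (h : ∀ (M : Type) [AddCommGroup M] [DistribMulAction G M] (f : G × G → CQ G M),
      groupCohomology.IsCocycle₂ f → groupCohomology.IsCoboundary₂ f)
    (A : Rep ℤ G) (n : ℕ) (hn : 3 ≤ n) : IsZero (groupCohomology A n) := by
  have key : ∀ (n : ℕ) (M : Type) [AddCommGroup M] [DistribMulAction G M],
      IsZero (groupCohomology (mrep (G := G) M) (n + 3)) := by
    intro n
    induction n with
    | zero =>
      intro M _ _
      exact isZero_shift M 1 (isZero_H2 _ (h M))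
    | succ n ih =>
      intro M _ _
      exact isZero_shift M (n + 2) (ih (CQ G M))
  obtain ⟨m, rfl⟩ : ∃ m, n = m + 3 := ⟨n - 3, by omega⟩
  exact isZero_of_rep A.V A.hV2 A.ρ (m + 3) (fun M _ _ => key m M)


/-- every derivation from a subgroup `K ≤ G` into `Map(G, M)` is inner -/
theorem coindLike_CC (M : Type) [AddCommGroup M] : CoindLike G (CC G M) := by
  intro K δ hδ
  have hout : ∀ g : G, ((Quotient.out (g : G ⧸ K))⁻¹ * g) ∈ K := fun g =>
    QuotientGroup.eq.mp (Quotient.out_eq' (g : G ⧸ K))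
  -- `z g = δ (t⁻¹ g) t` where `t` represents `g K`
  let z : CC G M := fun g =>
    δ ⟨(Quotient.out (g : G ⧸ K))⁻¹ * g, hout g⟩ (Quotient.out (g : G ⧸ K))
  have hz : ∀ (t : G) (a : K), Quotient.out ((t * (a : G) : G) : G ⧸ K) = t →
      z (t * a) = δ a t := by
    intro t a ht
    have e : (⟨(Quotient.out ((t * (a : G) : G) : G ⧸ K))⁻¹ * (t * a), hout _⟩ : K) = a := by
      apply Subtype.ext
      change (Quotient.out ((t * (a : G) : G) : G ⧸ K))⁻¹ * (t * a) = a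
      rw [ht]
      group
    change δ _ (Quotient.out ((t * (a : G) : G) : G ⧸ K)) = _
    rw [e, ht]
  refine ⟨z, fun k => ?_⟩
  funext g
  obtain ⟨t, a, hg, ht⟩ : ∃ (t : G) (a : K), g = t * a ∧ Quotient.out (g : G ⧸ K) = t :=
    ⟨Quotient.out (g : G ⧸ K), ⟨_, hout g⟩, by simp, rfl⟩
  subst hg
  have ht2 : Quotient.out ((t * ((a * k : K) : G) : G) : G ⧸ K) = t := by
    rw [← ht]
    congr 1
    rw [ht]
    refine QuotientGroup.eq.mpr ?_
    have : (t * ((a * k : K) : G))⁻¹ * (t * (a : G)) = ((k⁻¹ : K) : G) := by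
      push_cast
      group
    rw [this]
    exact (k⁻¹).2
  have h1 := hz t a ht
  have h2 := hz t (a * k) ht2
  have h3 := congrFun (hδ a k) t
  change δ k (t * a) = z (t * a * k) - z (t * a)
  have h4 : z (t * a * k) = z (t * ((a * k : K) : G)) := by
    congr 1
    push_cast
    group
  rw [h4, h1, h2, h3]
  change δ k (t * a) = δ a t + δ k (t * a) - δ a t
  abel

/-- `SplitProp` form -/
theorem isZero_of_splitProp (h : SplitProp G) (A : Rep ℤ G) (n : ℕ) (hn : 3 ≤ n) :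
    IsZero (groupCohomology A n) := by
  refine cd_of_H2 (fun M _ _ f hf => isCoboundary_of_split (CQ G M) (fun X => ?_) f hf) A n hn
  exact h M (CC G M) (CQ G M) (diagC G M) CQ.mk diagC_injective CQ.mk_surjective
    CQ.mk_eq_zero diagC_smul CQ.mk_smul (coindLike_CC M) X

end main

end Crest.Agent.R197
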