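import Crest.Agent.R197.CW2Defs

/-! Row 197, F2: the edge path theorem in the 1-skeleton of a `TwoCx`. -/

set_option autoImplicit false

open scoped unitInterval

namespace Crest.Agent.R197

namespace TwoCx
variable {X : Type} [TopologicalSpace X] (C : TwoCx X)

/-! ### Points and topology of the 1-skeleton -/


theorem v1_inj : Function.Injective C.v1 := fun _ _ h => C.v_inj (congrArg Subtype.val h)

theorem e1_inj {i i' : C.E} {s s' : I} (hs : s ∈ Iint) (hs' : s' ∈ Iint)
    (h : C.e1 i s = C.e1 i' s') : i = i' ∧ s = s' :=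
  C.e_inj i i' s s' hs hs' (congrArg Subtype.val h)

theorem e1_ne_v1 {i : C.E} {s : I} {o : C.O} (hs : s ∈ Iint) : C.e1 i s ≠ C.v1 o :=
  fun h => C.e_ne_v i s o hs (congrArg Subtype.val h)

theorem not_Iint {s : I} (h : s ∉ Iint) : s = 0 ∨ s = 1 := by
  by_contra hc
  push Not at hc
  exact h ⟨unitInterval.pos_iff_ne_zero.2 hc.1, unitInterval.lt_one_iff_ne_one.2 hc.2⟩

theorem e1_of_not_Iint (i : C.E) {s : I} (h : s ∉ Iint) : ∃ o, C.e1 i s = C.v1 o := by
  rcases not_Iint h with rfl | rfl
  · exact ⟨_, (C.e1 i).source⟩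
  · exact ⟨_, (C.e1 i).target⟩

/-- points of the 1-skeleton -/
theorem X1_cases (y : C.X1) : (∃ o, y = C.v1 o) ∨ ∃ i s, s ∈ Iint ∧ y = C.e1 i s := by
  obtain ⟨x, hx⟩ := y
  rcases hx with ⟨o, rfl⟩ | ⟨i, s, rfl⟩
  · exact Or.inl ⟨o, rfl⟩
  · by_cases hs : s ∈ Iint
    · exact Or.inr ⟨i, s, hs, rfl⟩
    · obtain ⟨o, ho⟩ := C.e1_of_not_Iint i hs
      exact Or.inl ⟨o, ho⟩

/-- interior points agree only if equal; otherwise both are end points -/
theorem e1_inj' {i i' : C.E} {s s' : I} (hs : s ∈ Iint) (h : C.e1 i s = C.e1 i' s') :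
    i = i' ∧ s = s' := by
  by_cases hs' : s' ∈ Iint
  · exact C.e1_inj hs hs' h
  · obtain ⟨o, ho⟩ := C.e1_of_not_Iint i' hs'
    exact absurd (h.trans ho) (C.e1_ne_v1 hs)

theorem isClosed_X1 {A : Set C.X1} (h : ∀ i, IsClosed (C.e1 i ⁻¹' A)) : IsClosed A := by
  have hA : A = Subtype.val ⁻¹' (Subtype.val '' A) := by
    rw [Set.preimage_image_eq _ Subtype.val_injective]
  rw [hA]
  refine IsClosed.preimage continuous_subtype_val (C.closed1 _ ?_ ?_)
  · rintro x ⟨⟨y, hy⟩, -, rfl⟩
    exact hy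
  · intro i
    convert h i using 1
    ext s
    constructor
    · rintro ⟨y, hy, hys⟩
      have : y = C.e1 i s := Subtype.ext hys
      rw [Set.mem_preimage, ← this]; exact hy
    · intro hs
      exact ⟨C.e1 i s, hs, rfl⟩

theorem continuous_X1 {Z : Type*} [TopologicalSpace Z] {g : C.X1 → Z}
    (h : ∀ i, Continuous fun s => g (C.e1 i s)) : Continuous g := by
  rw [continuous_iff_isClosed]
  intro A hA
  exact C.isClosed_X1 fun i => hA.preimage (h i)

/-- finite subsets of the ends are closed -/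
theorem isClosed_of_ends {A : Set I} (h : ∀ s ∈ A, s ∉ Iint) : IsClosed A := by
  have : A ⊆ {0, 1} := fun s hs => by
    rcases not_Iint (h s hs) with rfl | rfl <;> simp
  exact ((Set.finite_singleton (1 : I)).insert 0 |>.subset this).isClosed

theorem isClosed_vertices (S : Set C.O) : IsClosed (C.v1 '' S) := by
  refine C.isClosed_X1 fun i => isClosed_of_ends ?_
  rintro s ⟨o, -, ho⟩ hs
  exact C.e1_ne_v1 hs ho.symm

/-- the image of a closed set of parameters is closed -/
theorem isClosed_edge_image (i : C.E) {F : Set I} (hF : IsClosed F) :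
    IsClosed (C.e1 i '' F) := by
  refine C.isClosed_X1 fun i' => ?_
  by_cases hi : i' = i
  · subst hi
    have : C.e1 i' ⁻¹' (C.e1 i' '' F) =
        F ∪ {s | s ∉ Iint ∧ C.e1 i' s ∈ C.e1 i' '' F} := by
      ext s
      constructor
      · rintro ⟨s', hs', h⟩
        by_cases hs : s ∈ Iint
        · left
          rw [(C.e1_inj' hs h.symm).2]; exact hs'
        · right
          exact ⟨hs, s', hs', h⟩
      · rintro (hs | ⟨_, hs⟩)
        · exact ⟨s, hs, rfl⟩
        · exact hs
    rw [this]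
    exact hF.union (isClosed_of_ends fun s hs => hs.1)
  · refine isClosed_of_ends ?_
    rintro s ⟨s', -, h⟩ hs
    exact hi (C.e1_inj' hs h.symm).1

/-- open edges are open -/
theorem isOpen_edge (i : C.E) : IsOpen (C.e1 i '' Iint) := by
  rw [← isClosed_compl_iff]
  refine C.isClosed_X1 fun i' => ?_
  by_cases hi : i' = i
  · subst hi
    refine isClosed_of_ends ?_
    intro s hs hs'
    exact hs ⟨s, hs', rfl⟩
  · have : C.e1 i' ⁻¹' (C.e1 i '' Iint)ᶜ = Set.univ := by
      ext s
      simp only [Set.mem_preimage, Set.mem_compl_iff, Set.mem_univ, iff_true]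
      rintro ⟨s', hs', h⟩
      exact hi (C.e1_inj' hs' h).1.symm
    rw [this]; exact isClosed_univ

open Classical in
/-- the parameter on an open edge -/
noncomputable def par (i : C.E) (y : C.X1) : I :=
  if h : ∃ s, s ∈ Iint ∧ y = C.e1 i s then h.choose else 0

theorem par_e1 (i : C.E) {s : I} (hs : s ∈ Iint) : C.par i (C.e1 i s) = s := by
  have h : ∃ s', s' ∈ Iint ∧ C.e1 i s = C.e1 i s' := ⟨s, hs, rfl⟩
  rw [par, dif_pos h]
  exact (C.e1_inj' hs h.choose_spec.2).2.symm

theorem e1_par (i : C.E) {y : C.X1} (hy : y ∈ C.e1 i '' Iint) :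
    C.e1 i (C.par i y) = y := by
  obtain ⟨s, hs, rfl⟩ := hy
  rw [C.par_e1 i hs]

theorem par_continuousOn (i : C.E) : ContinuousOn (C.par i) (C.e1 i '' Iint) := by
  rw [continuousOn_iff_isClosed]
  intro F hF
  refine ⟨C.e1 i '' F, C.isClosed_edge_image i hF, ?_⟩
  ext y
  constructor
  · rintro ⟨hy, hy'⟩
    refine ⟨⟨C.par i y, hy, C.e1_par i hy'⟩, hy'⟩
  · rintro ⟨⟨s, hs, rfl⟩, ⟨s', hs', h⟩⟩
    refine ⟨?_, ⟨s', hs', h⟩⟩
    have := (C.e1_inj' hs' h).2
    subst this
    rw [Set.mem_preimage, C.par_e1 i hs']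
    exact hs

/-! ### The stretching homotopy -/

/-- stretching of the unit interval -/
noncomputable def st (t s : I) : I :=
  Set.projIcc (0 : ℝ) 1 zero_le_one ((1 + 2 * (t : ℝ)) * s - t)

theorem continuous_st : Continuous fun p : I × I => st p.1 p.2 := by
  unfold st
  exact continuous_projIcc.comp (by fun_prop)

theorem st_zero_left (s : I) : st 0 s = s := by
  unfold st
  simp

theorem st_zero_right (t : I) : st t 0 = 0 := by
  unfold st
  rw [Set.projIcc_of_le_left]
  · rfl
  · have := t.2.1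
    simpa using this

theorem st_one_right (t : I) : st t 1 = 1 := by
  unfold st
  rw [Set.projIcc_of_right_le]
  · rfl
  · have := t.2.1
    simp only [Set.Icc.coe_one, mul_one]  
    linarith

theorem st_one_of_le {s : I} (h : (s : ℝ) ≤ 1 / 3) : st 1 s = 0 := by
  unfold st
  rw [Set.projIcc_of_le_left]
  · rfl
  · simp only [Set.Icc.coe_one]
    linarith

theorem st_one_of_ge {s : I} (h : (2 : ℝ) / 3 ≤ s) : st 1 s = 1 := by
  unfold st
  rw [Set.projIcc_of_right_le]
  · rfl
  · simp only [Set.Icc.coe_one]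
    linarith

open Classical in
/-- the stretching homotopy of the 1-skeleton, curried -/
noncomputable def str (y : C.X1) : C(I, C.X1) :=
  if h : ∃ (q : C.E × I), q.2 ∈ Iint ∧ y = C.e1 q.1 q.2 then
    ⟨fun t => C.e1 h.choose.1 (st t h.choose.2),
      (C.e1 h.choose.1).continuous.comp
        (continuous_st.comp (Continuous.prodMk continuous_id continuous_const))⟩
  else ContinuousMap.const I y

theorem str_v1 (o : C.O) (t : I) : C.str (C.v1 o) t = C.v1 o := by
  have h : ¬ ∃ (q : C.E × I), q.2 ∈ Iint ∧ C.v1 o = C.e1 q.1 q.2 := by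
    rintro ⟨q, hq, h⟩
    exact C.e1_ne_v1 hq h.symm
  rw [str, dif_neg h]
  rfl

theorem str_e1 (i : C.E) (s t : I) : C.str (C.e1 i s) t = C.e1 i (st t s) := by
  by_cases hs : s ∈ Iint
  · have h : ∃ (q : C.E × I), q.2 ∈ Iint ∧ C.e1 i s = C.e1 q.1 q.2 := ⟨(i, s), hs, rfl⟩
    rw [str, dif_pos h]
    have h2 := C.e1_inj' hs h.choose_spec.2
    show C.e1 h.choose.1 (st t h.choose.2) = _
    rw [← h2.1, ← h2.2]
  · obtain ⟨o, ho⟩ := C.e1_of_not_Iint i hs
    rw [ho, str_v1, ← ho]
    rcases not_Iint hs with rfl | rfl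
    · rw [st_zero_right]
    · rw [st_one_right]

theorem continuous_str : Continuous C.str := by
  refine C.continuous_X1 fun i => ?_
  have : (fun s => C.str (C.e1 i s)) = fun s => (ContinuousMap.curry
      (⟨fun p : I × I => C.e1 i (st p.2 p.1), (C.e1 i).continuous.comp
        (continuous_st.comp continuous_swap)⟩ : C(I × I, C.X1))) s := by
    funext s
    ext t
    rw [str_e1]
    rfl
  rw [this]
  exact ContinuousMap.continuous _

theorem continuous_str_uncurry : Continuous fun p : C.X1 × I => C.str p.1 p.2 := by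
  have := C.continuous_str
  fun_prop

/-! ### API of `Rep` and `wordOf` -/

theorem wordOf_append (w w' : C.Wd) : C.wordOf (w ++ w') = C.wordOf w * C.wordOf w' := by
  induction w with
  | nil => simp [wordOf]
  | cons x w ih =>
    obtain ⟨i, b⟩ := x
    cases b <;> simp [wordOf, ih, mul_assoc]

/-- the inverse word -/
def invW (w : C.Wd) : C.Wd := (w.map fun x => (x.1, !x.2)).reverse

@[simp] theorem invW_nil : C.invW [] = [] := rfl

theorem invW_cons (x : C.E × Bool) (w : C.Wd) :
    C.invW (x :: w) = C.invW w ++ [(x.1, !x.2)] := by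
  simp [invW]


variable {C}

theorem Rep.trans {o o' : C.O} {w : C.Wd} {γ : Path.Homotopic.Quotient (C.v1 o) (C.v1 o')}
    (h : C.Rep o o' w γ) {o'' : C.O} {w' : C.Wd}
    {γ' : Path.Homotopic.Quotient (C.v1 o') (C.v1 o'')} (h' : C.Rep o' o'' w' γ') :
    C.Rep o o'' (w ++ w') (γ.trans γ') := by
  induction h with
  | nil o => simpa using h'
  | fwd i o' w γ _ ih =>
    rw [Path.Homotopic.Quotient.trans_assoc]
    exact Rep.fwd i o'' _ _ (ih h')
  | bwd i o' w γ _ ih =>
    rw [Path.Homotopic.Quotient.trans_assoc]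
    exact Rep.bwd i o'' _ _ (ih h')

theorem Rep.single_fwd (i : C.E) :
    C.Rep (C.src i) (C.tgt i) [(i, true)] (Path.Homotopic.Quotient.mk (C.e1 i)) := by
  have := Rep.fwd i _ _ _ (Rep.nil (C := C) (C.tgt i))
  simpa using this

theorem Rep.single_bwd (i : C.E) :
    C.Rep (C.tgt i) (C.src i) [(i, false)]
      (Path.Homotopic.Quotient.symm (Path.Homotopic.Quotient.mk (C.e1 i))) := by
  have := Rep.bwd i _ _ _ (Rep.nil (C := C) (C.src i))
  simpa using this

theorem quot_symm_trans {Y : Type*} [TopologicalSpace Y] {a b c : Y}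
    (p : Path.Homotopic.Quotient a b) (q : Path.Homotopic.Quotient b c) :
    (p.trans q).symm = q.symm.trans p.symm := by
  induction p using Path.Homotopic.Quotient.ind with | mk p =>
  induction q using Path.Homotopic.Quotient.ind with | mk q =>
  rw [← Path.Homotopic.Quotient.mk_trans, ← Path.Homotopic.Quotient.mk_symm,
    ← Path.Homotopic.Quotient.mk_symm, ← Path.Homotopic.Quotient.mk_symm,
    ← Path.Homotopic.Quotient.mk_trans, Path.trans_symm]

theorem quot_symm_symm {Y : Type*} [TopologicalSpace Y] {a b : Y}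
    (p : Path.Homotopic.Quotient a b) : p.symm.symm = p := by
  induction p using Path.Homotopic.Quotient.ind with | mk p =>
  rw [← Path.Homotopic.Quotient.mk_symm, ← Path.Homotopic.Quotient.mk_symm, Path.symm_symm]

theorem quot_symm_refl {Y : Type*} [TopologicalSpace Y] (a : Y) :
    (Path.Homotopic.Quotient.refl a).symm = Path.Homotopic.Quotient.refl a := by
  rw [← Path.Homotopic.Quotient.mk_refl, ← Path.Homotopic.Quotient.mk_symm, Path.refl_symm]

theorem Rep.symm {o o' : C.O} {w : C.Wd} {γ : Path.Homotopic.Quotient (C.v1 o) (C.v1 o')}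
    (h : C.Rep o o' w γ) : C.Rep o' o (C.invW w) γ.symm := by
  induction h with
  | nil o => rw [quot_symm_refl]; exact Rep.nil o
  | fwd i o' w γ _ ih =>
    rw [quot_symm_trans, invW_cons]
    exact ih.trans (Rep.single_bwd i)
  | bwd i o' w γ _ ih =>
    rw [quot_symm_trans, invW_cons, quot_symm_symm]
    exact ih.trans (Rep.single_fwd i)


variable (C)

/-! ### Homotopy classes in edges -/

theorem I_homotopic {a b : I} (p q : Path a b) : p.Homotopic q := by
  refine ⟨{ toFun := fun x => Set.Icc.convexComb (p x.2) (q x.2) x.1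
            continuous_toFun := ?_
            map_zero_left := ?_
            map_one_left := ?_
            prop' := ?_ }⟩
  · fun_prop
  · intro x; simp
  · intro x; simp
  · intro t x hx
    rcases hx with rfl | hx
    · simp
    · rw [Set.mem_singleton_iff] at hx
      subst hx; simp

/-- the linear path from `0` to `s` -/
def lin0 (s : I) : Path (0 : I) s where
  toFun r := r * s
  continuous_toFun := by fun_prop
  source' := by simp
  target' := by simp

/-- initial piece of an edge -/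
noncomputable def ini (i : C.E) (s : I) : Path (C.v1 (C.src i)) (C.e1 i s) :=
  ((lin0 s).map (C.e1 i).continuous).cast (C.e1 i).source.symm rfl

theorem ini_trans (i : C.E) {a b : I} (β : Path a b) {x y : C.X1} (p : Path x y)
    (hx : C.e1 i a = x) (hy : C.e1 i b = y) (hp : ∀ r, p r = C.e1 i (β r)) :
    ((Path.Homotopic.Quotient.mk (C.ini i a)).cast rfl hx.symm).trans
      (Path.Homotopic.Quotient.mk p) =
      (Path.Homotopic.Quotient.mk (C.ini i b)).cast rfl hy.symm := by
  subst hx hy
  rw [Path.Homotopic.Quotient.cast_rfl_rfl, Path.Homotopic.Quotient.cast_rfl_rfl,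
    ← Path.Homotopic.Quotient.mk_trans, Path.Homotopic.Quotient.eq]
  have h1 : (C.ini i a).trans p =
      (((lin0 a).trans β).map (C.e1 i).continuous).cast (C.e1 i).source.symm rfl := by
    ext t
    simp only [ini, Path.trans_apply, Path.cast_coe, Path.map_coe, Function.comp_apply]
    split_ifs
    · rfl
    · exact congrArg Subtype.val (hp _)
  rw [h1]
  exact ((I_homotopic ((lin0 a).trans β) (lin0 b)).map ⟨_, (C.e1 i).continuous⟩).pathCast _ _

theorem const_trans {Y : Type*} [TopologicalSpace Y] {z x y : Y} (p : Path x y)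
    (hx : z = x) (hy : z = y) (hp : ∀ r, p r = z) :
    ((Path.Homotopic.Quotient.refl z).cast rfl hx.symm).trans (Path.Homotopic.Quotient.mk p) =
      (Path.Homotopic.Quotient.refl z).cast rfl hy.symm := by
  subst hx hy
  have : p = Path.refl z := by
    ext r; rw [hp]; rfl
  subst this
  rw [Path.Homotopic.Quotient.cast_rfl_rfl, Path.Homotopic.Quotient.mk_refl,
    Path.Homotopic.Quotient.refl_trans]

/-- short paths from vertices -/
def Short (o : C.O) (y : C.X1) (c : Path.Homotopic.Quotient (C.v1 o) y) : Prop :=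
  (∃ h : C.v1 o = y, c = (Path.Homotopic.Quotient.refl (C.v1 o)).cast rfl h.symm) ∨
  ∃ (i : C.E) (s : I) (ho : o = C.src i) (h : C.e1 i s = y),
    c = (Path.Homotopic.Quotient.mk (C.ini i s)).cast (congrArg C.v1 ho) h.symm

theorem exists_short (y : C.X1) : ∃ o c, C.Short o y c := by
  rcases C.X1_cases y with ⟨o, rfl⟩ | ⟨i, s, -, rfl⟩
  · exact ⟨o, _, Or.inl ⟨rfl, rfl⟩⟩
  · exact ⟨_, _, Or.inr ⟨i, s, rfl, rfl, rfl⟩⟩

theorem ini_zero (i : C.E) : Path.Homotopic.Quotient.mk (C.ini i 0) =
    (Path.Homotopic.Quotient.refl (C.v1 (C.src i))).cast rfl (C.e1 i).source := by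
  rw [← Path.Homotopic.Quotient.mk_refl, ← Path.Homotopic.Quotient.mk_cast]
  congr 1
  ext r
  simp only [ini, Path.cast_coe, Path.map_coe, Function.comp_apply]
  have : (lin0 0) r = 0 := by simp [lin0]
  rw [this]
  exact congrArg Subtype.val (C.e1 i).source

theorem ini_one (i : C.E) : Path.Homotopic.Quotient.mk (C.ini i 1) =
    (Path.Homotopic.Quotient.mk (C.e1 i)).cast rfl (C.e1 i).target := by
  rw [← Path.Homotopic.Quotient.mk_cast]
  congr 1
  ext r
  simp only [ini, Path.cast_coe, Path.map_coe, Function.comp_apply]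
  have : (lin0 1) r = r := by simp [lin0]
  rw [this]

/-- every short path is a short path of the vertex kind up to an edge word, if it ends at a
vertex -/
theorem short_vert {o₁ : C.O} {y : C.X1} {c : Path.Homotopic.Quotient (C.v1 o₁) y}
    (hc : C.Short o₁ y c) {o₂ : C.O} (h : C.v1 o₂ = y) :
    ∃ w, C.Rep o₂ o₁ w
      (((Path.Homotopic.Quotient.refl (C.v1 o₂)).cast rfl h.symm).trans c.symm) := by
  subst h
  rw [Path.Homotopic.Quotient.cast_rfl_rfl, Path.Homotopic.Quotient.refl_trans]
  rcases hc with ⟨h, rfl⟩ | ⟨i, s, ho, h, rfl⟩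
  · have := C.v1_inj h
    subst this
    refine ⟨[], ?_⟩
    rw [Path.Homotopic.Quotient.cast_rfl_rfl, quot_symm_refl]
    exact Rep.nil _
  · subst ho
    have hs : s ∉ Iint := fun hs => C.e1_ne_v1 hs h
    rcases not_Iint hs with rfl | rfl
    · have h' : C.v1 (C.src i) = C.v1 o₂ := (C.e1 i).source.symm.trans h
      have := C.v1_inj h'
      subst this
      refine ⟨[], ?_⟩
      rw [ini_zero, Path.Homotopic.Quotient.cast_cast, Path.Homotopic.Quotient.cast_rfl_rfl,
        quot_symm_refl]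
      exact Rep.nil _
    · have h' : C.v1 (C.tgt i) = C.v1 o₂ := (C.e1 i).target.symm.trans h
      have := C.v1_inj h'
      subst this
      refine ⟨[(i, false)], ?_⟩
      rw [ini_one, Path.Homotopic.Quotient.cast_cast, Path.Homotopic.Quotient.cast_rfl_rfl]
      exact Rep.single_bwd i

theorem short_compare {o₁ o₂ : C.O} {y : C.X1} {c : Path.Homotopic.Quotient (C.v1 o₁) y}
    (hc : C.Short o₁ y c) {c' : Path.Homotopic.Quotient (C.v1 o₂) y}
    (hc' : C.Short o₂ y c') : ∃ w, C.Rep o₁ o₂ w (c.trans c'.symm) := by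
  by_cases hy : ∃ o, C.v1 o = y
  · obtain ⟨o, h⟩ := hy
    obtain ⟨w, hw⟩ := C.short_vert hc h
    obtain ⟨w', hw'⟩ := C.short_vert hc' h
    refine ⟨C.invW w ++ w', ?_⟩
    convert hw.symm.trans hw' using 1
    rw [quot_symm_trans, quot_symm_symm, Path.Homotopic.Quotient.trans_assoc,
      ← Path.Homotopic.Quotient.trans_assoc _ _ c'.symm, Path.Homotopic.Quotient.symm_trans,
      Path.Homotopic.Quotient.refl_trans]
  · push Not at hy
    rcases hc with ⟨h, -⟩ | ⟨i, s, ho, h, hc⟩
    · exact absurd h (hy _)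
    rcases hc' with ⟨h', -⟩ | ⟨i', s', ho', h', hc'⟩
    · exact absurd h' (hy _)
    have hs : s ∈ Iint := by
      by_contra hs
      obtain ⟨o, ho⟩ := C.e1_of_not_Iint i hs
      exact hy o (ho.symm.trans h)
    obtain ⟨rfl, rfl⟩ := C.e1_inj' hs (h.trans h'.symm)
    subst ho ho' h
    refine ⟨[], ?_⟩
    rw [hc, hc', Path.Homotopic.Quotient.cast_rfl_rfl, Path.Homotopic.Quotient.trans_symm]
    exact Rep.nil _

section main
variable {o o' : C.O} (g : Path (C.v1 o) (C.v1 o'))

/-- initial pieces of a path -/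
noncomputable def sp (t : I) : Path (C.v1 o) (g t) := (g.subpath 0 t).cast g.source.symm rfl

theorem sp_trans (s t : I) :
    (Path.Homotopic.Quotient.mk (C.sp g s)).trans (Path.Homotopic.Quotient.mk (g.subpath s t)) =
      Path.Homotopic.Quotient.mk (C.sp g t) := by
  rw [← Path.Homotopic.Quotient.mk_trans, Path.Homotopic.Quotient.eq]
  have h := Path.Homotopic.pathCast (x₂ := C.v1 o) (x₃ := g t)
    ⟨Path.Homotopy.subpathTransSubpath g 0 s t⟩ g.source.symm rfl
  exact h

/-- the statement propagated along the path -/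
def Q (t : I) : Prop := ∀ (o₁ : C.O) (c : Path.Homotopic.Quotient (C.v1 o₁) (g t)),
  C.Short o₁ (g t) c → ∃ w, C.Rep o o₁ w ((Path.Homotopic.Quotient.mk (C.sp g t)).trans c.symm)

theorem Q_step {s t : I} {o₀ : C.O} {cs : Path.Homotopic.Quotient (C.v1 o₀) (g s)}
    {ct : Path.Homotopic.Quotient (C.v1 o₀) (g t)} (hs : C.Short o₀ (g s) cs)
    (ht : C.Short o₀ (g t) ct)
    (h : cs.trans (Path.Homotopic.Quotient.mk (g.subpath s t)) = ct) (hQ : C.Q g s) :
    C.Q g t := by
  intro o₁ c hc
  obtain ⟨w, hw⟩ := hQ o₀ cs hs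
  obtain ⟨w', hw'⟩ := C.short_compare ht hc
  refine ⟨w ++ w', ?_⟩
  convert hw.trans hw' using 1
  rw [← h, Path.Homotopic.Quotient.trans_assoc, ← Path.Homotopic.Quotient.trans_assoc cs.symm,
    ← Path.Homotopic.Quotient.trans_assoc cs.symm, Path.Homotopic.Quotient.symm_trans,
    Path.Homotopic.Quotient.refl_trans, ← Path.Homotopic.Quotient.trans_assoc, sp_trans]

theorem Q_zero : C.Q g 0 := by
  intro o₁ c hc
  have h0 : C.Short o (g 0) (Path.Homotopic.Quotient.mk (C.sp g 0)) := by
    refine Or.inl ⟨g.source.symm, ?_⟩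
    rw [← Path.Homotopic.Quotient.mk_refl, ← Path.Homotopic.Quotient.mk_cast]
    congr 1
    ext r
    simp only [sp, Path.subpath_self, Path.cast_coe, Path.refl_apply]
    exact congrArg Subtype.val g.source
  exact C.short_compare h0 hc

theorem exists_rep_of_Q_one (h : C.Q g 1) : ∃ w, C.Rep o o' w (Path.Homotopic.Quotient.mk g) := by
  obtain ⟨w, hw⟩ := h o' _ (Or.inl ⟨g.target.symm, rfl⟩)
  refine ⟨w, ?_⟩
  convert hw using 1
  have aux : ∀ {Y : Type} [TopologicalSpace Y] {x y z : Y} (p : Path x y) (h : z = y)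
      (p' : Path x z) (_ : ∀ r, p r = p' r),
      Path.Homotopic.Quotient.mk p' = (Path.Homotopic.Quotient.mk p).trans
        ((Path.Homotopic.Quotient.refl z).cast rfl h.symm).symm := by
    intro Y _ x y z p h p' hp
    subst h
    have : p = p' := by ext r; exact hp r
    subst this
    rw [Path.Homotopic.Quotient.cast_rfl_rfl, quot_symm_refl, Path.Homotopic.Quotient.trans_refl]
  refine aux (C.sp g 1) g.target.symm g ?_
  intro r
  simp [sp]

/-- local structure of a path suffices -/
theorem Q_of_local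
    (hloc : ∀ t₀ : I, ∃ N ∈ nhds t₀, (∃ o₀, ∀ t ∈ N, g t = C.v1 o₀) ∨
      ∃ (i : C.E) (β : I → I), ContinuousOn β N ∧ ∀ t ∈ N, g t = C.e1 i (β t)) :
    ∀ t, C.Q g t := by
  have hlc : IsLocallyConstant (C.Q g) := by
    rw [IsLocallyConstant.iff_eventually_eq]
    intro t₀
    obtain ⟨N, hN, h⟩ := hloc t₀
    obtain ⟨ε, hε, hball⟩ := Metric.mem_nhds_iff.1 hN
    have hconv : ∀ s t : I, s ∈ Metric.ball t₀ ε → t ∈ Metric.ball t₀ ε → ∀ r : I,
        Set.Icc.convexComb s t r ∈ Metric.ball t₀ ε := by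
      intro s t hs ht r
      have h1 := convex_ball (t₀ : ℝ) ε
      have hs' : (s : ℝ) ∈ Metric.ball (t₀ : ℝ) ε := hs
      have ht' : (t : ℝ) ∈ Metric.ball (t₀ : ℝ) ε := ht
      have := h1 hs' ht' (a := 1 - (r : ℝ)) (b := (r : ℝ)) (by linarith [r.2.2]) r.2.1 (by ring)
      exact this
    have key : ∀ s ∈ Metric.ball t₀ ε, ∀ t ∈ Metric.ball t₀ ε, C.Q g s → C.Q g t := by
      intro s hs t ht
      rcases h with ⟨o₀, h⟩ | ⟨i, β, hβ, h⟩
      · refine C.Q_step g (o₀ := o₀) (Or.inl ⟨(h s (hball hs)).symm, rfl⟩)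
          (Or.inl ⟨(h t (hball ht)).symm, rfl⟩) ?_
        refine const_trans _ (h s (hball hs)).symm (h t (hball ht)).symm ?_
        intro r
        exact h _ (hball (hconv s t hs ht r))
      · refine C.Q_step g (o₀ := C.src i)
          (Or.inr ⟨i, β s, rfl, (h s (hball hs)).symm, rfl⟩)
          (Or.inr ⟨i, β t, rfl, (h t (hball ht)).symm, rfl⟩) ?_
        refine C.ini_trans i (⟨⟨fun r => β (Set.Icc.convexComb s t r), ?_⟩, ?_, ?_⟩ :
          Path (β s) (β t)) _ (h s (hball hs)).symm (h t (hball ht)).symm ?_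
        · exact hβ.comp_continuous (by fun_prop) fun r => hball (hconv s t hs ht r)
        · simp
        · simp
        · intro r
          exact h _ (hball (hconv s t hs ht r))
    filter_upwards [Metric.ball_mem_nhds t₀ hε] with t ht
    exact propext ⟨key t ht t₀ (Metric.mem_ball_self hε), key t₀ (Metric.mem_ball_self hε) t ht⟩
  intro t
  have := hlc.apply_eq_of_preconnectedSpace t 0
  rw [this]
  exact C.Q_zero g

end main

/-- the stretched path -/
noncomputable def stretch {o o' : C.O} (g : Path (C.v1 o) (C.v1 o')) :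
    Path (C.v1 o) (C.v1 o') where
  toFun t := C.str (g t) 1
  continuous_toFun := by
    exact C.continuous_str_uncurry.comp (Continuous.prodMk g.continuous continuous_const)
  source' := by rw [g.source, str_v1]
  target' := by rw [g.target, str_v1]

theorem stretch_homotopic {o o' : C.O} (g : Path (C.v1 o) (C.v1 o')) :
    g.Homotopic (C.stretch g) := by
  refine ⟨{ toFun := fun x => C.str (g x.2) x.1
            continuous_toFun := ?_
            map_zero_left := ?_
            map_one_left := ?_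
            prop' := ?_ }⟩
  · exact C.continuous_str_uncurry.comp
      (Continuous.prodMk (g.continuous.comp continuous_snd) continuous_fst)
  · intro t
    show C.str (g t) 0 = g t
    rcases C.X1_cases (g t) with ⟨o, h⟩ | ⟨i, s, -, h⟩
    · rw [h, str_v1]
    · rw [h, str_e1, st_zero_left]
  · intro t
    rfl
  · intro t x hx
    show C.str (g x) t = g x
    rcases hx with rfl | hx
    · rw [g.source, str_v1]
    · rw [Set.mem_singleton_iff] at hx
      subst hx
      rw [g.target, str_v1]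

theorem stretch_local {o o' : C.O} (g : Path (C.v1 o) (C.v1 o')) (t₀ : I) :
    ∃ N ∈ nhds t₀, (∃ o₀, ∀ t ∈ N, C.stretch g t = C.v1 o₀) ∨
      ∃ (i : C.E) (β : I → I), ContinuousOn β N ∧ ∀ t ∈ N, C.stretch g t = C.e1 i (β t) := by
  by_cases hin : ∃ i, g t₀ ∈ C.e1 i '' Iint
  · obtain ⟨i, hi⟩ := hin
    refine ⟨g ⁻¹' (C.e1 i '' Iint), ((C.isOpen_edge i).preimage g.continuous).mem_nhds hi,
      Or.inr ⟨i, fun t => st 1 (C.par i (g t)), ?_, ?_⟩⟩
    · have h1 : ContinuousOn (fun t => C.par i (g t)) (g ⁻¹' (C.e1 i '' Iint)) :=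
        (C.par_continuousOn i).comp g.continuous.continuousOn (fun t ht => ht)
      have h2 : Continuous fun s : I => st 1 s :=
        continuous_st.comp (Continuous.prodMk continuous_const continuous_id)
      exact h2.comp_continuousOn h1
    · intro t ht
      show C.str (g t) 1 = _
      conv_lhs => rw [← C.e1_par i ht]
      rw [str_e1]
  · have hv : ∃ o₀, g t₀ = C.v1 o₀ := by
      rcases C.X1_cases (g t₀) with h | ⟨i, s, hs, h⟩
      · exact h
      · exact absurd ⟨i, s, hs, h.symm⟩ hin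
    obtain ⟨o₀, ho₀⟩ := hv
    -- the middle parts of the edges form a closed set
    set K : Set C.X1 := {y | ∃ (i : C.E) (s : I), (1 / 3 : ℝ) ≤ s ∧ (s : ℝ) ≤ 2 / 3 ∧ C.e1 i s = y} with hK
    have hKI : ∀ s : I, (1 / 3 : ℝ) ≤ s → (s : ℝ) ≤ 2 / 3 → s ∈ Iint := by
      intro s h1 h2
      refine ⟨?_, ?_⟩
      · show (0 : ℝ) < s
        linarith
      · show (s : ℝ) < 1
        linarith
    have hKc : IsClosed K := by
      refine C.isClosed_X1 fun i => ?_
      have : C.e1 i ⁻¹' K = {s : I | (1 / 3 : ℝ) ≤ s ∧ (s : ℝ) ≤ 2 / 3} := by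
        ext s
        constructor
        · rintro ⟨i', s', h1, h2, h⟩
          have := (C.e1_inj' (hKI s' h1 h2) h).2
          subst this
          exact ⟨h1, h2⟩
        · rintro ⟨h1, h2⟩
          exact ⟨i, s, h1, h2, rfl⟩
      rw [this]
      exact (isClosed_le continuous_const continuous_subtype_val).inter
        (isClosed_le continuous_subtype_val continuous_const)
    have hc1 : Continuous fun y : C.X1 => C.str y 1 :=
      C.continuous_str_uncurry.comp (Continuous.prodMk continuous_id continuous_const)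
    set L : Set C.X1 := (fun y => C.str y 1) ⁻¹' (C.v1 '' {o₀}ᶜ) with hL
    have hLc : IsClosed L := (C.isClosed_vertices _).preimage hc1
    have hopen : IsOpen (Kᶜ ∩ Lᶜ) := hKc.isOpen_compl.inter hLc.isOpen_compl
    have hmem : g t₀ ∈ Kᶜ ∩ Lᶜ := by
      rw [ho₀]
      refine ⟨?_, ?_⟩
      · rintro ⟨i, s, h1, h2, h⟩
        exact C.e1_ne_v1 (hKI s h1 h2) h
      · rintro ⟨o₁, ho₁, h⟩
        simp only [str_v1] at h
        exact ho₁ (C.v1_inj h)
    refine ⟨g ⁻¹' (Kᶜ ∩ Lᶜ), (hopen.preimage g.continuous).mem_nhds hmem, Or.inl ⟨o₀, ?_⟩⟩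
    intro t ht
    obtain ⟨h1, h2⟩ := ht
    show C.str (g t) 1 = C.v1 o₀
    have hv : ∃ o₁, C.str (g t) 1 = C.v1 o₁ := by
      rcases C.X1_cases (g t) with ⟨o₁, h⟩ | ⟨i, s, hs, h⟩
      · exact ⟨o₁, by rw [h, str_v1]⟩
      · rw [h, str_e1]
        rcases lt_or_ge (s : ℝ) (1 / 3) with h3 | h3
        · rw [st_one_of_le h3.le]
          exact ⟨_, (C.e1 i).source⟩
        · rcases lt_or_ge (2 / 3 : ℝ) (s : ℝ) with h4 | h4
          · rw [st_one_of_ge h4.le]
            exact ⟨_, (C.e1 i).target⟩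
          · exact absurd ⟨i, s, h3, h4, h.symm⟩ h1
    obtain ⟨o₁, ho₁⟩ := hv
    by_cases ho : o₁ = o₀
    · rw [ho₁, ho]
    · exact absurd ⟨o₁, ho, ho₁.symm⟩ h2

/-- **Edge path theorem**: every homotopy class of paths of the 1-skeleton between vertices is
represented by an edge word. -/
theorem exists_rep (o o' : C.O) (γ : Path.Homotopic.Quotient (C.v1 o) (C.v1 o')) :
    ∃ w, C.Rep o o' w γ := by
  induction γ using Path.Homotopic.Quotient.ind with | mk g =>
  have h := C.exists_rep_of_Q_one (C.stretch g)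
    (C.Q_of_local (C.stretch g) (C.stretch_local g) 1)
  rwa [Path.Homotopic.Quotient.eq.2 (C.stretch_homotopic g)]

end TwoCx
end Crest.Agent.R197
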