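import Mathlib
import Crest.Agent.R197.Omega
import Crest.Agent.R197.Flat

/-! Row 197, module N3: groups generated by a flat family `(x i), (y k)` are determined by their images
in two free groups; universal properties. -/

set_option autoImplicit false

namespace Crest.Agent.R197

section flat
variable {I K G : Type*} [Group G]

/-- flatness for general index types: all scaled loops are trivial. -/
def Flat (x : I → G) (y : K → G) : Prop :=
  ∀ (i j : I) (k l : K) (n : ℤ),
    (y k * (x i)⁻¹) ^ n * (y k * (x j)⁻¹) ^ (-n) * (y l * (x j)⁻¹) ^ n * (y l * (x i)⁻¹) ^ (-n) = 1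

/-- `Λ_n^i` -/
def Lam (x : I → G) (y : K → G) (k : K) (i : I) (n : ℤ) : G := (y k) ^ n * (y k * (x i)⁻¹) ^ (-n)

theorem Lam_indep {x : I → G} {y : K → G} {i₀ : I} (hx0 : x i₀ = 1) (hf : Flat x y) (k l : K) (i : I)
    (n : ℤ) : Lam x y k i n = Lam x y l i n := by
  have h := hf i₀ i k l n
  simp only [hx0, inv_one, mul_one] at h
  unfold Lam
  rw [mul_assoc, ← eq_inv_iff_mul_eq_one] at h
  rw [h]
  simp [zpow_neg]

theorem flat_of_indep {x : I → G} {y : K → G}
    (h : ∀ (k l : K) (i : I) (n : ℤ), Lam x y k i n = Lam x y l i n) : Flat x y := by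
  intro i j k l n
  have h1 := h k l i n
  have h2 := h k l j n
  unfold Lam at h1 h2
  simp only [zpow_neg] at h1 h2 ⊢
  have e1 : (y k * (x i)⁻¹) ^ n = ((y l) ^ n * ((y l * (x i)⁻¹) ^ n)⁻¹)⁻¹ * (y k) ^ n := by
    rw [← h1]; group
  have e2 : ((y k * (x j)⁻¹) ^ n)⁻¹ = ((y k) ^ n)⁻¹ * ((y l) ^ n * ((y l * (x j)⁻¹) ^ n)⁻¹) := by
    rw [← h2]; group
  rw [e1, e2]
  group

theorem Lam_conj {x : I → G} {y : K → G} {i₀ : I} (hx0 : x i₀ = 1) (hf : Flat x y) (k₀ k : K) (i : I)
    (n : ℤ) : y k * Lam x y k₀ i n * (y k)⁻¹ = Lam x y k₀ i (n + 1) * (Lam x y k₀ i 1)⁻¹ := by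
  rw [Lam_indep hx0 hf k₀ k i n, Lam_indep hx0 hf k₀ k i (n + 1), Lam_indep hx0 hf k₀ k i 1]
  unfold Lam
  generalize y k * (x i)⁻¹ = a
  group

theorem Lam_conj' {x : I → G} {y : K → G} {i₀ : I} (hx0 : x i₀ = 1) (hf : Flat x y) (k₀ k : K) (i : I)
    (n : ℤ) : (y k)⁻¹ * Lam x y k₀ i n * y k = Lam x y k₀ i (n - 1) * (Lam x y k₀ i (-1))⁻¹ := by
  rw [Lam_indep hx0 hf k₀ k i n, Lam_indep hx0 hf k₀ k i (n - 1), Lam_indep hx0 hf k₀ k i (-1)]
  unfold Lam
  generalize y k * (x i)⁻¹ = a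
  group

theorem x_eq_Lam (x : I → G) (y : K → G) (k₀ : K) (i : I) : x i = (Lam x y k₀ i (-1))⁻¹ := by
  unfold Lam
  group

/-- the wreath product `(ℤ → G) ⋊ ℤ` -/
abbrev WrZ (G : Type*) [Group G] := (Multiplicative ℤ → G) ⋊[mulAutArrow] (Multiplicative ℤ)

/-- the translation in the wreath product -/
def wt : WrZ G := SemidirectProduct.inr (Multiplicative.ofAdd 1)

/-- value at `0` of a conjugated function -/
theorem wt_zpow (n : ℤ) : (wt : WrZ G) ^ n = SemidirectProduct.inr (Multiplicative.ofAdd n) := by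
  unfold wt
  rw [← map_zpow, ← ofAdd_zsmul]
  simp

theorem arr_apply (a : Multiplicative ℤ) (f : Multiplicative ℤ → G) (m : Multiplicative ℤ) :
    (mulAutArrow a : MulAut (Multiplicative ℤ → G)) f m = f (a⁻¹ * m) := rfl

theorem wr_key (f : Multiplicative ℤ → G) (n : ℤ) :
    (wt : WrZ G) ^ (-n) * ((SemidirectProduct.inl f : WrZ G) * wt * (SemidirectProduct.inl f : WrZ G)⁻¹) ^ n
      = SemidirectProduct.inl (fun m => f (Multiplicative.ofAdd n * m) * (f m)⁻¹) := by
  rw [conj_zpow, wt_zpow, wt_zpow]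
  ext m
  · simp only [SemidirectProduct.mul_left, SemidirectProduct.mul_right, SemidirectProduct.left_inr,
      SemidirectProduct.right_inr, SemidirectProduct.left_inl, SemidirectProduct.right_inl,
      SemidirectProduct.inv_left, one_mul, mul_one, map_one, map_mul, Pi.mul_apply, arr_apply,
      Pi.one_apply, inv_one]
    rw [show (Multiplicative.ofAdd (-n))⁻¹ = Multiplicative.ofAdd n by simp]
    rw [inv_mul_cancel_left]
    simp
  · simp

/-- A group generated by a flat family embeds in the product of two free groups. -/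
theorem flat_injective {I' K' : Type*} (i₀ : I) (k₀ : K) (ι : I → I') (hι : Function.Injective ι)
    (κ : K → K') (hκ : Function.Injective κ) {x : I → G} {y : K → G} (hx0 : x i₀ = 1)
    (hf : Flat x y) (hgen : Subgroup.closure (Set.range x ∪ Set.range y) = ⊤)
    (Θ₁ : G →* FreeGroup I') (Θ₂ : G →* FreeGroup K')
    (h1x : ∀ i, Θ₁ (x i) = FreeGroup.of (ι i) * (FreeGroup.of (ι i₀))⁻¹)
    (h1y : ∀ k, Θ₁ (y k) = (FreeGroup.of (ι i₀))⁻¹)
    (h2x : ∀ i, Θ₂ (x i) = 1) (h2y : ∀ k, Θ₂ (y k) = FreeGroup.of (κ k))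
    (g : G) (hg1 : Θ₁ g = 1) (hg2 : Θ₂ g = 1) : g = 1 := by
  classical
  -- the subgroup of `Λ`'s
  set N : Subgroup G := Subgroup.closure (Set.range fun p : I × ℤ => Lam x y k₀ p.1 p.2) with hN
  have hΛ : ∀ i n, Lam x y k₀ i n ∈ N := fun i n => Subgroup.subset_closure ⟨(i, n), rfl⟩
  have hxN : ∀ i, x i ∈ N := fun i => by
    rw [x_eq_Lam x y k₀ i]; exact N.inv_mem (hΛ _ _)
  have hnorm : N.Normal := by
    have h1 : Subgroup.closure (Set.range x ∪ Set.range y) ≤ Subgroup.normalizer (N : Set G) := by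
      rw [Subgroup.closure_le]
      rintro _ (⟨i, rfl⟩ | ⟨k, rfl⟩)
      · exact Subgroup.le_normalizer (hxN i)
      · have c1 : N ≤ N.comap (MulAut.conj (y k)).toMonoidHom := by
          rw [hN, Subgroup.closure_le, ← hN]
          rintro _ ⟨⟨i, n⟩, rfl⟩
          simp only [SetLike.mem_coe, Subgroup.mem_comap, MulEquiv.coe_toMonoidHom,
            MulAut.conj_apply]
          rw [Lam_conj hx0 hf]
          exact N.mul_mem (hΛ _ _) (N.inv_mem (hΛ _ _))
        have c2 : N ≤ N.comap (MulAut.conj (y k)⁻¹).toMonoidHom := by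
          rw [hN, Subgroup.closure_le, ← hN]
          rintro _ ⟨⟨i, n⟩, rfl⟩
          simp only [SetLike.mem_coe, Subgroup.mem_comap, MulEquiv.coe_toMonoidHom,
            MulAut.conj_apply, inv_inv]
          rw [Lam_conj' hx0 hf]
          exact N.mul_mem (hΛ _ _) (N.inv_mem (hΛ _ _))
        refine Subgroup.mem_normalizer_iff.mpr fun h => ⟨fun hh => c1 hh, fun hh => ?_⟩
        have := c2 hh
        simpa [mul_assoc] using this
    rw [hgen] at h1
    exact Subgroup.normalizer_eq_top_iff.mp (top_le_iff.mp h1)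
  -- `g ∈ N`
  have hgN : g ∈ N := by
    have e : QuotientGroup.mk' N = (QuotientGroup.mk' N).comp
        ((FreeGroup.lift (Function.extend κ y 1)).comp Θ₂) := by
      refine MonoidHom.eq_of_eqOn_dense hgen ?_
      rintro _ (⟨i, rfl⟩ | ⟨k, rfl⟩)
      · simp only [MonoidHom.comp_apply, h2x, map_one]
        exact (QuotientGroup.eq_one_iff _).mpr (hxN i)
      · simp only [MonoidHom.comp_apply, h2y, FreeGroup.lift_apply_of, hκ.extend_apply]
    have e2 := DFunLike.congr_fun e g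
    simp only [MonoidHom.comp_apply, hg2, map_one] at e2
    exact (QuotientGroup.eq_one_iff _).mp e2
  -- the wreath product
  let F : I' → (Multiplicative ℤ → G) :=
    Function.extend ι (fun i m => Lam x y k₀ i (Multiplicative.toAdd m)) 1
  have hF : ∀ i m, F (ι i) m = Lam x y k₀ i (Multiplicative.toAdd m) := fun i m => by
    simp only [F, hι.extend_apply]
  have hF0 : F (ι i₀) = 1 := by
    funext m
    rw [hF]
    simp [Lam, hx0]
  let Φ : FreeGroup I' →* WrZ G := FreeGroup.lift fun i' =>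
    (SemidirectProduct.inl (F i') : WrZ G) * wt * (SemidirectProduct.inl (F i') : WrZ G)⁻¹
  have key : ∀ g ∈ N, (Φ (Θ₁ g)).right = 1 ∧ (Φ (Θ₁ g)).left 1 = g := by
    intro g hg
    induction hg using Subgroup.closure_induction with
    | mem g hg =>
      obtain ⟨⟨i, n⟩, rfl⟩ := hg
      have e1 : Θ₁ (Lam x y k₀ i n) =
          (FreeGroup.of (ι i₀)) ^ (-n) * (FreeGroup.of (ι i)) ^ n := by
        unfold Lam
        simp only [map_mul, map_zpow, map_inv, h1x, h1y]
        rw [mul_inv_rev, inv_inv, inv_mul_cancel_left]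
        simp
      have e2 : Φ (Θ₁ (Lam x y k₀ i n)) =
          SemidirectProduct.inl (fun m => F (ι i) (Multiplicative.ofAdd n * m) * (F (ι i) m)⁻¹) := by
        rw [e1, ← wr_key, map_mul, map_zpow, map_zpow]
        simp only [Φ, FreeGroup.lift_apply_of, hF0, map_one, one_mul, inv_one, mul_one]
      rw [e2]
      refine ⟨by simp, ?_⟩
      simp only [SemidirectProduct.left_inl, mul_one, hF]
      simp [Lam]
    | one => simp
    | mul a b _ _ ha hb =>
      rw [map_mul, map_mul]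
      refine ⟨by simp [ha.1, hb.1], ?_⟩
      rw [SemidirectProduct.mul_left, ha.1]
      simp only [map_one, MulAut.one_apply, Pi.mul_apply]
      rw [ha.2, hb.2]
    | inv a _ ha =>
      rw [map_inv, map_inv]
      refine ⟨by simp [ha.1], ?_⟩
      rw [SemidirectProduct.inv_left, ha.1]
      simp only [inv_one, map_one, MulAut.one_apply, Pi.inv_apply]
      rw [ha.2]
  have := (key g hgN).2
  rw [hg1, map_one] at this
  simpa using this.symm

/-- generators of a subgroup generated by two families, inside that subgroup -/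
theorem closure_ranges_eq_top (x : I → G) (y : K → G) (N : Subgroup G)
    (hN : N = Subgroup.closure (Set.range x ∪ Set.range y)) (hx : ∀ i, x i ∈ N) (hy : ∀ k, y k ∈ N) :
    Subgroup.closure (Set.range (fun i => (⟨x i, hx i⟩ : N)) ∪ Set.range (fun k => (⟨y k, hy k⟩ : N)))
      = ⊤ := by
  subst hN
  have h := Subgroup.closure_closure_coe_preimage (k := Set.range x ∪ Set.range y)
  rw [← h]
  congr 1
  ext ⟨g, hg⟩
  simp [Set.mem_union, Subtype.ext_iff]

/-- Universal property of a group generated by a flat family which maps to the two free groups. -/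
theorem flat_lift {I' K' : Type*} (i₀ : I) (k₀ : K) (ι : I → I') (hι : Function.Injective ι)
    (κ : K → K') (hκ : Function.Injective κ) {x : I → G} {y : K → G} (hx0 : x i₀ = 1)
    (hf : Flat x y) (hgen : Subgroup.closure (Set.range x ∪ Set.range y) = ⊤)
    (Θ₁ : G →* FreeGroup I') (Θ₂ : G →* FreeGroup K')
    (h1x : ∀ i, Θ₁ (x i) = FreeGroup.of (ι i) * (FreeGroup.of (ι i₀))⁻¹)
    (h1y : ∀ k, Θ₁ (y k) = (FreeGroup.of (ι i₀))⁻¹)
    (h2x : ∀ i, Θ₂ (x i) = 1) (h2y : ∀ k, Θ₂ (y k) = FreeGroup.of (κ k))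
    {H : Type*} [Group H] {x' : I → H} {y' : K → H} (hx0' : x' i₀ = 1) (hf' : Flat x' y') :
    ∃! φ : G →* H, (∀ i, φ (x i) = x' i) ∧ ∀ k, φ (y k) = y' k := by
  set D : Subgroup (G × H) :=
    Subgroup.closure (Set.range (fun i => (x i, x' i)) ∪ Set.range (fun k => (y k, y' k))) with hD
  have hxD : ∀ i, (x i, x' i) ∈ D := fun i => Subgroup.subset_closure (Or.inl ⟨i, rfl⟩)
  have hyD : ∀ k, (y k, y' k) ∈ D := fun k => Subgroup.subset_closure (Or.inr ⟨k, rfl⟩)
  have hgenD := closure_ranges_eq_top (fun i => (x i, x' i)) (fun k => (y k, y' k)) D hD hxD hyD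
  have hfD : Flat (fun i => (⟨(x i, x' i), hxD i⟩ : D)) (fun k => (⟨(y k, y' k), hyD k⟩ : D)) := by
    intro i j k l n
    apply Subtype.ext
    apply Prod.ext
    · exact hf i j k l n
    · exact hf' i j k l n
  have inj : ∀ d : D, (d : G × H).1 = 1 → d = 1 := by
    intro d hd
    refine flat_injective i₀ k₀ ι hι κ hκ (Subtype.ext (Prod.ext hx0 hx0')) hfD hgenD
      (Θ₁.comp ((MonoidHom.fst G H).comp D.subtype)) (Θ₂.comp ((MonoidHom.fst G H).comp D.subtype))
      (fun i => h1x i) (fun k => h1y k) (fun i => h2x i) (fun k => h2y k) d ?_ ?_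
    · show Θ₁ (d : G × H).1 = 1
      rw [hd, map_one]
    · show Θ₂ (d : G × H).1 = 1
      rw [hd, map_one]
  let p : D →* G := (MonoidHom.fst G H).comp D.subtype
  have hp : Function.Bijective p := by
    constructor
    · rw [injective_iff_map_eq_one]
      exact inj
    · rw [← MonoidHom.range_eq_top, eq_top_iff, ← hgen, Subgroup.closure_le]
      rintro _ (⟨i, rfl⟩ | ⟨k, rfl⟩)
      · exact ⟨⟨_, hxD i⟩, rfl⟩
      · exact ⟨⟨_, hyD k⟩, rfl⟩
  let e : D ≃* G := MulEquiv.ofBijective p hp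
  let φ : G →* H := ((MonoidHom.snd G H).comp D.subtype).comp e.symm.toMonoidHom
  have hφ : ∀ d : D, φ (d : G × H).1 = (d : G × H).2 := by
    intro d
    have : e.symm (d : G × H).1 = d := by
      rw [MulEquiv.symm_apply_eq]; rfl
    show ((e.symm (d : G × H).1 : D) : G × H).2 = _
    rw [this]
  refine ⟨φ, ⟨fun i => hφ ⟨_, hxD i⟩, fun k => hφ ⟨_, hyD k⟩⟩, ?_⟩
  rintro ψ ⟨h1, h2⟩
  refine MonoidHom.eq_of_eqOn_dense hgen ?_
  rintro _ (⟨i, rfl⟩ | ⟨k, rfl⟩)
  · rw [h1]; exact (hφ ⟨_, hxD i⟩).symm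
  · rw [h2]; exact (hφ ⟨_, hyD k⟩).symm

end flat

/-! ### Application to `Nbar` -/


/-- the generators of `Nbar` inside `Nbar` -/
def nx (i : Fin 4) : Nbar := ⟨GG.x i, x_mem_Nbar i⟩
/-- the generators of `Nbar` inside `Nbar` -/
def ny (k : Fin 4) : Nbar := ⟨GG.y k, y_mem_Nbar k⟩

theorem nbar_gen : Subgroup.closure (Set.range nx ∪ Set.range ny) = ⊤ :=
  closure_ranges_eq_top GG.x GG.y Nbar rfl x_mem_Nbar y_mem_Nbar

theorem nbar_flat : Flat nx ny := by
  intro i j k l n
  apply Subtype.ext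
  exact lam_GG i j k l n

theorem nx_zero : nx 0 = 1 := Subtype.ext GG.rel.x0



/-- `Nbar → F₄ × F₄` is injective. -/
theorem nbXY_injective : Function.Injective nbXY := by
  rw [injective_iff_map_eq_one]
  intro g hg
  rw [nbXY_apply] at hg
  have h := Prod.ext_iff.mp hg
  exact flat_injective 0 0 id Function.injective_id id Function.injective_id nx_zero nbar_flat
    nbar_gen nbX nbY (fun i => nbX_x i) (fun k => nbX_y k) (fun i => nbY_x i) (fun k => nbY_y k) g
    h.1 h.2

/-- `Nbar → Omega` is injective. -/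
theorem toOm_injOn_Nbar {g : GG} (hg : g ∈ Nbar) (h : toOmega g = 1) : g = 1 := by
  have h1 := toOmega_fst_of_mem hg
  have h2 := toOmega_snd_of_mem hg
  rw [h] at h1 h2
  have h1' : nbX ⟨g, hg⟩ = 1 := by
    have := congrArg SemidirectProduct.left h1
    simpa using this.symm
  have h2' : nbY ⟨g, hg⟩ = 1 := by
    have := congrArg SemidirectProduct.left h2
    simpa using this.symm
  have := nbXY_injective (a₁ := ⟨g, hg⟩) (a₂ := 1) (by simp [h1', h2'])
  exact congrArg Subtype.val this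

/-! ### Application to `Qbar α` -/

section qbar
variable (α : Ltr)

theorem x1_ne_x2 : x1 α ≠ x2 α := by revert α; decide
theorem y1_ne_y2 : y1 α ≠ y2 α := by revert α; decide

/-- index families of the pair -/
def xs : Bool → Fin 4 := fun b => if b then x2 α else x1 α
def ys : Bool → Fin 4 := fun b => if b then y2 α else y1 α

theorem xs_inj : Function.Injective (xs α) := by
  revert α; decide
theorem ys_inj : Function.Injective (ys α) := by
  revert α; decide

theorem inX_iff (i : Fin 4) : inX α i ↔ ∃ b, xs α b = i := by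
  revert α i; decide
theorem inY_iff (k : Fin 4) : inY α k ↔ ∃ b, ys α b = k := by
  revert α k; decide

theorem inX_xs (b : Bool) : inX α (xs α b) := (inX_iff α _).mpr ⟨b, rfl⟩
theorem inY_ys (b : Bool) : inY α (ys α b) := (inY_iff α _).mpr ⟨b, rfl⟩

/-- `A i k` as an element of `Qbar α` -/
def qA (b c : Bool) : Qbar α := ⟨Aw GG.x GG.y (xs α b) (ys α c), Aw_mem_Qbar (inX_xs α b) (inY_ys α c)⟩

/-- base-pointed generators of `Qbar α` -/
def qx (b : Bool) : Qbar α := (qA α b false)⁻¹ * qA α false false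
/-- base-pointed generators of `Qbar α` -/
def qy (c : Bool) : Qbar α := qA α false c

theorem qx_coe (b : Bool) : (qx α b : GG) = GG.x (xs α b) * (GG.x (xs α false))⁻¹ := by
  simp only [qx, qA, Aw, Subgroup.coe_mul, Subgroup.coe_inv]
  group

theorem qx_false : qx α false = 1 := by simp [qx]

theorem qA_eq (b c : Bool) : qy α c * (qx α b)⁻¹ = qA α b c := by
  apply Subtype.ext
  rw [Subgroup.coe_mul, Subgroup.coe_inv, qx_coe]
  simp only [qy, qA, Aw]
  group

theorem qflat : Flat (qx α) (qy α) := by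
  intro i j k l n
  rw [qA_eq, qA_eq, qA_eq, qA_eq]
  apply Subtype.ext
  exact lam_GG (xs α i) (xs α j) (ys α k) (ys α l) n

theorem qgen : Subgroup.closure (Set.range (qx α) ∪ Set.range (qy α)) = ⊤ := by
  have h : (⊤ : Subgroup (Qbar α)) = Subgroup.closure (((↑) : Qbar α → GG) ⁻¹'
      {g | ∃ i k, inX α i ∧ inY α k ∧ g = Aw GG.x GG.y i k}) :=
    (Subgroup.closure_closure_coe_preimage).symm
  rw [eq_top_iff, h, Subgroup.closure_le]
  rintro ⟨g, hg⟩ ⟨i, k, hi, hk, he⟩
  obtain ⟨b, rfl⟩ := (inX_iff α i).mp hi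
  obtain ⟨c, rfl⟩ := (inY_iff α k).mp hk
  have e : (⟨g, hg⟩ : Qbar α) = qy α c * (qx α b)⁻¹ := by
    rw [qA_eq]; exact Subtype.ext he
  rw [e]
  exact mul_mem (Subgroup.subset_closure (Or.inr ⟨c, rfl⟩))
    (inv_mem (Subgroup.subset_closure (Or.inl ⟨b, rfl⟩)))

/-- restriction of `nbX` -/
def qX : Qbar α →* FreeGroup (Fin 4) := nbX.comp (Subgroup.inclusion (Qbar_le_Nbar α))
/-- restriction of `nbY` -/
def qY : Qbar α →* FreeGroup (Fin 4) := nbY.comp (Subgroup.inclusion (Qbar_le_Nbar α))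

theorem qX_qA (b c : Bool) : qX α (qA α b c) = (FreeGroup.of (xs α b))⁻¹ :=
  nbX_Aw (xs α b) (ys α c)
theorem qY_qA (b c : Bool) : qY α (qA α b c) = FreeGroup.of (ys α c) :=
  nbY_Aw (xs α b) (ys α c)

theorem qX_qx (b : Bool) :
    qX α (qx α b) = FreeGroup.of (xs α b) * (FreeGroup.of (xs α false))⁻¹ := by
  rw [qx, map_mul, map_inv, qX_qA, qX_qA, inv_inv]
theorem qX_qy (c : Bool) : qX α (qy α c) = (FreeGroup.of (xs α false))⁻¹ := qX_qA α false c
theorem qY_qx (b : Bool) : qY α (qx α b) = 1 := by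
  rw [qx, map_mul, map_inv, qY_qA, qY_qA, inv_mul_cancel]
theorem qY_qy (c : Bool) : qY α (qy α c) = FreeGroup.of (ys α c) := qY_qA α false c

/-- flatness of a `2 × 2` family from one relation -/
theorem flat_bool {H : Type*} [Group H] {x' y' : Bool → H} (h0 : x' false = 1)
    (h : ∀ n : ℤ, (y' false) ^ n * (y' false * (x' true)⁻¹) ^ (-n) * (y' true * (x' true)⁻¹) ^ n *
      (y' true) ^ (-n) = 1) : Flat x' y' := by
  have key : ∀ n : ℤ, Lam x' y' false true n = Lam x' y' true true n := by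
    intro n
    have := h n
    unfold Lam
    rw [mul_assoc, ← eq_inv_iff_mul_eq_one] at this
    rw [this]
    simp [zpow_neg]
  have triv : ∀ (k : Bool) (n : ℤ), Lam x' y' k false n = 1 := by
    intro k n
    simp [Lam, h0]
  apply flat_of_indep
  intro k l i n
  cases i
  · rw [triv, triv]
  · cases k <;> cases l
    · rfl
    · exact key n
    · exact (key n).symm
    · rfl

/-- two homs out of `Qbar α` which agree on the `A i k` are equal -/
theorem Qbar_hom_ext {H : Type*} [Group H] {φ ψ : Qbar α →* H}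
    (h : ∀ b c, φ (qA α b c) = ψ (qA α b c)) : φ = ψ := by
  refine MonoidHom.eq_of_eqOn_dense (qgen α) ?_
  rintro _ (⟨i, rfl⟩ | ⟨k, rfl⟩)
  · rw [qx, map_mul, map_inv, map_mul, map_inv, h, h]
  · exact h _ _

/-- **Universal property of `Qbar α`.** -/
theorem Qbar_lift {H : Type*} [Group H] (a : Fin 4 → Fin 4 → H)
    (ha : a (x2 α) (y2 α) = a (x1 α) (y2 α) * (a (x1 α) (y1 α))⁻¹ * a (x2 α) (y1 α))
    (hl : ∀ n : ℤ, (a (x1 α) (y1 α)) ^ n * (a (x2 α) (y1 α)) ^ (-n) *
      (a (x2 α) (y2 α)) ^ n * (a (x1 α) (y2 α)) ^ (-n) = 1) :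
    ∃! φ : Qbar α →* H, ∀ (i k : Fin 4) (hi : inX α i) (hk : inY α k),
      φ ⟨Aw GG.x GG.y i k, Aw_mem_Qbar hi hk⟩ = a i k := by
  let x' : Bool → H := fun b => if b then (a (x2 α) (y1 α))⁻¹ * a (x1 α) (y1 α) else 1
  let y' : Bool → H := fun c => if c then a (x1 α) (y2 α) else a (x1 α) (y1 α)
  have e1 : y' false * (x' true)⁻¹ = a (x2 α) (y1 α) := by simp [x', y']
  have e2 : y' true * (x' true)⁻¹ = a (x2 α) (y2 α) := by simp [x', y', ha, mul_assoc]
  have hfl : Flat x' y' := by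
    refine flat_bool rfl fun n => ?_
    rw [e1, e2]
    exact hl n
  obtain ⟨φ, ⟨h1, h2⟩, _⟩ := flat_lift false false (xs α) (xs_inj α) (ys α) (ys_inj α) (qx_false α)
    (qflat α) (qgen α) (qX α) (qY α) (qX_qx α) (qX_qy α) (qY_qx α) (qY_qy α)
    (x' := x') (y' := y') rfl hfl
  have h3 : ∀ b c, φ (qA α b c) = a (xs α b) (ys α c) := by
    intro b c
    rw [← qA_eq, map_mul, map_inv, h1, h2]
    cases b <;> cases c
    · simp [x', y', xs, ys]
    · simp [x', y', xs, ys]
    · exact e1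
    · exact e2
  refine ⟨φ, ?_, ?_⟩
  · intro i k hi hk
    obtain ⟨b, rfl⟩ := (inX_iff α i).mp hi
    obtain ⟨c, rfl⟩ := (inY_iff α k).mp hk
    exact h3 b c
  · intro ψ hψ
    refine Qbar_hom_ext α fun b c => ?_
    rw [h3]
    exact hψ _ _ (inX_xs α b) (inY_ys α c)

end qbar

end Crest.Agent.R197
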