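import Mathlib
import Crest.Agent.R197.CW2Defs
import Crest.Agent.R197.WT
import Crest.Agent.R197.ProjSection
import Crest.Agent.R197.OutThreeDefs

-- ▼ part R197/OutThreeA
section

/-! Row 197, module F9a: the function `ψ` on the universal cover with a "zero inside one lifted 2-cell". -/

set_option autoImplicit false

open scoped unitInterval ComplexConjugate

namespace Crest.Agent.R197

/-- the coordinate of the square -/
noncomputable def zz (s : I × I) : ℂ := ⟨(s.1 : ℝ) - 1 / 2, (s.2 : ℝ) - 1 / 2⟩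

/-- a bump vanishing exactly on the boundary of the square -/
noncomputable def dd (s : I × I) : ℝ := (s.1 : ℝ) * (1 - s.1) * (s.2 * (1 - s.2))

theorem continuous_zz : Continuous zz := by
  have : zz = fun s : I × I => (((s.1 : ℝ) - 1 / 2 : ℝ) : ℂ) + (((s.2 : ℝ) - 1 / 2 : ℝ) : ℂ) * Complex.I := by
    funext s
    apply Complex.ext <;> simp [zz]
  rw [this]
  fun_prop

theorem continuous_dd : Continuous dd := by
  unfold dd
  fun_prop


theorem dd_pos {s : I × I} (hs : s ∈ Sint) : 0 < dd s := by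
  obtain ⟨⟨h1, h2⟩, h3, h4⟩ := hs
  have b1 : (0 : ℝ) < s.1 := h1
  have b2 : (s.1 : ℝ) < 1 := h2
  have b3 : (0 : ℝ) < s.2 := h3
  have b4 : (s.2 : ℝ) < 1 := h4
  have a1 : 0 < (s.1 : ℝ) * (1 - s.1) := mul_pos b1 (by linarith)
  have a2 : 0 < (s.2 : ℝ) * (1 - s.2) := mul_pos b3 (by linarith)
  exact mul_pos a1 a2

/-- a point outside the open square has a coordinate `0` or `1` -/
theorem notMem_Sint {s : I × I} (hs : s ∉ Sint) :
    ((s.1 : ℝ) = 0 ∨ (s.1 : ℝ) = 1) ∨ ((s.2 : ℝ) = 0 ∨ (s.2 : ℝ) = 1) := by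
  by_contra h
  push Not at h
  obtain ⟨⟨h1, h2⟩, h3, h4⟩ := h
  apply hs
  have b1 := s.1.2
  have b2 := s.2.2
  refine ⟨⟨?_, ?_⟩, ?_, ?_⟩
  · exact lt_of_le_of_ne b1.1 (fun e => h1 (congrArg Subtype.val e.symm))
  · exact lt_of_le_of_ne b1.2 (fun e => h2 (congrArg Subtype.val e))
  · exact lt_of_le_of_ne b2.1 (fun e => h3 (congrArg Subtype.val e.symm))
  · exact lt_of_le_of_ne b2.2 (fun e => h4 (congrArg Subtype.val e))

theorem dd_eq_zero {s : I × I} (hs : s ∉ Sint) : dd s = 0 := by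
  unfold dd
  rcases notMem_Sint hs with (h | h) | (h | h) <;> simp [h]

theorem zz_ne_zero {s : I × I} (hs : s ∉ Sint) : zz s ≠ 0 := by
  intro h0
  have hre := congrArg Complex.re h0
  have him := congrArg Complex.im h0
  simp only [zz, Complex.zero_re, Complex.zero_im] at hre him
  rcases notMem_Sint hs with (h | h) | (h | h)
  · rw [h] at hre; norm_num at hre
  · rw [h] at hre; norm_num at hre
  · rw [h] at him; norm_num at him
  · rw [h] at him; norm_num at him

/-- the square norm of the model section -/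
noncomputable def nn (s : I × I) : ℝ := Complex.normSq (zz s) + dd s ^ 2

theorem nn_pos (s : I × I) : 0 < nn s := by
  unfold nn
  by_cases hs : s ∈ Sint
  · have := dd_pos hs
    have h1 := Complex.normSq_nonneg (zz s)
    positivity
  · have h1 := Complex.normSq_pos.mpr (zz_ne_zero hs)
    have h2 := sq_nonneg (dd s)
    linarith

theorem continuous_nn : Continuous nn := by
  unfold nn
  exact (Complex.continuous_normSq.comp continuous_zz).add (continuous_dd.pow 2)

/-- the model section -/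
noncomputable def sig (s : I × I) : ℂ × ℂ := (zz s, (dd s : ℂ))

theorem continuous_sig : Continuous sig :=
  continuous_zz.prodMk (Complex.continuous_ofReal.comp continuous_dd)

/-- the coefficient functional of the model projection -/
noncomputable def cf (s : I × I) : (ℂ × ℂ) →L[ℂ] ℂ :=
  (conj (zz s) / (nn s : ℂ)) • ContinuousLinearMap.fst ℂ ℂ ℂ +
    ((dd s : ℂ) / (nn s : ℂ)) • ContinuousLinearMap.snd ℂ ℂ ℂ

theorem cf_apply (s : I × I) (v : ℂ × ℂ) :
    cf s v = conj (zz s) / (nn s : ℂ) * v.1 + (dd s : ℂ) / (nn s : ℂ) * v.2 := by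
  simp [cf]

theorem cf_sig (s : I × I) : cf s (sig s) = 1 := by
  rw [cf_apply]
  have h := (nn_pos s).ne'
  have h' : (nn s : ℂ) ≠ 0 := by exact_mod_cast h
  simp only [sig]
  rw [div_mul_eq_mul_div, div_mul_eq_mul_div, ← add_div, div_eq_one_iff_eq h', mul_comm,
    Complex.mul_conj, nn]
  push_cast
  ring

theorem continuous_cf : Continuous cf := by
  unfold cf
  have h : ∀ s, (nn s : ℂ) ≠ 0 := fun s => by exact_mod_cast (nn_pos s).ne'
  have h1 : Continuous fun s => (nn s : ℂ) := Complex.continuous_ofReal.comp continuous_nn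
  have h2 : Continuous fun s => conj (zz s) / (nn s : ℂ) :=
    (Complex.continuous_conj.comp continuous_zz).div h1 h
  have h3 : Continuous fun s => (dd s : ℂ) / (nn s : ℂ) :=
    (Complex.continuous_ofReal.comp continuous_dd).div h1 h
  exact (h2.smul continuous_const).add (h3.smul continuous_const)

/-- the model projection onto `ℂ · sig s` -/
noncomputable def Prj (s : I × I) : (ℂ × ℂ) →L[ℂ] (ℂ × ℂ) := (cf s).smulRight (sig s)

theorem Prj_apply (s : I × I) (v : ℂ × ℂ) : Prj s v = cf s v • sig s := by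
  simp [Prj]

theorem Prj_Prj (s : I × I) (v : ℂ × ℂ) : Prj s (Prj s v) = Prj s v := by
  rw [Prj_apply, Prj_apply, map_smul, cf_sig]
  simp

theorem sig_ne_zero (s : I × I) : sig s ≠ 0 := by
  intro h
  have := cf_sig s
  rw [h, map_zero] at this
  exact zero_ne_one this

theorem Prj_ne_zero (s : I × I) : Prj s ≠ 0 := by
  intro h
  have h1 : Prj s (sig s) = 0 := by rw [h]; rfl
  rw [Prj_apply, cf_sig, one_smul] at h1
  exact sig_ne_zero s h1

theorem continuous_Prj : Continuous Prj := by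
  unfold Prj
  have := (ContinuousLinearMap.smulRightL ℂ (ℂ × ℂ) (ℂ × ℂ)).continuous₂
  exact this.comp (continuous_cf.prodMk continuous_sig)

/-- the constant projection -/
noncomputable def Pinf : (ℂ × ℂ) →L[ℂ] (ℂ × ℂ) :=
  (ContinuousLinearMap.inl ℂ ℂ ℂ).comp (ContinuousLinearMap.fst ℂ ℂ ℂ)

theorem Pinf_apply (v : ℂ × ℂ) : Pinf v = (v.1, 0) := by simp [Pinf]

theorem Prj_of_notMem {s : I × I} (hs : s ∉ Sint) : Prj s = Pinf := by
  refine ContinuousLinearMap.ext fun v => ?_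
  have h0 : dd s = 0 := dd_eq_zero hs
  have h1 : nn s = Complex.normSq (zz s) := by rw [nn, h0]; ring
  have h2 : (Complex.normSq (zz s) : ℂ) ≠ 0 := by
    exact_mod_cast (Complex.normSq_pos.mpr (zz_ne_zero hs)).ne'
  rw [Prj_apply, cf_apply, Pinf_apply, h0, h1, sig, h0]
  refine Prod.ext ?_ ?_
  · simp only [Prod.smul_mk, smul_eq_mul, Complex.ofReal_zero, zero_div, zero_mul, add_zero]
    rw [div_mul_eq_mul_div, div_mul_eq_mul_div, div_eq_iff h2]
    rw [← Complex.mul_conj]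
    ring
  · simp

/-- two lifts of 2-cells which meet at an interior point are equal -/
theorem lift_meet {X E : Type} [TopologicalSpace X] [TopologicalSpace E] (C : TwoCx X) (p : E → X)
    (hp : IsCoveringMap p) {j j₀ : C.J} {u u₀ : C(I × I, E)} (hu : ∀ s, p (u s) = C.f j s)
    (hu₀ : ∀ s, p (u₀ s) = C.f j₀ s) {s s' : I × I} (hs' : s' ∈ Sint) (h : u s = u₀ s') :
    j = j₀ ∧ s = s' ∧ u = u₀ := by
  have e : C.f j s = C.f j₀ s' := by rw [← hu, ← hu₀, h]
  have hs : s ∈ Sint := by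
    by_contra hs
    rcases C.f_bd j s hs with ⟨o, ho⟩ | ⟨i, t, ht⟩
    · exact C.f_ne_v j₀ s' o hs' (e.symm.trans ho)
    · exact C.f_ne_e j₀ s' i t hs' (e.symm.trans ht)
  obtain ⟨rfl, rfl⟩ := C.f_inj j j₀ s s' hs hs' e
  refine ⟨rfl, rfl, ?_⟩
  have := hp.eq_of_comp_eq (A := I × I) u.continuous u₀.continuous
    (by funext t; exact (hu t).trans (hu₀ t).symm) s h
  exact DFunLike.coe_injective this

theorem lift_edge_ne {X E : Type} [TopologicalSpace X] [TopologicalSpace E] (C : TwoCx X)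
    (p : E → X) {i : C.E} {j₀ : C.J} {u : C(I, E)} {u₀ : C(I × I, E)}
    (hu : ∀ s, p (u s) = C.e i s)
    (hu₀ : ∀ s, p (u₀ s) = C.f j₀ s) {s : I} {s' : I × I} (hs' : s' ∈ Sint) : u₀ s' ≠ u s := by
  intro h
  have e : C.f j₀ s' = C.e i s := by rw [← hu₀, ← hu, h]
  exact C.f_ne_e j₀ s' i s hs' e

/-- points over the 1-skeleton are not in the open lifted 2-cell -/
theorem lift_X1_ne {X E : Type} [TopologicalSpace X] [TopologicalSpace E] (C : TwoCx X) (p : E → X)
    {j₀ : C.J} {u₀ : C(I × I, E)} (hu₀ : ∀ s, p (u₀ s) = C.f j₀ s) {y : E} (hy : p y ∈ C.X1)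
    {s' : I × I} (hs' : s' ∈ Sint) : u₀ s' ≠ y := by
  intro h
  have e : C.f j₀ s' = p y := by rw [← hu₀, h]
  rcases hy with ⟨o, ho⟩ | ⟨i, t, ht⟩
  · exact C.f_ne_v j₀ s' o hs' (e.trans ho)
  · exact C.f_ne_e j₀ s' i t hs' (e.trans ht)

/-- the projection field on the total space of the cover -/
noncomputable def Pfield {E : Type} (u₀ : I × I → E) (y : E) : (ℂ × ℂ) →L[ℂ] (ℂ × ℂ) :=
  open Classical in
  if h : ∃ s, s ∈ Sint ∧ u₀ s = y then Prj h.choose else Pinf

theorem Pfield_of_ne {E : Type} {u₀ : I × I → E} {y : E} (h : ∀ s ∈ Sint, u₀ s ≠ y) :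
    Pfield u₀ y = Pinf := by
  unfold Pfield
  rw [dif_neg]
  rintro ⟨s, hs, h'⟩
  exact h s hs h'

theorem Pfield_u {E : Type} {u₀ : I × I → E}
    (hinj : ∀ s s', s' ∈ Sint → u₀ s = u₀ s' → s = s') (s : I × I) : Pfield u₀ (u₀ s) = Prj s := by
  by_cases h : ∃ t, t ∈ Sint ∧ u₀ t = u₀ s
  · have h1 := h.choose_spec
    have h2 : s = h.choose := hinj s _ h1.1 h1.2.symm
    unfold Pfield
    rw [dif_pos h, ← h2]
  · rw [Pfield_of_ne (fun t ht h' => h ⟨t, ht, h'⟩)]
    refine (Prj_of_notMem fun hs => h ⟨s, hs, rfl⟩).symm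

theorem Pfield_idem {E : Type} (u₀ : I × I → E) (y : E) (v : ℂ × ℂ) :
    Pfield u₀ y (Pfield u₀ y v) = Pfield u₀ y v := by
  unfold Pfield
  split_ifs with h
  · exact Prj_Prj _ _
  · simp [Pinf_apply]

theorem Pinf_ne_zero : Pinf ≠ 0 := by
  intro h
  have h1 : Pinf (1, 0) = 0 := by rw [h]; rfl
  rw [Pinf_apply] at h1
  exact one_ne_zero (congrArg Prod.fst h1)

theorem Pfield_ne_zero {E : Type} (u₀ : I × I → E) (y : E) : Pfield u₀ y ≠ 0 := by
  unfold Pfield
  split_ifs with h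
  · exact Prj_ne_zero _
  · exact Pinf_ne_zero

/-- the section function `ψ` -/
theorem exists_psi {X E : Type} [TopologicalSpace X] [TopologicalSpace E] (C : TwoCx X) (p : E → X)
    (hp : IsCoveringMap p) [ContractibleSpace E] (j₀ : C.J) (u₀ : C(I × I, E))
    (hu₀ : ∀ s, p (u₀ s) = C.f j₀ s) :
    ∃ ψ : C(E, ℂ), (∀ y, (∀ s ∈ Sint, u₀ s ≠ y) → ψ y ≠ 0) ∧
      ∃ lam : C(I × I, ℂ), (∀ s, lam s ≠ 0) ∧ ∀ s, ψ (u₀ s) = lam s * zz s := by
  have hinj : ∀ s s', s' ∈ Sint → u₀ s = u₀ s' → s = s' := fun s s' hs' h =>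
    (lift_meet C p hp hu₀ hu₀ hs' h).2.1
  have hcont : Continuous (Pfield u₀) := by
    refine cover_continuous C p hp (Pfield u₀) ?_ ?_
    · intro i u hu
      have : Pfield u₀ ∘ u = fun _ => Pinf := by
        funext s
        exact Pfield_of_ne fun s' hs' => lift_edge_ne C p hu hu₀ hs'
      rw [this]
      exact continuous_const
    · intro j u hu
      by_cases h : ∃ s s', s' ∈ Sint ∧ u s = u₀ s'
      · obtain ⟨s, s', hs', h⟩ := h
        have e : u = u₀ := (lift_meet C p hp hu hu₀ hs' h).2.2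
        rw [e]
        have : Pfield u₀ ∘ u₀ = Prj := by
          funext t
          exact Pfield_u hinj t
        rw [this]
        exact continuous_Prj
      · have : Pfield u₀ ∘ u = fun _ => Pinf := by
          funext s
          exact Pfield_of_ne fun s' hs' e => h ⟨s, s', hs', e.symm⟩
        rw [this]
        exact continuous_const
  obtain ⟨h, h1, h2⟩ := exists_global_section (⟨Pfield u₀, hcont⟩ : C(E, (ℂ × ℂ) →L[ℂ] (ℂ × ℂ)))
    (Pfield_idem u₀) (Pfield_ne_zero u₀)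
  refine ⟨⟨fun y => (h y).1, by fun_prop⟩, ?_, ⟨fun s => cf s (h (u₀ s)), ?_⟩, ?_, ?_⟩
  · intro y hy h0
    have e : Pfield u₀ y (h y) = h y := h1 y
    rw [Pfield_of_ne hy, Pinf_apply] at e
    apply h2 y
    rw [← e]
    exact Prod.ext h0 rfl
  · exact continuous_cf.clm_apply (h.continuous.comp u₀.continuous)
  · intro s h0
    have e : Pfield u₀ (u₀ s) (h (u₀ s)) = h (u₀ s) := h1 (u₀ s)
    rw [Pfield_u hinj, Prj_apply] at e
    have h0' : cf s (h (u₀ s)) = 0 := h0
    rw [h0', zero_smul] at e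
    exact h2 _ e.symm
  · intro s
    have e : Pfield u₀ (u₀ s) (h (u₀ s)) = h (u₀ s) := h1 (u₀ s)
    rw [Pfield_u hinj, Prj_apply] at e
    have := congrArg Prod.fst e
    simpa [sig] using this.symm

end Crest.Agent.R197
end

-- ▼ part R197/OutThreeW

/-! Row 197, module F9a, second part: the winding functional. -/

set_option autoImplicit false

open scoped unitInterval

namespace Crest.Agent.R197
namespace W3

/-- continuous logarithm of a nowhere zero function on `A`, if `A` is `I` -/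
theorem exists_log_I {γ : I → ℂ} (hγ : Continuous γ) (h : ∀ s, γ s ≠ 0) : ∃ Γ : C(I, ℂ), ∀ s, Complex.exp (Γ s) = γ s := by
  obtain ⟨u, _, hu⟩ := exists_lift_I Complex.isCoveringMap_exp
    (⟨fun s => ⟨γ s, h s⟩, by fun_prop⟩ : C(I, {z : ℂ // z ≠ 0})) 0 (Complex.log (γ 0))
    (Subtype.ext (Complex.exp_log (h 0)))
  exact ⟨u, fun s => congrArg Subtype.val (hu s)⟩

theorem exists_log_II {γ : I × I → ℂ} (hγ : Continuous γ) (h : ∀ s, γ s ≠ 0) :
    ∃ Γ : C(I × I, ℂ), ∀ s, Complex.exp (Γ s) = γ s := by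
  obtain ⟨u, _, hu⟩ := exists_lift_II Complex.isCoveringMap_exp
    (⟨fun s => ⟨γ s, h s⟩, by fun_prop⟩ : C(I × I, {z : ℂ // z ≠ 0})) 0 (Complex.log (γ 0))
    (Subtype.ext (Complex.exp_log (h 0)))
  exact ⟨u, fun s => congrArg Subtype.val (hu s)⟩

/-- two continuous logarithms on a preconnected space differ by a constant -/
theorem log_diff {A : Type} [TopologicalSpace A] [PreconnectedSpace A] (Γ Γ' : C(A, ℂ))
    (h : ∀ s, Complex.exp (Γ s) = Complex.exp (Γ' s)) (s t : A) : Γ s - Γ' s = Γ t - Γ' t := by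
  let Γ'' : C(A, ℂ) := ⟨fun a => Γ' a + (Γ s - Γ' s), by fun_prop⟩
  have e1 : Complex.exp (Γ s - Γ' s) = 1 := by
    rw [Complex.exp_sub, h s, div_self (Complex.exp_ne_zero _)]
  have := lift_unique Complex.isCoveringMap_exp
    (⟨fun a => ⟨Complex.exp (Γ a), Complex.exp_ne_zero _⟩, by fun_prop⟩ : C(A, {z : ℂ // z ≠ 0}))
    Γ Γ'' (fun _ => rfl) (fun a => Subtype.ext (by
      show Complex.exp (Γ' a + (Γ s - Γ' s)) = Complex.exp (Γ a)
      rw [Complex.exp_add, e1, mul_one, h a])) s (by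
      show Γ s = Γ' s + (Γ s - Γ' s)
      ring)
  have h2 : Γ t = Γ' t + (Γ s - Γ' s) := DFunLike.congr_fun this t
  rw [h2]
  ring

/-- the logarithmic increment of a nowhere zero function on the unit interval -/
noncomputable def linc (γ : I → ℂ) : ℂ :=
  open Classical in
  if h : ∃ Γ : C(I, ℂ), ∀ s, Complex.exp (Γ s) = γ s then h.choose 1 - h.choose 0 else 0

theorem linc_eq {γ : I → ℂ} (Γ : C(I, ℂ)) (h : ∀ s, Complex.exp (Γ s) = γ s) :
    linc γ = Γ 1 - Γ 0 := by
  have hex : ∃ Γ : C(I, ℂ), ∀ s, Complex.exp (Γ s) = γ s := ⟨Γ, h⟩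
  unfold linc
  rw [dif_pos hex]
  have := log_diff hex.choose Γ (fun s => (hex.choose_spec s).trans (h s).symm) 1 0
  linear_combination this


theorem linc_mul {γ δ : I → ℂ} (hγ : Continuous γ) (h : ∀ s, γ s ≠ 0) (hδ : Continuous δ)
    (h' : ∀ s, δ s ≠ 0) : linc (fun s => γ s * δ s) = linc γ + linc δ := by
  obtain ⟨Γ, hΓ⟩ := exists_log_I hγ h
  obtain ⟨Δ, hΔ⟩ := exists_log_I hδ h'
  rw [linc_eq Γ hΓ, linc_eq Δ hΔ, linc_eq (⟨fun s => Γ s + Δ s, by fun_prop⟩ : C(I, ℂ))]
  · show Γ 1 + Δ 1 - (Γ 0 + Δ 0) = Γ 1 - Γ 0 + (Δ 1 - Δ 0)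
    ring
  · intro s
    show Complex.exp (Γ s + Δ s) = γ s * δ s
    rw [Complex.exp_add, hΓ s, hΔ s]

section
variable {Y : Type} [TopologicalSpace Y]

theorem linc_trans {g : Y → ℂ} (hg : Continuous g) {a b c : Y} (q : Path a b) (q' : Path b c)
    (h : ∀ s, g (q s) ≠ 0) (h' : ∀ s, g (q' s) ≠ 0) :
    linc (fun s => g ((q.trans q') s)) = linc (fun s => g (q s)) + linc (fun s => g (q' s)) := by
  obtain ⟨Γ, hΓ⟩ := exists_log_I (hg.comp q.continuous) h
  obtain ⟨Δ, hΔ⟩ := exists_log_I (hg.comp q'.continuous) h'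
  have e1 : Complex.exp (Γ 1 - Δ 0) = 1 := by
    rw [Complex.exp_sub, hΓ, hΔ]
    show g (q 1) / g (q' 0) = 1
    rw [q.target, q'.source, div_self]
    have := h 1
    rwa [q.target] at this
  let P : Path (Γ 0) (Γ 1) := ⟨Γ, rfl, rfl⟩
  let P' : Path (Γ 1) (Δ 1 + (Γ 1 - Δ 0)) :=
    ⟨⟨fun s => Δ s + (Γ 1 - Δ 0), by fun_prop⟩, by simp, by simp⟩
  rw [linc_eq (γ := fun s => g (q s)) Γ hΓ, linc_eq (γ := fun s => g (q' s)) Δ hΔ,
    linc_eq (P.trans P').toContinuousMap]
  · show (P.trans P') 1 - (P.trans P') 0 = _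
    rw [Path.target, Path.source]
    ring
  · intro s
    show Complex.exp ((P.trans P') s) = g ((q.trans q') s)
    rw [Path.trans_apply, Path.trans_apply]
    split_ifs with hs
    · exact hΓ _
    · show Complex.exp (Δ _ + (Γ 1 - Δ 0)) = _
      rw [Complex.exp_add, e1, mul_one]
      exact hΔ _

theorem trans_ne {g : Y → ℂ} {a b c : Y} (q : Path a b) (q' : Path b c)
    (h : ∀ s, g (q s) ≠ 0) (h' : ∀ s, g (q' s) ≠ 0) (s : I) : g ((q.trans q') s) ≠ 0 := by
  rw [Path.trans_apply]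
  split_ifs
  · exact h _
  · exact h' _

theorem linc_square {g : Y → ℂ} (hg : Continuous g) (β : C(I × I, Y)) (h : ∀ s, g (β s) ≠ 0)
    (q : C(I, I × I)) (hq : q 0 = q 1) : linc (fun s => g (β (q s))) = 0 := by
  obtain ⟨Γ, hΓ⟩ := exists_log_II (hg.comp β.continuous) h
  rw [linc_eq (γ := fun s => g (β (q s))) (Γ.comp q) (fun s => hΓ (q s))]
  show Γ (q 1) - Γ (q 0) = 0
  rw [hq, sub_self]

theorem linc_homotopic {g : Y → ℂ} (hg : Continuous g) (hne : ∀ y, g y ≠ 0) {a b : Y}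
    (q q' : Path a b) (h : q.Homotopic q') :
    linc (fun s => g (q s)) = linc (fun s => g (q' s)) := by
  obtain ⟨F⟩ := h
  obtain ⟨Γ, hΓ⟩ := exists_log_II (hg.comp F.continuous) (fun s => hne _)
  have e0 := linc_eq (γ := fun s => g (q s)) (⟨fun s => Γ (0, s), by fun_prop⟩ : C(I, ℂ)) (fun s => by
    have := hΓ (0, s)
    simpa using this)
  have e1 := linc_eq (γ := fun s => g (q' s)) (⟨fun s => Γ (1, s), by fun_prop⟩ : C(I, ℂ)) (fun s => by
    have := hΓ (1, s)
    simpa using this)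
  have := contractibleSpace_I
  have c0 := log_diff (⟨fun t => Γ (t, 0), by fun_prop⟩ : C(I, ℂ)) (⟨fun _ => Γ (0, 0), by fun_prop⟩ : C(I, ℂ))
    (fun t => by
      show Complex.exp (Γ (t, 0)) = Complex.exp (Γ (0, 0))
      rw [hΓ, hΓ]
      show g (F (t, 0)) = g (F (0, 0))
      simp) 0 1
  have c1 := log_diff (⟨fun t => Γ (t, 1), by fun_prop⟩ : C(I, ℂ)) (⟨fun _ => Γ (0, 1), by fun_prop⟩ : C(I, ℂ))
    (fun t => by
      show Complex.exp (Γ (t, 1)) = Complex.exp (Γ (0, 1))
      rw [hΓ, hΓ]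
      show g (F (t, 1)) = g (F (0, 1))
      simp) 0 1
  rw [e0, e1]
  have c0' : Γ (0, 0) - Γ (0, 0) = Γ (1, 0) - Γ (0, 0) := c0
  have c1' : Γ (0, 1) - Γ (0, 1) = Γ (1, 1) - Γ (0, 1) := c1
  show Γ (0, 1) - Γ (0, 0) = Γ (1, 1) - Γ (1, 0)
  linear_combination c1' - c0'

end

/-- the increment along a side -/
theorem linc_side (γ : I → ℂ) (c : ℂ) (hc : c ≠ 0)
    (h : ∀ s : I, γ s = c * ((1 - (s : ℝ) : ℝ) + (s : ℝ) * Complex.I)) :
    linc γ = Real.pi / 2 * Complex.I := by
  have hsl : ∀ s : I, (((1 - (s : ℝ) : ℝ) : ℂ) + ((s : ℝ) : ℂ) * Complex.I) ∈ Complex.slitPlane := by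
    intro s
    rw [Complex.mem_slitPlane_iff]
    by_cases hs : (s : ℝ) = 0
    · left
      simp [hs]
    · right
      simpa using hs
  have hcont : Continuous fun s : I =>
      Complex.log (((1 - (s : ℝ) : ℝ) : ℂ) + ((s : ℝ) : ℂ) * Complex.I) :=
    Continuous.clog (by fun_prop) hsl
  rw [linc_eq (⟨fun s : I => Complex.log c +
    Complex.log (((1 - (s : ℝ) : ℝ) : ℂ) + ((s : ℝ) : ℂ) * Complex.I),
    continuous_const.add hcont⟩ : C(I, ℂ))]
  · show Complex.log c + Complex.log (((1 - ((1 : I) : ℝ) : ℝ) : ℂ) + (((1 : I) : ℝ) : ℂ) * Complex.I) -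
      (Complex.log c + Complex.log (((1 - ((0 : I) : ℝ) : ℝ) : ℂ) + (((0 : I) : ℝ) : ℂ) * Complex.I)) = _
    simp [Complex.log_I]
  · intro s
    show Complex.exp (Complex.log c + _) = _
    rw [Complex.exp_add, Complex.exp_log hc, Complex.exp_log (Complex.slitPlane_ne_zero (hsl s)), h]

theorem linc_zz_bdSq : linc (fun s => zz (TwoCx.bdSq s)) = 2 * Real.pi * Complex.I := by
  have hc := continuous_zz
  have n1 : ∀ s : I, zz (s, 0) ≠ 0 := fun s => zz_ne_zero (by simp [Sint, Iint])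
  have n2 : ∀ s : I, zz (1, s) ≠ 0 := fun s => zz_ne_zero (by simp [Sint, Iint])
  have n3 : ∀ s : I, zz (unitInterval.symm s, 1) ≠ 0 := fun s => zz_ne_zero (by simp [Sint, Iint])
  have n4 : ∀ s : I, zz (0, unitInterval.symm s) ≠ 0 := fun s => zz_ne_zero (by simp [Sint, Iint])
  rw [TwoCx.bdSq, linc_trans hc, linc_trans hc, linc_trans hc]
  · have i1 : linc (fun s : I => zz (s, 0)) = Real.pi / 2 * Complex.I := by
      refine linc_side _ (zz (0, 0)) (n1 0) fun s => ?_
      apply Complex.ext <;> simp [zz] <;> ring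
    have i2 : linc (fun s : I => zz (1, s)) = Real.pi / 2 * Complex.I := by
      refine linc_side _ (zz (1, 0)) (n1 1) fun s => ?_
      apply Complex.ext <;> simp [zz] <;> ring
    have i3 : linc (fun s : I => zz (unitInterval.symm s, 1)) = Real.pi / 2 * Complex.I := by
      refine linc_side _ (zz (1, 1)) (n2 1) fun s => ?_
      apply Complex.ext <;> simp [zz] <;> ring
    have i4 : linc (fun s : I => zz (0, unitInterval.symm s)) = Real.pi / 2 * Complex.I := by
      refine linc_side _ (zz (0, 1)) (by simpa using n3 1) fun s => ?_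
      apply Complex.ext <;> simp [zz] <;> ring
    show linc (fun s : I => zz (s, 0)) + linc (fun s : I => zz (1, s)) +
      linc (fun s : I => zz (unitInterval.symm s, 1)) +
      linc (fun s : I => zz (0, unitInterval.symm s)) = _
    rw [i1, i2, i3, i4]
    ring
  · exact n1
  · exact n2
  · exact trans_ne _ _ n1 n2
  · exact n3
  · exact trans_ne _ _ (trans_ne _ _ n1 n2) n3
  · exact n4

end W3

open W3 in
/-- **F9a**: the winding functional of a lifted 2-cell. -/
theorem exists_winding {X E : Type} [TopologicalSpace X] [TopologicalSpace E] (C : TwoCx X)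
    (p : E → X) (hp : IsCoveringMap p) [ContractibleSpace E] (j₀ : C.J) (u₀ : C(I × I, E))
    (hu₀ : ∀ s, p (u₀ s) = C.f j₀ s) (N : Set E) : Nonempty (C.Winding p N u₀) := by
  obtain ⟨ψ, hψ, lam, hlam, hψu⟩ := exists_psi C p hp j₀ u₀ hu₀
  have hM : ∀ y : C.MM p N, ψ y.1 ≠ 0 := fun y =>
    hψ y.1 fun s hs => lift_X1_ne C p hu₀ y.2.2 hs
  let g : C.MM p N → ℂ := fun y => ψ y.1
  have hg : Continuous g := ψ.continuous.comp continuous_subtype_val
  have hpi : (2 * Real.pi * Complex.I : ℂ) ≠ 0 := Complex.two_pi_I_ne_zero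
  refine ⟨{ Λ := fun q => linc (fun s => g (q s)) / (2 * Real.pi * Complex.I)
            trans := ?_, homotopic := ?_, bd := ?_ }⟩
  · intro a b c q q'
    rw [linc_trans hg q q' (fun s => hM _) (fun s => hM _), add_div]
  · intro a b q q' h
    rw [linc_homotopic hg hM q q' h]
  · intro j u hu _ a b q hq
    have e : (fun s => g (q s)) = fun s => ψ (u (TwoCx.bdSq s)) := by
      funext s
      exact congrArg ψ (hq s)
    rw [e]
    have hbd : TwoCx.bdSq.toContinuousMap 0 = TwoCx.bdSq.toContinuousMap 1 := by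
      show TwoCx.bdSq 0 = TwoCx.bdSq 1
      rw [Path.source, Path.target]
    constructor
    · rintro rfl
      have e2 : (fun s => ψ (u (TwoCx.bdSq s))) =
          fun s => lam (TwoCx.bdSq s) * zz (TwoCx.bdSq s) := by
        funext s
        exact hψu _
      rw [e2, linc_mul (γ := fun s => lam (TwoCx.bdSq s)) (δ := fun s => zz (TwoCx.bdSq s))
        (lam.continuous.comp TwoCx.bdSq.continuous) (fun s => hlam _)
        (continuous_zz.comp TwoCx.bdSq.continuous)
        (fun s => zz_ne_zero (TwoCx.bdSq_notMem s)), linc_zz_bdSq]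
      have := linc_square (g := id) continuous_id lam hlam TwoCx.bdSq.toContinuousMap hbd
      have h0 : linc (fun s => lam (TwoCx.bdSq s)) = 0 := this
      rw [h0, zero_add, div_self hpi]
    · intro hne
      have h0 : linc (fun s => ψ (u (TwoCx.bdSq s))) = 0 := by
        refine linc_square ψ.continuous u (fun s => ?_) TwoCx.bdSq.toContinuousMap hbd
        refine hψ _ fun s' hs' h => hne ?_
        exact (lift_meet C p hp hu hu₀ hs' h.symm).2.2
      rw [h0, zero_div]

end Crest.Agent.R197
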