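import Mathlib
import Crest.Agent.R197.CW2Defs
import Crest.Agent.R197.EdgePath
import Crest.Agent.R197.WT

-- ▼ part R197/CW2Of
section

/-!
# Row 197, F0: a T2 CW complex of dimension at most two gives a `TwoCx` (helper430)
-/

set_option autoImplicit false

open Set Metric Topology
open scoped unitInterval

namespace Crest.Agent.R197

namespace CW2

/-- affine parametrisation of the 1-dimensional cube -/
noncomputable def a1 (s : I) : Fin 1 → ℝ := fun _ => 2 * (s : ℝ) - 1

/-- affine parametrisation of the 2-dimensional cube -/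
noncomputable def a2 (s : I × I) : Fin 2 → ℝ := ![2 * (s.1 : ℝ) - 1, 2 * (s.2 : ℝ) - 1]

theorem continuous_a1 : Continuous a1 := by
  unfold a1; fun_prop

theorem continuous_a2 : Continuous a2 := by
  unfold a2
  refine continuous_pi fun i => ?_
  fin_cases i
  · show Continuous fun s : I × I => 2 * (s.1 : ℝ) - 1
    fun_prop
  · show Continuous fun s : I × I => 2 * (s.2 : ℝ) - 1
    fun_prop

theorem a1_mem_closedBall (s : I) : a1 s ∈ closedBall (0 : Fin 1 → ℝ) 1 := by
  rw [mem_closedBall_zero_iff, pi_norm_le_iff_of_nonneg zero_le_one]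
  intro i
  rw [a1, Real.norm_eq_abs, abs_le]
  have h0 := s.2.1
  have h1 := s.2.2
  constructor <;> linarith

theorem a2_mem_closedBall (s : I × I) : a2 s ∈ closedBall (0 : Fin 2 → ℝ) 1 := by
  rw [mem_closedBall_zero_iff, pi_norm_le_iff_of_nonneg zero_le_one]
  intro i
  have h0 := s.1.2.1
  have h1 := s.1.2.2
  have h2 := s.2.2.1
  have h3 := s.2.2.2
  fin_cases i
  · show ‖2 * (s.1 : ℝ) - 1‖ ≤ 1
    rw [Real.norm_eq_abs, abs_le]
    constructor <;> linarith
  · show ‖2 * (s.2 : ℝ) - 1‖ ≤ 1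
    rw [Real.norm_eq_abs, abs_le]
    constructor <;> linarith

theorem mem_Iint {s : I} : s ∈ Iint ↔ 0 < (s : ℝ) ∧ (s : ℝ) < 1 := by
  unfold Iint
  rw [mem_Ioo, ← unitInterval.coe_pos, ← unitInterval.coe_lt_one]

theorem a1_mem_ball (s : I) : a1 s ∈ ball (0 : Fin 1 → ℝ) 1 ↔ s ∈ Iint := by
  rw [mem_ball_zero_iff, pi_norm_lt_iff zero_lt_one, mem_Iint]
  constructor
  · intro h
    have := h 0
    rw [a1, Real.norm_eq_abs, abs_lt] at this
    constructor <;> linarith [this.1, this.2]
  · rintro ⟨h1, h2⟩ i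
    rw [a1, Real.norm_eq_abs, abs_lt]
    constructor <;> linarith

theorem a2_mem_ball (s : I × I) : a2 s ∈ ball (0 : Fin 2 → ℝ) 1 ↔ s ∈ Sint := by
  rw [mem_ball_zero_iff, pi_norm_lt_iff zero_lt_one, Sint, mem_prod, mem_Iint, mem_Iint]
  constructor
  · intro h
    have h0 : ‖2 * (s.1 : ℝ) - 1‖ < 1 := h 0
    have h1 : ‖2 * (s.2 : ℝ) - 1‖ < 1 := h 1
    rw [Real.norm_eq_abs, abs_lt] at h0 h1
    refine ⟨⟨?_, ?_⟩, ⟨?_, ?_⟩⟩ <;> linarith [h0.1, h0.2, h1.1, h1.2]
  · rintro ⟨⟨h1, h2⟩, ⟨h3, h4⟩⟩ i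
    fin_cases i
    · show ‖2 * (s.1 : ℝ) - 1‖ < 1
      rw [Real.norm_eq_abs, abs_lt]
      constructor <;> linarith
    · show ‖2 * (s.2 : ℝ) - 1‖ < 1
      rw [Real.norm_eq_abs, abs_lt]
      constructor <;> linarith

theorem a1_injective : Function.Injective a1 := by
  intro s s' h
  have := congrFun h 0
  unfold a1 at this
  exact Subtype.ext (by linarith)

theorem a2_injective : Function.Injective a2 := by
  intro s s' h
  have h0 : 2 * (s.1 : ℝ) - 1 = 2 * (s'.1 : ℝ) - 1 := congrFun h 0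
  have h1 : 2 * (s.2 : ℝ) - 1 = 2 * (s'.2 : ℝ) - 1 := congrFun h 1
  exact Prod.ext (Subtype.ext (by linarith)) (Subtype.ext (by linarith))

theorem a1_surj {x : Fin 1 → ℝ} (hx : x ∈ closedBall (0 : Fin 1 → ℝ) 1) : ∃ s, a1 s = x := by
  rw [mem_closedBall_zero_iff, pi_norm_le_iff_of_nonneg zero_le_one] at hx
  have h := hx 0
  rw [Real.norm_eq_abs, abs_le] at h
  refine ⟨⟨(x 0 + 1) / 2, by linarith [h.1], by linarith [h.2]⟩, ?_⟩
  funext i
  have : i = 0 := Subsingleton.elim _ _
  subst this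
  show 2 * ((x 0 + 1) / 2) - 1 = x 0
  ring

theorem a2_surj {x : Fin 2 → ℝ} (hx : x ∈ closedBall (0 : Fin 2 → ℝ) 1) : ∃ s, a2 s = x := by
  rw [mem_closedBall_zero_iff, pi_norm_le_iff_of_nonneg zero_le_one] at hx
  have h := hx 0
  have h' := hx 1
  rw [Real.norm_eq_abs, abs_le] at h h'
  refine ⟨(⟨(x 0 + 1) / 2, by linarith [h.1], by linarith [h.2]⟩,
    ⟨(x 1 + 1) / 2, by linarith [h'.1], by linarith [h'.2]⟩), ?_⟩
  funext i
  fin_cases i
  · show 2 * ((x 0 + 1) / 2) - 1 = x 0
    ring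
  · show 2 * ((x 1 + 1) / 2) - 1 = x 1
    ring

end CW2

open CW2 CWComplex

section

variable {X : Type} [TopologicalSpace X] [T2Space X] [CWComplex (univ : Set X)]

/-- vertices -/
noncomputable def cv (o : cell (univ : Set X) 0) : X := map 0 o ![]

/-- edges -/
noncomputable def ce (i : cell (univ : Set X) 1) : C(I, X) :=
  ⟨fun s => map 1 i (a1 s), (continuousOn 1 i).comp_continuous continuous_a1 a1_mem_closedBall⟩

/-- 2-cells -/
noncomputable def cellf (j : cell (univ : Set X) 2) : C(I × I, X) :=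
  ⟨fun s => map 2 j (a2 s), (continuousOn 2 j).comp_continuous continuous_a2 a2_mem_closedBall⟩

omit [T2Space X] in
theorem cv_mem (o : cell (univ : Set X) 0) : cv o ∈ openCell 0 o := by
  rw [CWComplex.openCell_zero_eq_singleton]; rfl

omit [T2Space X] in
theorem ce_mem {i : cell (univ : Set X) 1} {s : I} (hs : s ∈ Iint) : ce i s ∈ openCell 1 i :=
  mem_image_of_mem _ ((a1_mem_ball s).2 hs)

omit [T2Space X] in
theorem cellf_mem {j : cell (univ : Set X) 2} {s : I × I} (hs : s ∈ Sint) : cellf j s ∈ openCell 2 j :=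
  mem_image_of_mem _ ((a2_mem_ball s).2 hs)

omit [T2Space X] in
theorem ce_mem_frontier {i : cell (univ : Set X) 1} {s : I} (hs : s ∉ Iint) :
    ce i s ∈ cellFrontier 1 i := by
  refine mem_image_of_mem _ ?_
  rw [mem_sphere]
  exact le_antisymm (mem_closedBall.1 (a1_mem_closedBall s))
    (not_lt.1 fun h => hs ((a1_mem_ball s).1 h))

omit [T2Space X] in
theorem cf_mem_frontier {j : cell (univ : Set X) 2} {s : I × I} (hs : s ∉ Sint) :
    cellf j s ∈ cellFrontier 2 j := by
  refine mem_image_of_mem _ ?_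
  rw [mem_sphere]
  exact le_antisymm (mem_closedBall.1 (a2_mem_closedBall s))
    (not_lt.1 fun h => hs ((a2_mem_ball s).1 h))

omit [T2Space X] in
theorem closedCell_one (i : cell (univ : Set X) 1) : closedCell 1 i = range (ce i) := by
  ext x
  constructor
  · rintro ⟨y, hy, rfl⟩
    obtain ⟨s, rfl⟩ := a1_surj hy
    exact ⟨s, rfl⟩
  · rintro ⟨s, rfl⟩
    exact mem_image_of_mem _ (a1_mem_closedBall s)

omit [T2Space X] in
theorem closedCell_two (j : cell (univ : Set X) 2) : closedCell 2 j = range (cellf j) := by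
  ext x
  constructor
  · rintro ⟨y, hy, rfl⟩
    obtain ⟨s, rfl⟩ := a2_surj hy
    exact ⟨s, rfl⟩
  · rintro ⟨s, rfl⟩
    exact mem_image_of_mem _ (a2_mem_closedBall s)

omit [T2Space X] in
theorem closedCell_zero (o : cell (univ : Set X) 0) : closedCell 0 o = {cv o} :=
  CWComplex.closedCell_zero_eq_singleton

omit [T2Space X] in
theorem eq_of_mem_openCell {n m : ℕ} {i : cell (univ : Set X) n} {j : cell (univ : Set X) m} {x : X}
    (h : x ∈ openCell n i) (h' : x ∈ openCell m j) :
    (⟨n, i⟩ : Σ n, cell (univ : Set X) n) = ⟨m, j⟩ :=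
  CWComplex.eq_of_not_disjoint_openCell (not_disjoint_iff.2 ⟨x, h, h'⟩)

omit [T2Space X] in
theorem exists_end {i : cell (univ : Set X) 1} {s : I} (hs : s ∉ Iint) : ∃ o, ce i s = cv o := by
  obtain ⟨F, hF⟩ := CWComplex.cellFrontier_subset_finite_closedCell 1 i
  have h := hF (ce_mem_frontier hs)
  simp only [mem_iUnion] at h
  obtain ⟨m, hm, o, _, ho⟩ := h
  obtain rfl : m = 0 := by omega
  rw [closedCell_zero] at ho
  exact ⟨o, ho⟩

omit [T2Space X] in
theorem exists_bd {j : cell (univ : Set X) 2} {s : I × I} (hs : s ∉ Sint) :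
    (∃ o, cellf j s = cv o) ∨ ∃ i s', cellf j s = ce i s' := by
  obtain ⟨F, hF⟩ := CWComplex.cellFrontier_subset_finite_closedCell 2 j
  have h := hF (cf_mem_frontier hs)
  simp only [mem_iUnion] at h
  obtain ⟨m, hm, o, _, ho⟩ := h
  obtain rfl | rfl : m = 0 ∨ m = 1 := by omega
  · rw [closedCell_zero] at ho
    exact Or.inl ⟨o, ho⟩
  · rw [closedCell_one] at ho
    obtain ⟨s', hs'⟩ := ho
    exact Or.inr ⟨o, s', hs'.symm⟩

theorem isClosed_inter_zero (A : Set X) (o : cell (univ : Set X) 0) :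
    IsClosed (A ∩ closedCell 0 o) := by
  rw [closedCell_zero]
  exact ((finite_singleton (cv o)).subset inter_subset_right).isClosed

theorem isClosed_inter_one (A : Set X) (i : cell (univ : Set X) 1) (h : IsClosed (ce i ⁻¹' A)) :
    IsClosed (A ∩ closedCell 1 i) := by
  rw [closedCell_one, ← image_preimage_eq_inter_range]
  exact (h.isCompact.image (ce i).continuous).isClosed

theorem isClosed_inter_two (A : Set X) (j : cell (univ : Set X) 2) (h : IsClosed (cellf j ⁻¹' A)) :
    IsClosed (A ∩ closedCell 2 j) := by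
  rw [closedCell_two, ← image_preimage_eq_inter_range]
  exact (h.isCompact.image (cellf j).continuous).isClosed

end

/-- **F0.** -/
theorem exists_twoCx (X : Type) [TopologicalSpace X] [T2Space X]
    [Topology.CWComplex (Set.univ : Set X)]
    (h : ∀ n, 2 < n → IsEmpty (Topology.RelCWComplex.cell (Set.univ : Set X) n)) :
    Nonempty (TwoCx X) := by
  have h0 : (0 : I) ∉ Iint := fun h => lt_irrefl _ h.1
  have h1 : (1 : I) ∉ Iint := fun h => lt_irrefl _ h.2
  choose src hsrc using fun i : cell (univ : Set X) 1 => exists_end (i := i) h0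
  choose tgt htgt using fun i : cell (univ : Set X) 1 => exists_end (i := i) h1
  have hends : ∀ (i : cell (univ : Set X) 1) (s : I), s ∉ Iint → ∃ o, ce i s = cv o :=
    fun i s hs => exists_end hs
  refine ⟨{
    O := cell (univ : Set X) 0
    E := cell (univ : Set X) 1
    J := cell (univ : Set X) 2
    v := cv
    e := ce
    f := cellf
    src := src
    tgt := tgt
    e_zero := hsrc
    e_one := htgt
    v_inj := CWComplex.injective_map_zero (univ : Set X)
    e_inj := ?_
    e_ne_v := ?_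
    f_inj := ?_
    f_ne_v := ?_
    f_ne_e := ?_
    f_bd := fun j s hs => exists_bd hs
    cover := ?_
    closed2 := ?_
    closed1 := ?_ }⟩
  · intro i i' s s' hs hs' he
    have h2 := eq_of_mem_openCell (ce_mem (i := i) hs) (he ▸ ce_mem (i := i') hs')
    simp only [Sigma.mk.injEq, heq_eq_eq, true_and] at h2
    subst h2
    refine ⟨rfl, a1_injective ?_⟩
    refine (map 1 i).injOn ?_ ?_ he
    · rw [source_eq]; exact (a1_mem_ball s).2 hs
    · rw [source_eq]; exact (a1_mem_ball s').2 hs'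
  · intro i s o hs he
    have h2 := eq_of_mem_openCell (ce_mem (i := i) hs) (he ▸ cv_mem o)
    simp at h2
  · intro j j' s s' hs hs' he
    have h2 := eq_of_mem_openCell (cellf_mem (j := j) hs) (he ▸ cellf_mem (j := j') hs')
    simp only [Sigma.mk.injEq, heq_eq_eq, true_and] at h2
    subst h2
    refine ⟨rfl, a2_injective ?_⟩
    refine (map 2 j).injOn ?_ ?_ he
    · rw [source_eq]; exact (a2_mem_ball s).2 hs
    · rw [source_eq]; exact (a2_mem_ball s').2 hs'
  · intro j s o hs he
    have h2 := eq_of_mem_openCell (cellf_mem (j := j) hs) (he ▸ cv_mem o)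
    simp at h2
  · intro j s i s' hs he
    by_cases hs' : s' ∈ Iint
    · have h2 := eq_of_mem_openCell (cellf_mem (j := j) hs) (he ▸ ce_mem (i := i) hs')
      simp at h2
    · obtain ⟨o, ho⟩ := hends i s' hs'
      rw [ho] at he
      have h2 := eq_of_mem_openCell (cellf_mem (j := j) hs) (he ▸ cv_mem o)
      simp at h2
  · intro x
    have hx : x ∈ ⋃ (n : ℕ) (j : cell (univ : Set X) n), openCell n j := by
      rw [CWComplex.iUnion_openCell_eq_complex]; exact mem_univ x
    simp only [mem_iUnion] at hx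
    obtain ⟨n, c, hc⟩ := hx
    rcases Nat.lt_or_ge 2 n with hn | hn
    · exact ((h n hn).false c).elim
    obtain rfl | rfl | rfl : n = 0 ∨ n = 1 ∨ n = 2 := by omega
    · rw [CWComplex.openCell_zero_eq_singleton] at hc
      exact Or.inl ⟨c, hc⟩
    · obtain ⟨y, hy, rfl⟩ := hc
      obtain ⟨s, rfl⟩ := a1_surj (ball_subset_closedBall hy)
      exact Or.inr (Or.inl ⟨c, s, (a1_mem_ball s).1 hy, rfl⟩)
    · obtain ⟨y, hy, rfl⟩ := hc
      obtain ⟨s, rfl⟩ := a2_surj (ball_subset_closedBall hy)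
      exact Or.inr (Or.inr ⟨c, s, (a2_mem_ball s).1 hy, rfl⟩)
  · intro A hA1 hA2
    rw [CWComplex.closed (univ : Set X) A (subset_univ _)]
    intro n c
    rcases Nat.lt_or_ge 2 n with hn | hn
    · exact ((h n hn).false c).elim
    obtain rfl | rfl | rfl : n = 0 ∨ n = 1 ∨ n = 2 := by omega
    · exact isClosed_inter_zero A c
    · exact isClosed_inter_one A c (hA1 c)
    · exact isClosed_inter_two A c (hA2 c)
  · intro A hA hA1
    rw [CWComplex.closed (univ : Set X) A (subset_univ _)]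
    intro n c
    rcases Nat.lt_or_ge 2 n with hn | hn
    · exact ((h n hn).false c).elim
    obtain rfl | rfl | rfl : n = 0 ∨ n = 1 ∨ n = 2 := by omega
    · exact isClosed_inter_zero A c
    · exact isClosed_inter_one A c (hA1 c)
    · obtain ⟨F, hF⟩ := CWComplex.cellFrontier_subset_finite_closedCell 2 c
      have hdisj : ∀ x ∈ A, x ∉ openCell 2 c := by
        intro x hx hx'
        rcases hA x hx with ⟨o, rfl⟩ | ⟨i, s, rfl⟩
        · have h2 := eq_of_mem_openCell hx' (cv_mem o)
          simp at h2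
        · by_cases hs : s ∈ Iint
          · have h2 := eq_of_mem_openCell hx' (ce_mem (i := i) hs)
            simp at h2
          · obtain ⟨o, ho⟩ := hends i s hs
            rw [ho] at hx'
            have h2 := eq_of_mem_openCell hx' (cv_mem o)
            simp at h2
      have : A ∩ closedCell 2 c = ⋃ (m : Fin 2), ⋃ (j ∈ F m),
          (A ∩ closedCell (m : ℕ) j) ∩ cellFrontier 2 c := by
        ext x
        simp only [mem_iUnion, mem_inter_iff]
        constructor
        · rintro ⟨hx, hx'⟩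
          rw [← CWComplex.cellFrontier_union_openCell_eq_closedCell] at hx'
          rcases hx' with hx' | hx'
          · have h2 := hF hx'
            simp only [mem_iUnion] at h2
            obtain ⟨m, hm, j, hj, hj'⟩ := h2
            exact ⟨⟨m, hm⟩, j, hj, ⟨hx, hj'⟩, hx'⟩
          · exact absurd hx' (hdisj x hx)
        · rintro ⟨m, j, hj, ⟨hx, _⟩, hx'⟩
          exact ⟨hx, CWComplex.cellFrontier_subset_closedCell 2 c hx'⟩
      rw [this]
      refine isClosed_iUnion_of_finite fun m => ?_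
      refine (F m).finite_toSet.isClosed_biUnion fun j _ => ?_
      refine IsClosed.inter ?_ CWComplex.isClosed_cellFrontier
      obtain ⟨m, hm⟩ := m
      obtain rfl | rfl : m = 0 ∨ m = 1 := by omega
      · exact isClosed_inter_zero A j
      · exact isClosed_inter_one A j (hA1 j)

end Crest.Agent.R197
end

-- ▼ part R197/RelData
section

/-! Row 197, F3: edge words for the attaching loops. -/

set_option autoImplicit false

open scoped unitInterval

namespace Crest.Agent.R197

namespace RelDataAux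

variable {X : Type} [TopologicalSpace X] (C : TwoCx X)

/-- every point of the 1-skeleton is joined to a vertex -/
theorem exists_path (x : C.X1) : ∃ o : C.O, Nonempty (Path (C.v1 o) x) := by
  obtain ⟨x, hx⟩ := x
  rcases hx with ⟨o, rfl⟩ | ⟨i, s, rfl⟩
  · exact ⟨o, ⟨Path.refl _⟩⟩
  · have : ContractibleSpace I := (convex_Icc (0 : ℝ) 1).contractibleSpace ⟨0, by simp⟩
    let q : Path (0 : I) s := PathConnectedSpace.somePath 0 s
    refine ⟨C.src i, ⟨?_⟩⟩
    exact
      { toFun := fun t => ⟨C.e i (q t), Or.inr ⟨i, _, rfl⟩⟩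
        continuous_toFun := Continuous.subtype_mk ((C.e i).continuous.comp q.continuous) _
        source' := Subtype.ext (by
          show C.e i (q 0) = C.v (C.src i)
          rw [q.source, C.e_zero])
        target' := Subtype.ext (by
          show C.e i (q 1) = C.e i s
          rw [q.target]) }

theorem exists_relData_of (hrep : ∀ (o o' : C.O) (γ : Path.Homotopic.Quotient (C.v1 o) (C.v1 o')),
      ∃ w, C.Rep o o' w γ) : Nonempty C.RelData := by
  have h : ∀ j : C.J, ∃ (o : C.O) (τ : Path (C.v1 o) (C.c1 j)) (w : C.Wd),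
      C.Rep o o w (Path.Homotopic.Quotient.mk ((τ.trans (C.bd1 j)).trans τ.symm)) := by
    intro j
    obtain ⟨o, ⟨τ⟩⟩ := exists_path C (C.c1 j)
    obtain ⟨w, hw⟩ := hrep o o (Path.Homotopic.Quotient.mk ((τ.trans (C.bd1 j)).trans τ.symm))
    exact ⟨o, τ, w, hw⟩
  choose bo τ w hw using h
  exact ⟨⟨bo, w, τ, hw⟩⟩

end RelDataAux

/-- F3: edge words for the attaching loops exist. -/
theorem exists_relData {X : Type} [TopologicalSpace X] (C : TwoCx X) : Nonempty C.RelData :=
  RelDataAux.exists_relData_of C (fun o o' γ => C.exists_rep o o' γ)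

end Crest.Agent.R197
end

-- ▼ part R197/FClass
section

/-! Row 197, task F5: a classifying space of a discrete group (as a set of functions on `[0,1)` with
the distance "outer measure of the set where they differ", modulo the group), and the extension of
null-homotopic boundary loops of the square. -/

set_option autoImplicit false

open scoped unitInterval
open MeasureTheory Topology

namespace Crest.Agent.R197

/-! ### extension over the square -/

namespace SqExt

/-- coordinates of the boundary curve -/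
theorem bdSq_apply (s : I) : ((TwoCx.bdSq s).1 : ℝ) =
      (if (s : ℝ) ≤ 1 / 8 then 8 * (s : ℝ) else if (s : ℝ) ≤ 1 / 4 then 1 else
        if (s : ℝ) ≤ 1 / 2 then 2 - 4 * (s : ℝ) else 0) ∧
    ((TwoCx.bdSq s).2 : ℝ) =
      (if (s : ℝ) ≤ 1 / 8 then 0 else if (s : ℝ) ≤ 1 / 4 then 8 * (s : ℝ) - 1 else
        if (s : ℝ) ≤ 1 / 2 then 1 else 2 - 2 * (s : ℝ)) := by
  have h0 : 0 ≤ (s : ℝ) := s.2.1
  have h1 : (s : ℝ) ≤ 1 := s.2.2
  rw [TwoCx.bdSq]
  simp only [Path.trans_apply]
  constructor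
  · split_ifs <;> first
      | (exfalso; linarith)
      | (simp only [Path.coe_mk_mk, unitInterval.coe_symm_eq]; simp; done)
      | (simp only [Path.coe_mk_mk, unitInterval.coe_symm_eq]; linarith)
  · split_ifs <;> first
      | (exfalso; linarith)
      | (simp only [Path.coe_mk_mk, unitInterval.coe_symm_eq]; simp; done)
      | (simp only [Path.coe_mk_mk, unitInterval.coe_symm_eq]; linarith)

theorem bdSq_inj {s s' : I} (h : TwoCx.bdSq s = TwoCx.bdSq s') :
    s = s' ∨ ((s = 0 ∨ s = 1) ∧ (s' = 0 ∨ s' = 1)) := by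
  obtain ⟨a1, a2⟩ := bdSq_apply s
  obtain ⟨b1, b2⟩ := bdSq_apply s'
  rw [h] at a1 a2
  rw [a1] at b1
  rw [a2] at b2
  have h0 : 0 ≤ (s : ℝ) := s.2.1
  have h1 : (s : ℝ) ≤ 1 := s.2.2
  have h0' : 0 ≤ (s' : ℝ) := s'.2.1
  have h1' : (s' : ℝ) ≤ 1 := s'.2.2
  have key : (s : ℝ) = s' ∨ (((s : ℝ) = 0 ∨ (s : ℝ) = 1) ∧ ((s' : ℝ) = 0 ∨ (s' : ℝ) = 1)) := by
    by_cases e : (s : ℝ) = s'
    · exact Or.inl e
    right
    split_ifs at b1 b2 <;> first
      | (exfalso; apply e; linarith)
      | (exfalso; linarith)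
      | (refine ⟨Or.inl ?_, Or.inr ?_⟩ <;> linarith)
      | (refine ⟨Or.inr ?_, Or.inl ?_⟩ <;> linarith)
  rcases key with h | ⟨h | h, h' | h'⟩
  · exact Or.inl (Subtype.ext h)
  · exact Or.inr ⟨Or.inl (Subtype.ext h), Or.inl (Subtype.ext h')⟩
  · exact Or.inr ⟨Or.inl (Subtype.ext h), Or.inr (Subtype.ext h')⟩
  · exact Or.inr ⟨Or.inr (Subtype.ext h), Or.inl (Subtype.ext h')⟩
  · exact Or.inr ⟨Or.inr (Subtype.ext h), Or.inr (Subtype.ext h')⟩

theorem bdSq_surj {w : I × I} (hw : w ∉ Sint) : ∃ s, TwoCx.bdSq s = w := by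
  obtain ⟨⟨a, ha0, ha1⟩, ⟨b, hb0, hb1⟩⟩ := w
  have hcase : a = 0 ∨ a = 1 ∨ b = 0 ∨ b = 1 := by
    by_contra hc
    push Not at hc
    obtain ⟨h1, h2, h3, h4⟩ := hc
    apply hw
    refine ⟨⟨?_, ?_⟩, ⟨?_, ?_⟩⟩
    · exact lt_of_le_of_ne (show (0 : I) ≤ ⟨a, ha0, ha1⟩ from ha0) fun h => h1 (congrArg Subtype.val h).symm
    · exact lt_of_le_of_ne (show (⟨a, ha0, ha1⟩ : I) ≤ 1 from ha1) fun h => h2 (congrArg Subtype.val h)
    · exact lt_of_le_of_ne (show (0 : I) ≤ ⟨b, hb0, hb1⟩ from hb0) fun h => h3 (congrArg Subtype.val h).symm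
    · exact lt_of_le_of_ne (show (⟨b, hb0, hb1⟩ : I) ≤ 1 from hb1) fun h => h4 (congrArg Subtype.val h)
  have fin : ∀ s : I, ((TwoCx.bdSq s).1 : ℝ) = a → ((TwoCx.bdSq s).2 : ℝ) = b →
      TwoCx.bdSq s = (⟨a, ha0, ha1⟩, ⟨b, hb0, hb1⟩) := fun s h1 h2 =>
    Prod.ext (Subtype.ext h1) (Subtype.ext h2)
  rcases hcase with h | h | h | h
  · refine ⟨⟨1 - b / 2, by linarith, by linarith⟩, fin _ ?_ ?_⟩
    · rw [(bdSq_apply _).1]; simp only
      split_ifs <;> linarith
    · rw [(bdSq_apply _).2]; simp only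
      split_ifs <;> linarith
  · refine ⟨⟨1 / 8 + b / 8, by linarith, by linarith⟩, fin _ ?_ ?_⟩
    · rw [(bdSq_apply _).1]; simp only
      split_ifs <;> linarith
    · rw [(bdSq_apply _).2]; simp only
      split_ifs <;> linarith
  · refine ⟨⟨a / 8, by linarith, by linarith⟩, fin _ ?_ ?_⟩
    · rw [(bdSq_apply _).1]; simp only
      split_ifs <;> linarith
    · rw [(bdSq_apply _).2]; simp only
      split_ifs <;> linarith
  · refine ⟨⟨(2 - a) / 4, by linarith, by linarith⟩, fin _ ?_ ?_⟩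
    · rw [(bdSq_apply _).1]; simp only
      split_ifs <;> linarith
    · rw [(bdSq_apply _).2]; simp only
      split_ifs <;> linarith

/-- `x ↦ (1-t) x + t/2` on the interval -/
noncomputable def mid (t x : I) : I :=
  ⟨(1 - (t : ℝ)) * x + t / 2, by
    have h1 := t.2.1; have h2 := t.2.2; have h3 := x.2.1; have h4 := x.2.2
    constructor
    · nlinarith [mul_nonneg (sub_nonneg.mpr h2) h3]
    · nlinarith [mul_le_mul_of_nonneg_left h4 (sub_nonneg.mpr h2)]⟩

lemma continuous_mid : Continuous fun q : I × I => mid q.1 q.2 := by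
  unfold mid
  fun_prop

/-- polar coordinates of the square -/
noncomputable def polar : C(I × I, I × I) where
  toFun q := (mid q.1 (TwoCx.bdSq q.2).1, mid q.1 (TwoCx.bdSq q.2).2)
  continuous_toFun := by
    have h1 : Continuous fun q : I × I => (q.1, (TwoCx.bdSq q.2).1) := by fun_prop
    have h2 : Continuous fun q : I × I => (q.1, (TwoCx.bdSq q.2).2) := by fun_prop
    exact (continuous_mid.comp h1).prodMk (continuous_mid.comp h2)

lemma polar_fst (t s : I) : ((polar (t, s)).1 : ℝ) =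
    (1 - (t : ℝ)) * (TwoCx.bdSq s).1 + t / 2 := rfl

lemma polar_snd (t s : I) : ((polar (t, s)).2 : ℝ) =
    (1 - (t : ℝ)) * (TwoCx.bdSq s).2 + t / 2 := rfl

lemma polar_zero (s : I) : polar (0, s) = TwoCx.bdSq s := by
  apply Prod.ext
  · apply Subtype.ext; rw [polar_fst]; simp
  · apply Subtype.ext; rw [polar_snd]; simp

lemma notMem_Sint {w : I × I} (hw : w ∉ Sint) :
    (w.1 : ℝ) = 0 ∨ (w.1 : ℝ) = 1 ∨ (w.2 : ℝ) = 0 ∨ (w.2 : ℝ) = 1 := by
  obtain ⟨⟨a, ha0, ha1⟩, ⟨b, hb0, hb1⟩⟩ := w
  by_contra hc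
  push Not at hc
  obtain ⟨h1, h2, h3, h4⟩ := hc
  apply hw
  refine ⟨⟨?_, ?_⟩, ⟨?_, ?_⟩⟩
  · exact lt_of_le_of_ne (show (0 : I) ≤ ⟨a, ha0, ha1⟩ from ha0) fun h => h1 (congrArg Subtype.val h).symm
  · exact lt_of_le_of_ne (show (⟨a, ha0, ha1⟩ : I) ≤ 1 from ha1) fun h => h2 (congrArg Subtype.val h)
  · exact lt_of_le_of_ne (show (0 : I) ≤ ⟨b, hb0, hb1⟩ from hb0) fun h => h3 (congrArg Subtype.val h).symm
  · exact lt_of_le_of_ne (show (⟨b, hb0, hb1⟩ : I) ≤ 1 from hb1) fun h => h4 (congrArg Subtype.val h)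

/-- the sup-norm of the centred boundary curve is `1/2` -/
lemma max_bdSq (s : I) :
    max |((TwoCx.bdSq s).1 : ℝ) - 1 / 2| |((TwoCx.bdSq s).2 : ℝ) - 1 / 2| = 1 / 2 := by
  have h := notMem_Sint (TwoCx.bdSq_notMem s)
  have a0 := (TwoCx.bdSq s).1.2.1
  have a1 := (TwoCx.bdSq s).1.2.2
  have b0 := (TwoCx.bdSq s).2.2.1
  have b1 := (TwoCx.bdSq s).2.2.2
  have ha : |((TwoCx.bdSq s).1 : ℝ) - 1 / 2| ≤ 1 / 2 := by rw [abs_le]; constructor <;> linarith
  have hb : |((TwoCx.bdSq s).2 : ℝ) - 1 / 2| ≤ 1 / 2 := by rw [abs_le]; constructor <;> linarith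
  apply le_antisymm (max_le ha hb)
  rcases h with h | h | h | h
  · apply le_max_of_le_left; rw [h]; norm_num
  · apply le_max_of_le_left; rw [h]; norm_num
  · apply le_max_of_le_right; rw [h]; norm_num
  · apply le_max_of_le_right; rw [h]; norm_num

lemma polar_radius (t s : I) :
    max |((polar (t, s)).1 : ℝ) - 1 / 2| |((polar (t, s)).2 : ℝ) - 1 / 2| = (1 - (t : ℝ)) / 2 := by
  have ht : 0 ≤ 1 - (t : ℝ) := sub_nonneg.mpr t.2.2
  have h1 : ((polar (t, s)).1 : ℝ) - 1 / 2 = (1 - (t : ℝ)) * (((TwoCx.bdSq s).1 : ℝ) - 1 / 2) := by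
    rw [polar_fst]; ring
  have h2 : ((polar (t, s)).2 : ℝ) - 1 / 2 = (1 - (t : ℝ)) * (((TwoCx.bdSq s).2 : ℝ) - 1 / 2) := by
    rw [polar_snd]; ring
  rw [h1, h2, abs_mul, abs_mul, abs_of_nonneg ht, ← mul_max_of_nonneg _ _ ht, max_bdSq]
  ring

lemma polar_eq {t s t' s' : I} (h : polar (t, s) = polar (t', s')) :
    t = t' ∧ (t = 1 ∨ TwoCx.bdSq s = TwoCx.bdSq s') := by
  have h1 := polar_radius t s
  rw [h, polar_radius t' s'] at h1
  have ht : t = t' := Subtype.ext (by linarith)
  refine ⟨ht, ?_⟩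
  by_cases h2 : t = 1
  · exact Or.inl h2
  right
  have h3 : (1 - (t : ℝ)) ≠ 0 := by
    intro h4
    exact h2 (Subtype.ext (by rw [Set.Icc.coe_one]; linarith))
  have e1 : ((polar (t, s)).1 : ℝ) = ((polar (t', s')).1 : ℝ) := by rw [h]
  have e2 : ((polar (t, s)).2 : ℝ) = ((polar (t', s')).2 : ℝ) := by rw [h]
  rw [polar_fst, polar_fst, ← ht] at e1
  rw [polar_snd, polar_snd, ← ht] at e2
  apply Prod.ext
  · apply Subtype.ext
    apply mul_left_cancel₀ h3; linarith
  · apply Subtype.ext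
    apply mul_left_cancel₀ h3; linarith

lemma polar_surjective : Function.Surjective polar := by
  intro z
  set r : ℝ := 2 * max |(z.1 : ℝ) - 1 / 2| |(z.2 : ℝ) - 1 / 2| with hr
  have a0 := z.1.2.1
  have a1 := z.1.2.2
  have b0 := z.2.2.1
  have b1 := z.2.2.2
  have ha : |(z.1 : ℝ) - 1 / 2| ≤ 1 / 2 := by rw [abs_le]; constructor <;> linarith
  have hb : |(z.2 : ℝ) - 1 / 2| ≤ 1 / 2 := by rw [abs_le]; constructor <;> linarith
  have hr1 : r ≤ 1 := by
    have := max_le ha hb
    linarith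
  have hr0 : 0 ≤ r := by
    have : 0 ≤ max |(z.1 : ℝ) - 1 / 2| |(z.2 : ℝ) - 1 / 2| := le_max_of_le_left (abs_nonneg _)
    linarith
  have hA : |(z.1 : ℝ) - 1 / 2| ≤ r / 2 := by
    have := le_max_left |(z.1 : ℝ) - 1 / 2| |(z.2 : ℝ) - 1 / 2|
    linarith
  have hB : |(z.2 : ℝ) - 1 / 2| ≤ r / 2 := by
    have := le_max_right |(z.1 : ℝ) - 1 / 2| |(z.2 : ℝ) - 1 / 2|
    linarith
  rcases eq_or_lt_of_le hr0 with h0 | h0
  · refine ⟨(1, 0), ?_⟩
    rw [← h0] at hA hB
    have e1 : (z.1 : ℝ) = 1 / 2 := by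
      have := abs_nonpos_iff.mp (by linarith : |(z.1 : ℝ) - 1 / 2| ≤ 0)
      linarith
    have e2 : (z.2 : ℝ) = 1 / 2 := by
      have := abs_nonpos_iff.mp (by linarith : |(z.2 : ℝ) - 1 / 2| ≤ 0)
      linarith
    apply Prod.ext
    · apply Subtype.ext; rw [polar_fst, e1]; simp
    · apply Subtype.ext; rw [polar_snd, e2]; simp
  · rw [abs_le] at hA hB
    have m1 : (1 / 2 + ((z.1 : ℝ) - 1 / 2) / r) ∈ Set.Icc (0 : ℝ) 1 := by
      constructor
      · have : -(1 / 2) ≤ ((z.1 : ℝ) - 1 / 2) / r := by rw [le_div_iff₀ h0]; linarith [hA.1]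
        linarith
      · have : ((z.1 : ℝ) - 1 / 2) / r ≤ 1 / 2 := by rw [div_le_iff₀ h0]; linarith [hA.2]
        linarith
    have m2 : (1 / 2 + ((z.2 : ℝ) - 1 / 2) / r) ∈ Set.Icc (0 : ℝ) 1 := by
      constructor
      · have : -(1 / 2) ≤ ((z.2 : ℝ) - 1 / 2) / r := by rw [le_div_iff₀ h0]; linarith [hB.1]
        linarith
      · have : ((z.2 : ℝ) - 1 / 2) / r ≤ 1 / 2 := by rw [div_le_iff₀ h0]; linarith [hB.2]
        linarith
    set w : I × I := (⟨_, m1⟩, ⟨_, m2⟩) with hw
    have hwS : w ∉ Sint := by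
      intro hS
      obtain ⟨⟨p1, p2⟩, ⟨p3, p4⟩⟩ := hS
      have q1 : (0 : ℝ) < 1 / 2 + ((z.1 : ℝ) - 1 / 2) / r := p1
      have q2 : 1 / 2 + ((z.1 : ℝ) - 1 / 2) / r < (1 : ℝ) := p2
      have q3 : (0 : ℝ) < 1 / 2 + ((z.2 : ℝ) - 1 / 2) / r := p3
      have q4 : 1 / 2 + ((z.2 : ℝ) - 1 / 2) / r < (1 : ℝ) := p4
      have s1 : |(z.1 : ℝ) - 1 / 2| < r / 2 := by
        rw [abs_lt]
        constructor
        · have : -(1 / 2) < ((z.1 : ℝ) - 1 / 2) / r := by linarith
          rw [lt_div_iff₀ h0] at this; linarith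
        · have : ((z.1 : ℝ) - 1 / 2) / r < 1 / 2 := by linarith
          rw [div_lt_iff₀ h0] at this; linarith
      have s2 : |(z.2 : ℝ) - 1 / 2| < r / 2 := by
        rw [abs_lt]
        constructor
        · have : -(1 / 2) < ((z.2 : ℝ) - 1 / 2) / r := by linarith
          rw [lt_div_iff₀ h0] at this; linarith
        · have : ((z.2 : ℝ) - 1 / 2) / r < 1 / 2 := by linarith
          rw [div_lt_iff₀ h0] at this; linarith
      have := max_lt s1 s2
      linarith
    obtain ⟨s, hs⟩ := bdSq_surj hwS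
    refine ⟨(⟨1 - r, by linarith, by linarith⟩, s), ?_⟩
    apply Prod.ext
    · apply Subtype.ext
      rw [polar_fst, hs]
      simp only [hw]
      field_simp
      ring
    · apply Subtype.ext
      rw [polar_snd, hs]
      simp only [hw]
      field_simp
      ring

lemma isQuotientMap_polar : IsQuotientMap polar :=
  (polar.continuous.isClosedMap).isQuotientMap polar.continuous polar_surjective

/-- A map on the boundary of the square whose boundary loop is null-homotopic extends. -/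
theorem exists_ext {B : Type*} [TopologicalSpace B] (β : C({s : I × I // s ∉ Sint}, B))
    (h : Path.Homotopic (TwoCx.bdS.map β.continuous) (Path.refl _)) :
    ∃ F : C(I × I, B), ∀ s : {s : I × I // s ∉ Sint}, F s.1 = β s := by
  obtain ⟨H⟩ := h
  have h0 : ∀ s, H (0, s) = β (TwoCx.bdS s) := fun s => H.apply_zero s
  have h1 : ∀ s, H (1, s) = β (TwoCx.bdS 0) := fun s => by
    rw [H.apply_one]; simp
  have hs0 : ∀ t, H (t, 0) = β (TwoCx.bdS 0) := fun t => by
    rw [H.source]; simp
  have hs1 : ∀ t, H (t, 1) = β (TwoCx.bdS 0) := fun t => by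
    rw [H.target]; simp
  have hfac : Function.FactorsThrough (H : I × I → B) polar := by
    rintro ⟨t, s⟩ ⟨t', s'⟩ he
    obtain ⟨rfl, h2⟩ := polar_eq he
    rcases h2 with rfl | h2
    · rw [h1, h1]
    · rcases bdSq_inj h2 with rfl | ⟨h3, h4⟩
      · rfl
      · rcases h3 with rfl | rfl <;> rcases h4 with rfl | rfl <;> simp only [hs0, hs1]
  refine ⟨isQuotientMap_polar.lift H.toContinuousMap hfac, ?_⟩
  intro w
  obtain ⟨s, hs⟩ := bdSq_surj w.2
  have e1 : polar (0, s) = w.1 := by rw [polar_zero, hs]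
  rw [← e1]
  have e2 : (isQuotientMap_polar.lift H.toContinuousMap hfac) (polar (0, s)) = H (0, s) :=
    congrArg (fun g : C(I × I, B) => g (0, s)) (isQuotientMap_polar.lift_comp _ hfac)
  rw [e2, h0]
  congr 1
  exact Subtype.ext hs

end SqExt

/-! ### the space of functions -/

/-- all functions from `[0,1)` to the group -/
def EG (Γ : Type) : Type := Set.Ico (0 : ℝ) 1 → Γ

namespace EG

variable {Γ : Type}

/-- the set where two functions differ, as a set of reals -/
def df (f g : EG Γ) : Set ℝ := {t | ∃ h : t ∈ Set.Ico (0 : ℝ) 1, f ⟨t, h⟩ ≠ g ⟨t, h⟩}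

lemma df_subset (f g : EG Γ) : df f g ⊆ Set.Ico (0 : ℝ) 1 := fun _ ⟨h, _⟩ => h

lemma vol_df_le (f g : EG Γ) : volume (df f g) ≤ 1 := by
  refine (measure_mono (df_subset f g)).trans ?_
  simp

lemma vol_df_ne_top (f g : EG Γ) : volume (df f g) ≠ ⊤ :=
  ne_top_of_le_ne_top ENNReal.one_ne_top (vol_df_le f g)

lemma df_self (f : EG Γ) : df f f = ∅ := by
  ext t; simp [df]

lemma df_comm (f g : EG Γ) : df f g = df g f := by
  ext t
  constructor
  · rintro ⟨h, h1⟩; exact ⟨h, h1.symm⟩
  · rintro ⟨h, h1⟩; exact ⟨h, h1.symm⟩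

lemma df_triangle (f g k : EG Γ) : df f k ⊆ df f g ∪ df g k := by
  rintro t ⟨h, h1⟩
  by_cases h2 : f ⟨t, h⟩ = g ⟨t, h⟩
  · right; exact ⟨h, by rwa [← h2]⟩
  · left; exact ⟨h, h2⟩

noncomputable instance : PseudoMetricSpace (EG Γ) where
  dist f g := (volume (df f g)).toReal
  dist_self f := by rw [df_self]; simp
  dist_comm f g := by rw [df_comm]
  dist_triangle f g k := by
    rw [← ENNReal.toReal_add (vol_df_ne_top f g) (vol_df_ne_top g k)]
    apply ENNReal.toReal_mono
    · exact ENNReal.add_ne_top.mpr ⟨vol_df_ne_top f g, vol_df_ne_top g k⟩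
    · exact (measure_mono (df_triangle f g k)).trans (measure_union_le _ _)

lemma dist_def (f g : EG Γ) : dist f g = (volume (df f g)).toReal := rfl

variable [Group Γ]

instance : MulAction Γ (EG Γ) where
  smul γ f := fun t => γ * f t
  one_smul f := by funext t; exact one_mul _
  mul_smul a b f := by funext t; exact mul_assoc _ _ _

lemma smul_apply (γ : Γ) (f : EG Γ) (t : Set.Ico (0 : ℝ) 1) : (γ • f) t = γ * f t := rfl

lemma df_smul (γ : Γ) (f g : EG Γ) : df (γ • f) (γ • g) = df f g := by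
  ext t
  constructor
  · rintro ⟨h, h1⟩
    exact ⟨h, fun h2 => h1 (by rw [smul_apply, smul_apply, h2])⟩
  · rintro ⟨h, h1⟩
    exact ⟨h, fun h2 => h1 (by rw [smul_apply, smul_apply] at h2; exact mul_left_cancel h2)⟩

lemma dist_smul_smul (γ : Γ) (f g : EG Γ) : dist (γ • f) (γ • g) = dist f g := by
  rw [dist_def, dist_def, df_smul]

instance : ContinuousConstSMul Γ (EG Γ) where
  continuous_const_smul γ := (Isometry.of_dist_eq fun f g => dist_smul_smul γ f g).continuous

lemma dist_smul_self {γ : Γ} (hγ : γ ≠ 1) (f : EG Γ) : dist (γ • f) f = 1 := by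
  have : df (γ • f) f = Set.Ico (0 : ℝ) 1 := by
    apply Set.Subset.antisymm (df_subset _ _)
    intro t ht
    refine ⟨ht, fun h => hγ ?_⟩
    rw [smul_apply] at h
    exact mul_eq_right.mp h
  rw [dist_def, this]
  simp

open Classical in
/-- the contraction -/
noncomputable def K (s : ℝ) (f : EG Γ) : EG Γ := fun t => if (t : ℝ) < s then 1 else f t

lemma df_K (s s' : ℝ) (f f' : EG Γ) :
    df (K s f) (K s' f') ⊆ Set.Ico (min s s') (max s s') ∪ df f f' := by
  rintro t ⟨h, h1⟩
  by_cases h2 : t ∈ Set.Ico (min s s') (max s s')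
  · exact Or.inl h2
  right
  refine ⟨h, fun h3 => h1 ?_⟩
  unfold K
  simp only
  rw [Set.mem_Ico, not_and_or, not_le, not_lt] at h2
  rcases h2 with h2 | h2
  · rw [if_pos (lt_of_lt_of_le h2 (min_le_left _ _)), if_pos (lt_of_lt_of_le h2 (min_le_right _ _))]
  · rw [if_neg (not_lt.mpr ((le_max_left _ _).trans h2)),
      if_neg (not_lt.mpr ((le_max_right _ _).trans h2)), h3]

lemma dist_K (s s' : ℝ) (f f' : EG Γ) : dist (K s f) (K s' f') ≤ |s - s'| + dist f f' := by
  rw [dist_def, dist_def]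
  have h1 : volume (df (K s f) (K s' f')) ≤ ENNReal.ofReal |s - s'| + volume (df f f') := by
    refine (measure_mono (df_K s s' f f')).trans ((measure_union_le _ _).trans ?_)
    gcongr
    rw [Real.volume_Ico, max_sub_min_eq_abs']
  calc (volume (df (K s f) (K s' f'))).toReal
      ≤ (ENNReal.ofReal |s - s'| + volume (df f f')).toReal :=
        ENNReal.toReal_mono (ENNReal.add_ne_top.mpr ⟨ENNReal.ofReal_ne_top, vol_df_ne_top _ _⟩) h1
    _ = |s - s'| + (volume (df f f')).toReal := by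
        rw [ENNReal.toReal_add ENNReal.ofReal_ne_top (vol_df_ne_top _ _),
          ENNReal.toReal_ofReal (abs_nonneg _)]

lemma continuous_K : Continuous fun q : I × EG Γ => K (q.1 : ℝ) q.2 := by
  rw [Metric.continuous_iff]
  rintro ⟨s, f⟩ ε hε
  refine ⟨ε / 2, by positivity, ?_⟩
  rintro ⟨s', f'⟩ h
  rw [Prod.dist_eq, max_lt_iff] at h
  refine lt_of_le_of_lt (dist_K _ _ _ _) ?_
  have h1 : |(s' : ℝ) - s| < ε / 2 := h.1
  have h2 : dist f' f < ε / 2 := h.2
  simp only
  linarith

lemma K_zero (f : EG Γ) : K 0 f = f := by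
  funext t
  unfold K
  rw [if_neg (not_lt.mpr t.2.1)]

lemma K_one (f : EG Γ) : K 1 f = fun _ => 1 := by
  funext t
  unfold K
  rw [if_pos t.2.2]

instance : ContractibleSpace (EG Γ) := by
  rw [contractible_iff_id_nullhomotopic]
  refine ⟨fun _ => 1, ⟨?_⟩⟩
  exact
    { toFun := fun q => K (q.1 : ℝ) q.2
      continuous_toFun := continuous_K
      map_zero_left := fun f => K_zero f
      map_one_left := fun f => K_one f }

variable (Γ) in
/-- the classifying space -/
abbrev BG : Type := MulAction.orbitRel.Quotient Γ (EG Γ)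

theorem quotCover : IsQuotientCoveringMap (Quotient.mk _ : EG Γ → BG Γ) Γ where
  toIsQuotientMap := isQuotientMap_quotient_mk'
  continuous_const_smul := fun γ => continuous_const_smul γ
  apply_eq_iff_mem_orbit := Quotient.eq
  disjoint f := by
    refine ⟨Metric.ball f (1 / 2), Metric.ball_mem_nhds f (by norm_num), fun γ hγ => ?_⟩
    obtain ⟨_, ⟨x, hx, rfl⟩, hx'⟩ := hγ
    by_contra hne
    rw [Metric.mem_ball] at hx hx'
    have h1 := dist_smul_self hne x
    have h2 : dist (γ • x) x ≤ dist (γ • x) f + dist x f := dist_triangle_right _ _ _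
    linarith

end EG

theorem exists_classifying (Γ : Type) [Group Γ] : ∃ (B : Type) (_ : TopologicalSpace B) (b₀ : B)
    (_ : FundamentalGroup B b₀ ≃* Γ), ∀ β : C({s : I × I // s ∉ Sint}, B),
      Path.Homotopic (TwoCx.bdS.map β.continuous) (Path.refl _) →
        ∃ F : C(I × I, B), ∀ s, F s.1 = β s := by
  let x₀ : EG Γ := fun _ => 1
  refine ⟨EG.BG Γ, inferInstance, Quotient.mk _ x₀,
    (EG.quotCover.fundamentalGroupEquiv ⟨x₀, rfl⟩).trans (MulEquiv.inv' Γ).symm, ?_⟩
  intro β h
  exact SqExt.exists_ext β h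

end Crest.Agent.R197
end

-- ▼ part R197/OutOne
section

/-! Row 197, F4: every class of paths between vertices is represented by an edge word. -/

set_option autoImplicit false

open scoped unitInterval

namespace Crest.Agent.R197

namespace OutOne

variable {X E : Type} [TopologicalSpace X] [TopologicalSpace E] (C : TwoCx X) (p : E → X)

/-- reachability from `a` inside the preimage of the 1-skeleton -/
def Reach (a y : E) : Prop := JoinedIn (p ⁻¹' C.X1) a y

/-- extended to all points of `E` -/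
def ReachExt (a y : E) : Prop :=
  Reach C p a y ∨ ∃ (j : C.J) (u : C(I × I, E)) (s : I × I), (∀ t, p (u t) = C.f j t) ∧
    s ∈ Sint ∧ u s = y ∧ Reach C p a (u (0, 0))

variable {C p}

theorem reach_mem {a y : E} (h : Reach C p a y) : p y ∈ C.X1 := h.target_mem

theorem joined_edge {i : C.E} (u : C(I, E)) (hu : ∀ s, p (u s) = C.e i s) (s s' : I) :
    JoinedIn (p ⁻¹' C.X1) (u s) (u s') := by
  have := contractibleSpace_I
  let q : Path s s' := PathConnectedSpace.somePath s s'
  refine ⟨q.map u.continuous, fun t => ?_⟩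
  show p (u (q t)) ∈ C.X1
  rw [hu]
  exact Or.inr ⟨i, _, rfl⟩

theorem joined_bd {j : C.J} (u : C(I × I, E)) (hu : ∀ s, p (u s) = C.f j s) (s : I × I)
    (hs : s ∉ Sint) : JoinedIn (p ⁻¹' C.X1) (u (0, 0)) (u s) := by
  obtain ⟨t, rfl⟩ := SqExt.bdSq_surj hs
  have := contractibleSpace_I
  let q : Path (0 : I) t := PathConnectedSpace.somePath 0 t
  let r : Path (TwoCx.bdSq 0) (TwoCx.bdSq t) := q.map TwoCx.bdSq.continuous
  have h0 : TwoCx.bdSq 0 = (0, 0) := TwoCx.bdSq.source
  have h1 : JoinedIn (p ⁻¹' C.X1) (u (TwoCx.bdSq 0)) (u (TwoCx.bdSq t)) := by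
    refine ⟨r.map u.continuous, fun t' => ?_⟩
    show p (u (TwoCx.bdSq (q t'))) ∈ C.X1
    rw [hu]
    exact C.f_bdSq_mem j _
  rwa [h0] at h1

theorem reachExt_edge (a : E) (i : C.E) (u : C(I, E))
    (hu : ∀ s, p (u s) = C.e i s) (s s' : I) (h : ReachExt C p a (u s)) :
    ReachExt C p a (u s') := by
  rcases h with h | ⟨j, u', s₁, h1, h2, h3, -⟩
  · exact Or.inl (h.trans (joined_edge u hu s s'))
  · exact absurd h3.symm (C.lift_e_ne_f u u' hu h1 s h2)

theorem reachExt_face_iff (hp : IsCoveringMap p) (a : E) (j : C.J) (u : C(I × I, E))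
    (hu : ∀ s, p (u s) = C.f j s) (s : I × I) :
    ReachExt C p a (u s) ↔ Reach C p a (u (0, 0)) := by
  constructor
  · intro h
    rcases h with h | ⟨j', u', s₁, h1, h2, h3, h4⟩
    · by_cases hs : s ∈ Sint
      · exfalso
        have h5 := reach_mem h
        rw [hu, C.mem_X1_iff_notMem] at h5
        exact h5 j s hs rfl
      · exact h.trans (joined_bd u hu s hs).symm
    · obtain ⟨-, -, rfl⟩ := C.lift_f_eq hp u u' hu h1 h2 h3.symm
      exact h4
  · intro h
    by_cases hs : s ∈ Sint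
    · exact Or.inr ⟨j, u, s, hu, hs, rfl, h⟩
    · exact Or.inl (h.trans (joined_bd u hu s hs))

/-- every point over the 1-skeleton is reachable -/
theorem reach_all (hp : IsCoveringMap p) [PreconnectedSpace E] (a b : E) (ha : p a ∈ C.X1)
    (hb : p b ∈ C.X1) : Reach C p a b := by
  have h := cover_const C p hp (ReachExt C p a) (fun i u hu s s' => reachExt_edge a i u hu s s')
    (fun j u hu s s' h => by
      rw [reachExt_face_iff hp a j u hu] at h ⊢
      exact h) a b (Or.inl (JoinedIn.refl ha))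
  rcases h with h | ⟨j, u, s, h1, h2, h3, h4⟩
  · exact h
  · exfalso
    rw [← h3, h1, C.mem_X1_iff_notMem] at hb
    exact hb j s h2 rfl

theorem out1_of (hrep : ∀ (o o' : C.O) (γ : Path.Homotopic.Quotient (C.v1 o) (C.v1 o')),
      ∃ w, C.Rep o o' w γ)
    (hp : IsCoveringMap p) (hs : Function.Surjective p) [ContractibleSpace E] : C.Out1 := by
  intro o o' c
  obtain ⟨c, rfl⟩ := Path.Homotopic.Quotient.mk_surjective c
  obtain ⟨a, ha⟩ := hs (C.v o)
  obtain ⟨Γ, hΓ0, hΓ⟩ := exists_lift_I hp c.toContinuousMap 0 a (ha.trans c.source.symm)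
  have hb : p (Γ 1) = C.v o' := (hΓ 1).trans c.target
  have h1 : Reach C p a (Γ 1) := reach_all hp a (Γ 1) (by rw [ha]; exact Or.inl ⟨o, rfl⟩)
    (by rw [hb]; exact Or.inl ⟨o', rfl⟩)
  obtain ⟨Δ, hΔ⟩ := h1
  let Γ' : Path a (Γ 1) := ⟨Γ, hΓ0, rfl⟩
  have h2 : Γ'.Homotopic Δ := SimplyConnectedSpace.paths_homotopic _ _
  -- the path in the 1-skeleton
  let δ : Path (C.v1 o) (C.v1 o') :=
    { toFun := fun s => ⟨p (Δ s), hΔ s⟩
      continuous_toFun := Continuous.subtype_mk (hp.continuous.comp Δ.continuous) _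
      source' := Subtype.ext (by
        show p (Δ 0) = C.v o
        rw [Δ.source, ha])
      target' := Subtype.ext (by
        show p (Δ 1) = C.v o'
        rw [Δ.target, hb]) }
  obtain ⟨w, hw⟩ := hrep o o' (Path.Homotopic.Quotient.mk δ)
  refine ⟨w, _, hw, ?_⟩
  rw [← Path.Homotopic.Quotient.mk_map]
  apply Path.Homotopic.Quotient.eq.mpr
  obtain ⟨H⟩ := h2
  have H' : Path.Homotopy c (δ.map C.incl.continuous) :=
    { toFun := fun z => p (H z)
      continuous_toFun := hp.continuous.comp H.continuous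
      map_zero_left := fun s => by
        show p (H (0, s)) = c s
        rw [H.apply_zero]
        exact hΓ s
      map_one_left := fun s => by
        show p (H (1, s)) = p (Δ s)
        rw [H.apply_one]
        rfl
      prop' := fun t s hs => by
        show p (H (t, s)) = c s
        have := H.eq_fst t hs
        rw [this]
        exact hΓ s }
  exact (show Path.Homotopic c _ from ⟨H'⟩).symm

end OutOne

/-- F4: every class of paths between vertices is represented by an edge word. -/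
theorem out1 {X E : Type} [TopologicalSpace X] [TopologicalSpace E] (C : TwoCx X) (p : E → X)
    (hp : IsCoveringMap p) (hs : Function.Surjective p) [ContractibleSpace E] : C.Out1 :=
  OutOne.out1_of (fun o o' γ => C.exists_rep o o' γ) hp hs

end Crest.Agent.R197
end

-- ▼ part R197/OutTwo

/-! Row 197, F6: null-homotopic edge loops are killed by homomorphisms killing the relators. -/

set_option autoImplicit false

open scoped unitInterval

namespace Crest.Agent.R197

namespace Out2

section quot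
variable {X Y : Type*} [TopologicalSpace X] [TopologicalSpace Y]

theorem qcast_trans {x y z x' y' z' : X} (p : Path.Homotopic.Quotient x y)
    (q : Path.Homotopic.Quotient y z) (hx : x' = x) (hy : y' = y) (hz : z' = z) :
    (p.trans q).cast hx hz = (p.cast hx hy).trans (q.cast hy hz) := by
  subst hx hy hz
  simp only [Path.Homotopic.Quotient.cast_rfl_rfl]

theorem qcast_symm {x y x' y' : X} (p : Path.Homotopic.Quotient x y) (hx : x' = x) (hy : y' = y) :
    (p.symm).cast hy hx = (p.cast hx hy).symm := by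
  subst hx hy
  simp only [Path.Homotopic.Quotient.cast_rfl_rfl]

theorem qcast_refl {x x' : X} (hx : x' = x) :
    (Path.Homotopic.Quotient.refl x).cast hx hx = Path.Homotopic.Quotient.refl x' := by
  subst hx
  simp only [Path.Homotopic.Quotient.cast_rfl_rfl]

theorem qmap_trans {x y z : X} (p : Path.Homotopic.Quotient x y)
    (q : Path.Homotopic.Quotient y z) (f : C(X, Y)) :
    (p.trans q).map f = (p.map f).trans (q.map f) := by
  induction p using Path.Homotopic.Quotient.ind with | mk p => ?_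
  induction q using Path.Homotopic.Quotient.ind with | mk q => ?_
  rw [← Path.Homotopic.Quotient.mk_trans, ← Path.Homotopic.Quotient.mk_map,
    ← Path.Homotopic.Quotient.mk_map, ← Path.Homotopic.Quotient.mk_map,
    ← Path.Homotopic.Quotient.mk_trans, Path.map_trans]

theorem qmap_symm {x y : X} (p : Path.Homotopic.Quotient x y) (f : C(X, Y)) :
    (p.symm).map f = (p.map f).symm := by
  induction p using Path.Homotopic.Quotient.ind with | mk p => ?_
  rw [← Path.Homotopic.Quotient.mk_symm, ← Path.Homotopic.Quotient.mk_map,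
    ← Path.Homotopic.Quotient.mk_map, ← Path.Homotopic.Quotient.mk_symm, Path.map_symm]

theorem qmap_refl (x : X) (f : C(X, Y)) :
    (Path.Homotopic.Quotient.refl x).map f = Path.Homotopic.Quotient.refl (f x) := by
  rw [← Path.Homotopic.Quotient.mk_refl, ← Path.Homotopic.Quotient.mk_map,
    ← Path.Homotopic.Quotient.mk_refl]
  rfl

open CategoryTheory in
theorem qcancel {x y : X} (t : Path.Homotopic.Quotient x y) (b : Path.Homotopic.Quotient y y)
    (h : (t.trans b).trans t.symm = Path.Homotopic.Quotient.refl x) :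
    b = Path.Homotopic.Quotient.refl y := by
  let t' : FundamentalGroupoid.mk x ⟶ FundamentalGroupoid.mk y := t
  let b' : FundamentalGroupoid.mk y ⟶ FundamentalGroupoid.mk y := b
  have h' : (t' ≫ b') ≫ Groupoid.inv t' = 𝟙 _ := h
  have h1 : t' ≫ b' = t' := by
    have := congrArg (fun q => q ≫ t') h'
    simpa using this
  have h2 : b' = 𝟙 _ := (cancel_epi t').mp (by simpa using h1)
  exact h2

end quot

variable {X : Type} [TopologicalSpace X] (C : TwoCx X)

/-- value of an edge path under a map of the 1-skeleton to a space with identified fundamental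
group -/
theorem rep_val {B : Type} [TopologicalSpace B] {b₀ : B} {Γ : Type} [Group Γ]
    (e : FundamentalGroup B b₀ ≃* Γ) (ψ : FreeGroup C.E →* Γ)
    (F1 : C(C.X1, B)) (hv : ∀ o, F1 (C.v1 o) = b₀) (lam : C.E → Path b₀ b₀)
    (hF : ∀ i s, F1 (C.e1 i s) = lam i s)
    (hlam : ∀ i, e (Path.Homotopic.Quotient.mk (lam i)) = (ψ (FreeGroup.of i))⁻¹)
    {o o' : C.O} {w : C.Wd} {γ : Path.Homotopic.Quotient (C.v1 o) (C.v1 o')}
    (h : C.Rep o o' w γ) :
    e ((γ.map F1).cast (hv o).symm (hv o').symm) = (ψ (C.wordOf w))⁻¹ := by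
  have hedge : ∀ i, ((Path.Homotopic.Quotient.mk (C.e1 i)).map F1).cast
      (hv (C.src i)).symm (hv (C.tgt i)).symm = Path.Homotopic.Quotient.mk (lam i) := by
    intro i
    rw [← Path.Homotopic.Quotient.mk_map, ← Path.Homotopic.Quotient.mk_cast]
    congr 1
    ext s
    exact hF i s
  induction h with
  | nil o =>
    rw [qmap_refl, qcast_refl]
    change e 1 = _
    simp [TwoCx.wordOf]
  | fwd i o' w γ _ ih =>
    rw [qmap_trans, qcast_trans _ _ _ (hv (C.tgt i)).symm _, hedge]
    have : e ((Path.Homotopic.Quotient.mk (lam i)).trans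
        ((γ.map F1).cast (hv (C.tgt i)).symm (hv o').symm)) =
        e ((γ.map F1).cast (hv (C.tgt i)).symm (hv o').symm) *
          e (Path.Homotopic.Quotient.mk (lam i)) := by
      rw [← map_mul]; rfl
    rw [this, ih, hlam, TwoCx.wordOf, map_mul, mul_inv_rev]
  | bwd i o' w γ _ ih =>
    rw [qmap_trans, qcast_trans _ _ _ (hv (C.src i)).symm _, qmap_symm, qcast_symm, hedge]
    have : e (((Path.Homotopic.Quotient.mk (lam i)).symm).trans
        ((γ.map F1).cast (hv (C.src i)).symm (hv o').symm)) =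
        e ((γ.map F1).cast (hv (C.src i)).symm (hv o').symm) *
          (e (Path.Homotopic.Quotient.mk (lam i)))⁻¹ := by
      rw [← map_inv, ← map_mul]; rfl
    rw [this, ih, hlam, TwoCx.wordOf, map_mul, mul_inv_rev, map_inv]

section construction

variable {B : Type} [TopologicalSpace B] {b₀ : B} (lam : C.E → Path b₀ b₀)

open Classical in
/-- the function on the 1-skeleton -/
noncomputable def f1 (x : X) : B :=
  if h : ∃ (i : C.E) (s : I), s ∈ Iint ∧ x = C.e i s then lam h.choose h.choose_spec.choose else b₀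

theorem f1_v (o : C.O) : f1 C lam (C.v o) = b₀ := by
  unfold f1
  rw [dif_neg]
  rintro ⟨i, s, hs, h⟩
  exact C.e_ne_v i s o hs h.symm

theorem f1_e (i : C.E) (s : I) : f1 C lam (C.e i s) = lam i s := by
  by_cases hs : s ∈ Iint
  · have h : ∃ (i' : C.E) (s' : I), s' ∈ Iint ∧ C.e i s = C.e i' s' := ⟨i, s, hs, rfl⟩
    unfold f1
    rw [dif_pos h]
    have h1 := h.choose_spec.choose_spec
    obtain ⟨h2, h3⟩ := C.e_inj i h.choose s h.choose_spec.choose hs h1.1 h1.2
    rw [← h3]
    exact congrFun (congrArg (fun i => (lam i : I → B)) h2.symm) s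
  · have hs' : s = 0 ∨ s = 1 := by
      by_contra hcon
      push Not at hcon
      exact hs ⟨unitInterval.pos_iff_ne_zero.mpr hcon.1, unitInterval.lt_one_iff_ne_one.mpr hcon.2⟩
    rcases hs' with rfl | rfl
    · rw [C.e_zero, f1_v, (lam i).source]
    · rw [C.e_one, f1_v, (lam i).target]

theorem f1_continuous : Continuous (fun x : C.X1 => f1 C lam x.1) := by
  rw [continuous_iff_isClosed]
  intro A hA
  have h : IsClosed (Subtype.val '' ((fun x : C.X1 => f1 C lam x.1) ⁻¹' A)) := by
    apply C.closed1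
    · rintro _ ⟨x, -, rfl⟩
      exact x.2
    · intro i
      have : (C.e i) ⁻¹' (Subtype.val '' ((fun x : C.X1 => f1 C lam x.1) ⁻¹' A)) =
          (lam i) ⁻¹' A := by
        ext s
        constructor
        · rintro ⟨x, hx, hxs⟩
          have : f1 C lam x.1 ∈ A := hx
          rw [hxs, f1_e] at this
          exact this
        · intro hs
          refine ⟨⟨C.e i s, Or.inr ⟨i, s, rfl⟩⟩, ?_, rfl⟩
          change f1 C lam (C.e i s) ∈ A
          rw [f1_e]; exact hs
      rw [this]
      exact hA.preimage (lam i).continuous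
  have h2 : (fun x : C.X1 => f1 C lam x.1) ⁻¹' A =
      Subtype.val ⁻¹' (Subtype.val '' ((fun x : C.X1 => f1 C lam x.1) ⁻¹' A)) := by
    rw [Set.preimage_image_eq _ Subtype.val_injective]
  rw [h2]
  exact h.preimage continuous_subtype_val

variable (G : C.J → C(I × I, B))

open Classical in
/-- the function on the whole complex -/
noncomputable def f2 (x : X) : B :=
  if h : ∃ (j : C.J) (s : I × I), s ∈ Sint ∧ x = C.f j s then G h.choose h.choose_spec.choose
  else f1 C lam x

theorem f2_v (o : C.O) : f2 C lam G (C.v o) = b₀ := by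
  unfold f2
  rw [dif_neg, f1_v]
  rintro ⟨j, s, hs, h⟩
  exact C.f_ne_v j s o hs h.symm

theorem f2_e (i : C.E) (s : I) : f2 C lam G (C.e i s) = lam i s := by
  unfold f2
  rw [dif_neg, f1_e]
  rintro ⟨j, s', hs, h⟩
  exact C.f_ne_e j s' i s hs h.symm

theorem f2_of_mem (x : X) (hx : x ∈ C.X1) : f2 C lam G x = f1 C lam x := by
  rcases hx with ⟨o, rfl⟩ | ⟨i, s, rfl⟩
  · rw [f2_v, f1_v]
  · rw [f2_e, f1_e]

theorem f2_f (hG : ∀ j s, s ∉ Sint → G j s = f1 C lam (C.f j s)) (j : C.J) (s : I × I) :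
    f2 C lam G (C.f j s) = G j s := by
  by_cases hs : s ∈ Sint
  · have h : ∃ (j' : C.J) (s' : I × I), s' ∈ Sint ∧ C.f j s = C.f j' s' := ⟨j, s, hs, rfl⟩
    unfold f2
    rw [dif_pos h]
    have h1 := h.choose_spec.choose_spec
    obtain ⟨h2, h3⟩ := C.f_inj j h.choose s h.choose_spec.choose hs h1.1 h1.2
    rw [← h3, ← h2]
  · rw [hG j s hs]
    apply f2_of_mem
    exact C.f_bd j s hs

theorem f2_continuous (hG : ∀ j s, s ∉ Sint → G j s = f1 C lam (C.f j s)) :
    Continuous (f2 C lam G) := by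
  rw [continuous_iff_isClosed]
  intro A hA
  apply C.closed2
  · intro i
    have : (C.e i) ⁻¹' (f2 C lam G ⁻¹' A) = (lam i) ⁻¹' A := by
      ext s
      change f2 C lam G (C.e i s) ∈ A ↔ lam i s ∈ A
      rw [f2_e]
    rw [this]
    exact hA.preimage (lam i).continuous
  · intro j
    have : (C.f j) ⁻¹' (f2 C lam G ⁻¹' A) = (G j) ⁻¹' A := by
      ext s
      change f2 C lam G (C.f j s) ∈ A ↔ G j s ∈ A
      rw [f2_f C lam G hG]
    rw [this]
    exact hA.preimage (G j).continuous

end construction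

/-- The classifying space property used in `out2_of`. -/
def ClsProp (Γ : Type) [Group Γ] : Prop :=
  ∃ (B : Type) (_ : TopologicalSpace B) (b₀ : B) (_ : FundamentalGroup B b₀ ≃* Γ),
    ∀ β : C({s : I × I // s ∉ Sint}, B),
      Path.Homotopic (TwoCx.bdS.map β.continuous) (Path.refl _) →
      ∃ F : C(I × I, B), ∀ s, F s.1 = β s

theorem out2_of (hcl : ∀ (Γ : Type) [Group Γ], ClsProp Γ) (D : C.RelData) : C.Out2 D := by
  intro Γ _ ψ hψ o w γ hγ hnull
  obtain ⟨B, _, b₀, e, hB⟩ := hcl Γ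
  -- the loops
  have hl : ∀ i : C.E, ∃ l : Path b₀ b₀,
      Path.Homotopic.Quotient.mk l = e.symm ((ψ (FreeGroup.of i))⁻¹) := fun i =>
    Path.Homotopic.Quotient.mk_surjective _
  choose lam hlam using hl
  have hlam' : ∀ i, e (Path.Homotopic.Quotient.mk (lam i)) = (ψ (FreeGroup.of i))⁻¹ := by
    intro i; rw [hlam i]; exact e.apply_symm_apply _
  let F1 : C(C.X1, B) := ⟨fun x => f1 C lam x.1, f1_continuous C lam⟩
  have hv : ∀ o, F1 (C.v1 o) = b₀ := fun o => f1_v C lam o
  have hF : ∀ i s, F1 (C.e1 i s) = lam i s := fun i s => f1_e C lam i s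
  -- extension over the 2-cells
  have hext : ∀ j : C.J, ∃ G : C(I × I, B), ∀ s : {s : I × I // s ∉ Sint},
      G s.1 = f1 C lam (C.f j s.1) := by
    intro j
    let β : C({s : I × I // s ∉ Sint}, B) :=
      ⟨fun s => F1 ⟨C.f j s.1, C.f_bd j s.1 s.2⟩, F1.continuous.comp (Continuous.subtype_mk
        ((C.f j).continuous.comp continuous_subtype_val) _)⟩
    have hβ : Path.Homotopic (TwoCx.bdS.map β.continuous) (Path.refl _) := by
      have h1 := rep_val C e ψ F1 hv lam hF hlam' (D.rep j)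
      rw [hψ j, inv_one] at h1
      have h2 : ((Path.Homotopic.Quotient.mk (((D.τ j).trans (C.bd1 j)).trans (D.τ j).symm)).map
          F1).cast (hv _).symm (hv _).symm = Path.Homotopic.Quotient.refl b₀ := by
        apply e.injective
        rw [h1]
        exact (map_one e).symm
      have h3 : (Path.Homotopic.Quotient.mk (((D.τ j).trans (C.bd1 j)).trans (D.τ j).symm)).map
          F1 = Path.Homotopic.Quotient.refl _ := by
        have := congrArg (fun q => Path.Homotopic.Quotient.cast q (hv (D.bo j)) (hv (D.bo j))) h2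
        simpa only [Path.Homotopic.Quotient.cast_cast, Path.Homotopic.Quotient.cast_rfl_rfl,
          qcast_refl] using this
      rw [Path.Homotopic.Quotient.mk_trans, Path.Homotopic.Quotient.mk_trans,
        Path.Homotopic.Quotient.mk_symm, qmap_trans, qmap_trans, qmap_symm] at h3
      have h4 := qcancel _ _ h3
      rw [← Path.Homotopic.Quotient.mk_map, ← Path.Homotopic.Quotient.mk_refl] at h4
      exact Path.Homotopic.Quotient.exact h4
    obtain ⟨G, hG⟩ := hB β hβ
    exact ⟨G, fun s => hG s⟩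
  choose G hG using hext
  have hG' : ∀ j s, s ∉ Sint → G j s = f1 C lam (C.f j s) := fun j s hs => hG j ⟨s, hs⟩
  let F : C(X, B) := ⟨f2 C lam G, f2_continuous C lam G hG'⟩
  have hFF1 : F.comp C.incl = F1 := by
    ext x
    exact f2_of_mem C lam G x.1 x.2
  have h1 := rep_val C e ψ F1 hv lam hF hlam' hγ
  have h2 : γ.map F1 = Path.Homotopic.Quotient.refl (F1 (C.v1 o)) := by
    rw [← hFF1, Path.Homotopic.Quotient.map_comp, hnull, qmap_refl]
    rfl
  rw [h2, qcast_refl] at h1
  have h3 : (ψ (C.wordOf w))⁻¹ = 1 := by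
    rw [← h1]
    exact map_one e
  exact inv_eq_one.mp h3

end Out2

/-- F6 (out2) -/
theorem out2 {X : Type} [TopologicalSpace X] (C : TwoCx X) (D : C.RelData) : C.Out2 D :=
  Out2.out2_of C (fun Γ _ => exists_classifying Γ) D

end Crest.Agent.R197
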