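import Mathlib
import Crest.Agent.R197.Defs
import Crest.Agent.R197.CW2Defs

-- ▼ part R197/DualAsph
section

/-! Row 197, F10b: dual functionals give asphericity of a presentation. -/

set_option autoImplicit false

namespace Crest.Agent.R197

namespace DualAsph

section
variable {G : Type} [Group G]

/-- translate the first coordinate -/
noncomputable def tr (X : Type) (g : G) : (G × X →₀ ℤ) →ₗ[ℤ] (G × X →₀ ℤ) :=
  Finsupp.lmapDomain ℤ ℤ (fun p : G × X => (g * p.1, p.2))

theorem tr_single (X : Type) (g h : G) (x : X) (n : ℤ) :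
    tr X g (Finsupp.single (h, x) n) = Finsupp.single (g * h, x) n := by
  simp [tr, Finsupp.mapDomain_single]

theorem tr_one (X : Type) (c : G × X →₀ ℤ) : tr X (1 : G) c = c := by
  have : tr X (1 : G) = LinearMap.id := by
    apply Finsupp.lhom_ext
    rintro ⟨h, x⟩ n
    rw [tr_single, one_mul]; rfl
  rw [this]; rfl

theorem tr_mul (X : Type) (g h : G) (c : G × X →₀ ℤ) :
    tr X (g * h) c = tr X g (tr X h c) := by
  have : tr X (g * h) = (tr X g).comp (tr X h) := by
    apply Finsupp.lhom_ext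
    rintro ⟨k, x⟩ n
    rw [tr_single, LinearMap.comp_apply, tr_single, tr_single, mul_assoc]
  rw [this]; rfl

/-- the action of `G` on `Multiplicative` chains -/
noncomputable def trAut (X : Type) : G →* MulAut (Multiplicative (G × X →₀ ℤ)) where
  toFun g :=
    { toFun := fun m => Multiplicative.ofAdd (tr X g (Multiplicative.toAdd m))
      invFun := fun m => Multiplicative.ofAdd (tr X g⁻¹ (Multiplicative.toAdd m))
      left_inv := by
        intro m
        simp only [toAdd_ofAdd, ← tr_mul, inv_mul_cancel, tr_one, ofAdd_toAdd]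
      right_inv := by
        intro m
        simp only [toAdd_ofAdd, ← tr_mul, mul_inv_cancel, tr_one, ofAdd_toAdd]
      map_mul' := by
        intro a b
        simp only [toAdd_mul, map_add, ofAdd_add] }
  map_one' := by
    ext m
    simp only [MulEquiv.coe_mk, Equiv.coe_fn_mk, MulAut.one_apply, tr_one, ofAdd_toAdd]
  map_mul' := by
    intro a b
    ext m
    simp only [MulEquiv.coe_mk, Equiv.coe_fn_mk, MulAut.mul_apply, tr_mul, toAdd_ofAdd]

/-- Fox chains -/
theorem exists_fox {I : Type} (π : FreeGroup I →* G) :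
    ∃ Φ : FreeGroup I → (G × I →₀ ℤ), (∀ a b, Φ (a * b) = Φ a + tr I (π a) (Φ b)) ∧
      ∀ i, Φ (FreeGroup.of i) = Finsupp.single (1, i) 1 := by
  let f : FreeGroup I →* Multiplicative (G × I →₀ ℤ) ⋊[trAut I] G :=
    FreeGroup.lift (fun i => ⟨Multiplicative.ofAdd (Finsupp.single (1, i) 1), π (FreeGroup.of i)⟩)
  have hf : ∀ w, (f w).right = π w := by
    have : (SemidirectProduct.rightHom).comp f = π := by
      apply FreeGroup.ext_hom
      intro i
      simp [f]
    intro w
    exact DFunLike.congr_fun this w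
  refine ⟨fun w => Multiplicative.toAdd (f w).left, ?_, ?_⟩
  · intro a b
    simp only [map_mul, SemidirectProduct.mul_left, toAdd_mul, hf]
    rfl
  · intro i
    simp [f]

theorem cross_one {I : Type} {A : Type} [AddCommGroup A] (π : FreeGroup I →* G)
    (F : G → FreeGroup I → A) (h : ∀ g a b, F g (a * b) = F g a + F (g * π a) b) (g : G) :
    F g 1 = 0 := by
  have := h g 1 1
  simpa using this

theorem cross_inv {I : Type} {A : Type} [AddCommGroup A] (π : FreeGroup I →* G)
    (F : G → FreeGroup I → A) (h : ∀ g a b, F g (a * b) = F g a + F (g * π a) b) (g : G)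
    (a : FreeGroup I) : F g a⁻¹ = - F (g * (π a)⁻¹) a := by
  have h1 := h (g * (π a)⁻¹) a a⁻¹
  rw [mul_inv_cancel, cross_one π F h, inv_mul_cancel_right] at h1
  exact (neg_eq_of_add_eq_zero_right h1.symm).symm

theorem cross_unique {I : Type} {A : Type} [AddCommGroup A] (π : FreeGroup I →* G)
    (F F' : G → FreeGroup I → A) (h : ∀ g a b, F g (a * b) = F g a + F (g * π a) b)
    (h' : ∀ g a b, F' g (a * b) = F' g a + F' (g * π a) b)
    (hof : ∀ g i, F g (FreeGroup.of i) = F' g (FreeGroup.of i)) (w : FreeGroup I) :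
    ∀ g, F g w = F' g w := by
  induction w using FreeGroup.induction_on with
  | C1 => intro g; rw [cross_one π F h, cross_one π F' h']
  | of i => intro g; exact hof g i
  | inv_of i hi => intro g; rw [cross_inv π F h, cross_inv π F' h', hi]
  | mul a b ha hb => intro g; rw [h, h', ha, hb]

end

end DualAsph

open DualAsph

theorem asph_of_dual {G I R : Type} [Group G] (π : FreeGroup I →* G) (r : R → FreeGroup I)
    (hs : Function.Surjective π) (hk : π.ker = Subgroup.normalClosure (Set.range r))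
    (hdual : ∀ S : Set (G × R), S.Finite → ∀ s₀ ∈ S, ∃ ev : G → FreeGroup I → ℂ,
      (∀ g a b, ev g (a * b) = ev g a + ev (g * π a) b) ∧ ev s₀.1 (r s₀.2) = 1 ∧
      ∀ s ∈ S, s ≠ s₀ → ev s.1 (r s.2) = 0) : AsphericalPresentation G := by
  classical
  obtain ⟨Φ, hΦ, hΦi⟩ := exists_fox π
  have hΦ1 : Φ 1 = 0 := by
    have := hΦ 1 1
    simpa [tr_one] using this
  -- the boundary map on 2-chains
  let D : (G × R →₀ ℤ) →ₗ[ℤ] (G × I →₀ ℤ) :=
    Finsupp.linearCombination ℤ (fun s : G × R => tr I s.1 (Φ (r s.2)))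
  have hD : ∀ s n, D (Finsupp.single s n) = n • tr I s.1 (Φ (r s.2)) := by
    intro s n
    simp only [D, Finsupp.linearCombination_single]
  -- evaluation
  have hev : ∀ ev : G → FreeGroup I → ℂ, (∀ g a b, ev g (a * b) = ev g a + ev (g * π a) b) →
      ∀ w g, Finsupp.linearCombination ℤ (fun p : G × I => ev p.1 (FreeGroup.of p.2))
        (tr I g (Φ w)) = ev g w := by
    intro ev hev w
    apply cross_unique π (fun g w => Finsupp.linearCombination ℤ
      (fun p : G × I => ev p.1 (FreeGroup.of p.2)) (tr I g (Φ w))) ev _ hev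
    · intro g i
      simp only [hΦi, tr_single, Finsupp.linearCombination_single, mul_one, one_smul]
    · intro g a b
      simp only [hΦ, map_add, tr_mul]
  have hDinj : ∀ c, D c = 0 → c = 0 := by
    intro c hc
    by_contra hne
    obtain ⟨s₀, hs₀⟩ := Finsupp.support_nonempty_iff.mpr hne
    obtain ⟨ev, h1, h2, h3⟩ := hdual (c.support : Set (G × R)) (Finset.finite_toSet _) s₀
      (by simpa using hs₀)
    have h4 : Finsupp.linearCombination ℤ (fun p : G × I => ev p.1 (FreeGroup.of p.2)) (D c)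
        = (c s₀ : ℂ) := by
      have hDc : D c = ∑ s ∈ c.support, c s • tr I s.1 (Φ (r s.2)) := by
        simp only [D, Finsupp.linearCombination_apply, Finsupp.sum]
      rw [hDc, map_sum]
      simp only [map_smul]
      rw [Finset.sum_eq_single s₀]
      · rw [hev ev h1, h2]; simp
      · intro s hs hss
        rw [hev ev h1, h3 s (by simpa using hs) hss, smul_zero]
      · intro h
        exact absurd hs₀ h
    rw [hc, map_zero] at h4
    have : c s₀ = 0 := by exact_mod_cast h4.symm
    exact (Finsupp.mem_support_iff.mp hs₀) this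
  have hDtr : ∀ g c, D (tr R g c) = tr I g (D c) := by
    intro g c
    have : D.comp (tr R g) = (tr I g).comp D := by
      apply Finsupp.lhom_ext
      rintro ⟨h, x⟩ n
      rw [LinearMap.comp_apply, LinearMap.comp_apply, tr_single, hD, hD, map_smul, tr_mul]
    exact DFunLike.congr_fun this c
  have hπr : ∀ j, π (r j) = 1 := by
    intro j
    rw [← MonoidHom.mem_ker, hk]
    exact Subgroup.subset_normalClosure ⟨j, rfl⟩
  have hconj : ∀ w a, π a = 1 → Φ (w * a * w⁻¹) = tr I (π w) (Φ a) := by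
    intro w a ha
    have h0 : Φ w + tr I (π w) (Φ w⁻¹) = 0 := by
      rw [← hΦ, mul_inv_cancel, hΦ1]
    rw [hΦ, hΦ, map_mul, ha, mul_one]
    rw [add_right_comm, h0, zero_add]
  -- kernel elements have chains in the range of `D`
  have hker : ∀ k, π k = 1 → ∃ c, D c = Φ k := by
    intro k hk1
    let N : Subgroup (FreeGroup I) :=
      { carrier := {k | π k = 1 ∧ ∃ c, D c = Φ k}
        one_mem' := ⟨map_one _, 0, by rw [map_zero, hΦ1]⟩
        mul_mem' := by
          rintro a b ⟨ha, c, hc⟩ ⟨hb, d, hd⟩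
          refine ⟨by rw [map_mul, ha, hb, one_mul], c + d, ?_⟩
          rw [map_add, hc, hd, hΦ, ha, tr_one]
        inv_mem' := by
          rintro a ⟨ha, c, hc⟩
          refine ⟨by rw [map_inv, ha, inv_one], -c, ?_⟩
          have h0 : Φ a + Φ a⁻¹ = 0 := by
            have := hΦ a a⁻¹
            rw [mul_inv_cancel, hΦ1, ha, tr_one] at this
            exact this.symm
          rw [map_neg, hc]
          exact neg_eq_of_add_eq_zero_right h0 }
    have hN : N.Normal := ⟨by
      rintro a ⟨ha, c, hc⟩ w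
      refine ⟨by rw [map_mul, map_mul, ha, mul_one, map_inv, mul_inv_cancel], tr R (π w) c, ?_⟩
      rw [hDtr, hc, hconj w a ha]⟩
    have hle : Subgroup.normalClosure (Set.range r) ≤ N := by
      apply Subgroup.normalClosure_le_normal
      rintro _ ⟨j, rfl⟩
      exact ⟨hπr j, Finsupp.single (1, j) 1, by rw [hD, one_smul, tr_one]⟩
    exact (hle (hk ▸ (MonoidHom.mem_ker.mpr hk1))).2
  refine ⟨I, R, π, r, hs, hk, ?_⟩
  intro V _ _ v
  let T : (G × R →₀ ℤ) →ₗ[ℤ] V := Finsupp.linearCombination ℤ (fun s : G × R => s.1 • v s.2)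
  have hT : ∀ s n, T (Finsupp.single s n) = n • (s.1 • v s.2) := by
    intro s n
    simp only [T, Finsupp.linearCombination_single]
  have hTtr : ∀ (g : G) c, T (tr R g c) = g • T c := by
    intro g c
    induction c using Finsupp.induction_linear with
    | zero => simp
    | add c d hc hd => rw [map_add, map_add, map_add, hc, hd, smul_add]
    | single s n =>
      obtain ⟨h, x⟩ := s
      rw [tr_single, hT, hT, mul_smul, smul_comm g n]
  let s : FreeGroup I → V := fun w => if h : ∃ c, D c = Φ w then T h.choose else 0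
  have hsT : ∀ w c, D c = Φ w → s w = T c := by
    intro w c hc
    have h : ∃ c, D c = Φ w := ⟨c, hc⟩
    have h' : s w = T h.choose := by simp only [s]; exact dif_pos h
    rw [h']
    congr 1
    have := hDinj (h.choose - c) (by rw [map_sub, h.choose_spec, hc, sub_self])
    exact sub_eq_zero.mp this
  refine ⟨s, ?_, ?_, ?_⟩
  · intro a b ha hb
    obtain ⟨c, hc⟩ := hker a ha
    obtain ⟨d, hd⟩ := hker b hb
    rw [hsT a c hc, hsT b d hd, hsT (a * b) (c + d) (by rw [map_add, hc, hd, hΦ, ha, tr_one]),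
      map_add]
  · intro w a ha
    obtain ⟨c, hc⟩ := hker a ha
    rw [hsT a c hc, hsT (w * a * w⁻¹) (tr R (π w) c) (by rw [hDtr, hc, hconj w a ha]), hTtr]
  · intro j
    rw [hsT (r j) (Finsupp.single (1, j) 1) (by rw [hD, one_smul, tr_one]), hT, one_smul, one_smul]

end Crest.Agent.R197
end

-- ▼ part R197/OutsPres

/-! Row 197, F10a: from the three topological outputs to an aspherical presentation. -/

set_option autoImplicit false

open scoped unitInterval

namespace Crest.Agent.R197

noncomputable section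

namespace OutsPres

/-! ### crossed homomorphisms on free groups -/
section crossed
variable {G Idx : Type} [Group G]

/-- right translation action of `G` on functions `G → ℂ` -/
def rtr : G →* MulAut (Multiplicative (G → ℂ)) where
  toFun g :=
    { toFun := fun f => Multiplicative.ofAdd (fun h => f.toAdd (h * g))
      invFun := fun f => Multiplicative.ofAdd (fun h => f.toAdd (h * g⁻¹))
      left_inv := fun f => by ext h; simp
      right_inv := fun f => by ext h; simp
      map_mul' := fun f f' => by ext h; simp }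
  map_one' := by ext f h; simp
  map_mul' a b := by ext f h; simp [mul_assoc]

theorem rtr_apply (g : G) (f : Multiplicative (G → ℂ)) (h : G) :
    (rtr g f).toAdd h = f.toAdd (h * g) := rfl

variable (π : FreeGroup Idx →* G) (a : G → Idx → ℂ)

def evHom : FreeGroup Idx →* Multiplicative (G → ℂ) ⋊[rtr] G :=
  FreeGroup.lift (fun i => ⟨Multiplicative.ofAdd (fun g => a g i), π (FreeGroup.of i)⟩)

theorem evHom_right (w : FreeGroup Idx) : (evHom π a w).right = π w := by
  have : SemidirectProduct.rightHom.comp (evHom π a) = π := by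
    apply FreeGroup.ext_hom
    intro i
    simp [evHom]
  exact DFunLike.congr_fun this w

/-- crossed homomorphism with prescribed values on generators -/
def ev (g : G) (w : FreeGroup Idx) : ℂ := (evHom π a w).left.toAdd g

theorem ev_of (g : G) (i : Idx) : ev π a g (FreeGroup.of i) = a g i := by
  simp [ev, evHom]

theorem ev_mul (g : G) (x y : FreeGroup Idx) :
    ev π a g (x * y) = ev π a g x + ev π a (g * π x) y := by
  simp only [ev, map_mul, SemidirectProduct.mul_left, toAdd_mul, Pi.add_apply, rtr_apply,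
    evHom_right]

theorem ev_one (g : G) : ev π a g 1 = 0 := by
  have h := ev_mul π a g 1 1
  simp only [mul_one, map_one] at h
  simpa using h

theorem ev_inv (g : G) (x : FreeGroup Idx) : ev π a g x⁻¹ = - ev π a (g * (π x)⁻¹) x := by
  have h := ev_mul π a g x⁻¹ x
  rw [inv_mul_cancel, ev_one, map_inv] at h
  exact eq_neg_of_add_eq_zero_left h.symm

end crossed

variable {X : Type} [TopologicalSpace X] (C : TwoCx X)

/-! ### API for `Rep` and `wordOf` -/

theorem wordOf_append (w w' : C.Wd) : C.wordOf (w ++ w') = C.wordOf w * C.wordOf w' := by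
  induction w with
  | nil => simp [TwoCx.wordOf]
  | cons l w ih =>
    obtain ⟨i, b⟩ := l
    cases b <;> simp [TwoCx.wordOf, ih, mul_assoc]

variable {C}

theorem rep_append {o o' o'' : C.O} {w w' : C.Wd} {γ : Path.Homotopic.Quotient (C.v1 o) (C.v1 o')}
    {γ' : Path.Homotopic.Quotient (C.v1 o') (C.v1 o'')} (h : C.Rep o o' w γ) (h' : C.Rep o' o'' w' γ') :
    C.Rep o o'' (w ++ w') (γ.trans γ') := by
  induction h with
  | nil o => simpa using h'
  | fwd i o' w γ h ih =>
    rw [Path.Homotopic.Quotient.trans_assoc]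
    exact TwoCx.Rep.fwd i _ _ _ (ih h')
  | bwd i o' w γ h ih =>
    rw [Path.Homotopic.Quotient.trans_assoc]
    exact TwoCx.Rep.bwd i _ _ _ (ih h')

theorem q_symm_trans {a b c : X} (γ : Path.Homotopic.Quotient a b) (δ : Path.Homotopic.Quotient b c) :
    (γ.trans δ).symm = δ.symm.trans γ.symm := by
  have h : (γ.trans δ).symm.trans (γ.trans δ) = Path.Homotopic.Quotient.refl c := Path.Homotopic.Quotient.symm_trans _
  calc (γ.trans δ).symm = (γ.trans δ).symm.trans ((γ.trans δ).trans (δ.symm.trans γ.symm)) := by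
        rw [Path.Homotopic.Quotient.trans_assoc, ← Path.Homotopic.Quotient.trans_assoc δ, Path.Homotopic.Quotient.trans_symm,
          Path.Homotopic.Quotient.refl_trans, Path.Homotopic.Quotient.trans_symm, Path.Homotopic.Quotient.trans_refl]
    _ = δ.symm.trans γ.symm := by rw [← Path.Homotopic.Quotient.trans_assoc, h, Path.Homotopic.Quotient.refl_trans]

theorem q_symm_symm {a b : X} (γ : Path.Homotopic.Quotient a b) : γ.symm.symm = γ := by
  calc γ.symm.symm = γ.symm.symm.trans (γ.symm.trans γ) := by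
        rw [Path.Homotopic.Quotient.symm_trans, Path.Homotopic.Quotient.trans_refl]
    _ = γ := by rw [← Path.Homotopic.Quotient.trans_assoc, Path.Homotopic.Quotient.symm_trans, Path.Homotopic.Quotient.refl_trans]

theorem q_symm_refl (a : X) : (Path.Homotopic.Quotient.refl a).symm = Path.Homotopic.Quotient.refl a := by
  calc (Path.Homotopic.Quotient.refl a).symm = (Path.Homotopic.Quotient.refl a).symm.trans (Path.Homotopic.Quotient.refl a) := by
        rw [Path.Homotopic.Quotient.trans_refl]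
    _ = _ := Path.Homotopic.Quotient.symm_trans _

theorem exists_rep_symm {o o' : C.O} {w : C.Wd} {γ : Path.Homotopic.Quotient (C.v1 o) (C.v1 o')}
    (h : C.Rep o o' w γ) : ∃ w' : C.Wd, C.Rep o' o w' γ.symm ∧ C.wordOf w' = (C.wordOf w)⁻¹ := by
  induction h with
  | nil o => exact ⟨[], by rw [q_symm_refl]; exact TwoCx.Rep.nil o, by simp [TwoCx.wordOf]⟩
  | fwd i o' w γ h ih =>
    obtain ⟨w', h1, h2⟩ := ih
    have h3 := TwoCx.Rep.bwd (C := C) i _ _ _ (TwoCx.Rep.nil (C.src i))
    refine ⟨w' ++ [(i, false)], ?_, ?_⟩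
    · rw [q_symm_trans]
      have h4 := rep_append h1 h3
      rwa [Path.Homotopic.Quotient.trans_refl] at h4
    · rw [wordOf_append, h2]
      simp [TwoCx.wordOf]
  | bwd i o' w γ h ih =>
    obtain ⟨w', h1, h2⟩ := ih
    have h3 := TwoCx.Rep.fwd (C := C) i _ _ _ (TwoCx.Rep.nil (C.tgt i))
    refine ⟨w' ++ [(i, true)], ?_, ?_⟩
    · rw [q_symm_trans, q_symm_symm]
      have h4 := rep_append h1 h3
      rwa [Path.Homotopic.Quotient.trans_refl] at h4
    · rw [wordOf_append, h2]
      simp [TwoCx.wordOf]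

theorem q_map_trans {Y Z : Type*} [TopologicalSpace Y] [TopologicalSpace Z] (f : C(Y, Z))
    {a b c : Y} (γ : Path.Homotopic.Quotient a b) (δ : Path.Homotopic.Quotient b c) :
    (γ.trans δ).map f = (γ.map f).trans (δ.map f) := by
  induction γ using Path.Homotopic.Quotient.ind with | mk γ =>
  induction δ using Path.Homotopic.Quotient.ind with | mk δ =>
  rw [← Path.Homotopic.Quotient.mk_trans, ← Path.Homotopic.Quotient.mk_map, ← Path.Homotopic.Quotient.mk_map, ← Path.Homotopic.Quotient.mk_map,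
    ← Path.Homotopic.Quotient.mk_trans, Path.map_trans]

theorem q_map_symm {Y Z : Type*} [TopologicalSpace Y] [TopologicalSpace Z] (f : C(Y, Z))
    {a b : Y} (γ : Path.Homotopic.Quotient a b) :
    (γ.symm).map f = (γ.map f).symm := by
  induction γ using Path.Homotopic.Quotient.ind with | mk γ =>
  rw [← Path.Homotopic.Quotient.mk_symm, ← Path.Homotopic.Quotient.mk_map, ← Path.Homotopic.Quotient.mk_map, ← Path.Homotopic.Quotient.mk_symm, Path.map_symm]

theorem q_map_refl {Y Z : Type*} [TopologicalSpace Y] [TopologicalSpace Z] (f : C(Y, Z))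
    (a : Y) : (Path.Homotopic.Quotient.refl a).map f = Path.Homotopic.Quotient.refl (f a) := by
  rw [← Path.Homotopic.Quotient.mk_refl, ← Path.Homotopic.Quotient.mk_map, ← Path.Homotopic.Quotient.mk_refl]
  rfl

theorem map_e1 (i : C.E) : (Path.Homotopic.Quotient.mk (C.e1 i)).map C.incl = Path.Homotopic.Quotient.mk (C.eX i) := by
  rw [← Path.Homotopic.Quotient.mk_map]
  rfl

/-! ### groupoid identities -/

theorem q_cancel1 {a b c : X} (γ : Path.Homotopic.Quotient a b) (δ : Path.Homotopic.Quotient b c) :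
    γ.symm.trans (γ.trans δ) = δ := by
  rw [← Path.Homotopic.Quotient.trans_assoc, Path.Homotopic.Quotient.symm_trans,
    Path.Homotopic.Quotient.refl_trans]


/-- the boundary loop of a two-cell is null-homotopic in `X` -/
theorem bd_null (j : C.J) :
    (Path.Homotopic.Quotient.mk (C.bd1 j)).map C.incl =
      Path.Homotopic.Quotient.refl (C.incl (C.c1 j)) := by
  have : ContractibleSpace I := (convex_Icc (0 : ℝ) 1).contractibleSpace ⟨0, by simp⟩
  have h : (TwoCx.bdSq).Homotopic (Path.refl _) := SimplyConnectedSpace.paths_homotopic _ _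
  have h2 := h.map (C.f j)
  have h3 := Path.Homotopic.Quotient.eq.mpr h2
  exact h3

theorem rep_null (D : C.RelData) (j : C.J) :
    (Path.Homotopic.Quotient.mk (((D.τ j).trans (C.bd1 j)).trans (D.τ j).symm)).map C.incl =
      Path.Homotopic.Quotient.refl (C.incl (C.v1 (D.bo j))) := by
  rw [Path.Homotopic.Quotient.mk_trans, Path.Homotopic.Quotient.mk_trans, q_map_trans, q_map_trans,
    bd_null, Path.Homotopic.Quotient.mk_symm, q_map_symm, Path.Homotopic.Quotient.trans_refl,
    Path.Homotopic.Quotient.trans_symm]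

/-! ### mapping classes of the one-skeleton to `X` -/

/-- image in `X` of a class of paths in the 1-skeleton between vertices -/
def mp {o o' : C.O} (γ : Path.Homotopic.Quotient (C.v1 o) (C.v1 o')) :
    Path.Homotopic.Quotient (C.v o) (C.v o') := γ.map C.incl

/-- class of an edge -/
def ce (i : C.E) : Path.Homotopic.Quotient (C.v (C.src i)) (C.v (C.tgt i)) :=
  Path.Homotopic.Quotient.mk (C.eX i)

theorem mp_refl (o : C.O) :
    mp (Path.Homotopic.Quotient.refl (C.v1 o)) = Path.Homotopic.Quotient.refl (C.v o) :=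
  q_map_refl C.incl (C.v1 o)

theorem mp_trans {o o' o'' : C.O} (γ : Path.Homotopic.Quotient (C.v1 o) (C.v1 o'))
    (δ : Path.Homotopic.Quotient (C.v1 o') (C.v1 o'')) : mp (γ.trans δ) = (mp γ).trans (mp δ) :=
  q_map_trans C.incl γ δ

theorem mp_symm {o o' : C.O} (γ : Path.Homotopic.Quotient (C.v1 o) (C.v1 o')) :
    mp γ.symm = (mp γ).symm :=
  q_map_symm C.incl γ

theorem mp_e1 (i : C.E) : mp (Path.Homotopic.Quotient.mk (C.e1 i)) = ce i := map_e1 i

/-! ### choice of edge words for all vertices -/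

structure Tree (C : TwoCx X) (o₀ : C.O) where
  t : C.O → C.Wd
  γ : ∀ u, Path.Homotopic.Quotient (C.v1 o₀) (C.v1 u)
  rep : ∀ u, C.Rep o₀ u (t u) (γ u)
  t₀ : t o₀ = []
  γ₀ : γ o₀ = Path.Homotopic.Quotient.refl _

theorem exists_tree [PathConnectedSpace X] (o₀ : C.O) (h1 : C.Out1) : Nonempty (Tree C o₀) := by
  have h : ∀ u, ∃ (w : C.Wd) (γ : Path.Homotopic.Quotient (C.v1 o₀) (C.v1 u)),
      C.Rep o₀ u w γ ∧ (u = o₀ → w = []) := by
    intro u
    by_cases hu : u = o₀
    · subst hu
      exact ⟨[], _, TwoCx.Rep.nil u, fun _ => rfl⟩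
    · obtain ⟨w, γ, h2, -⟩ := h1 o₀ u
        (Path.Homotopic.Quotient.mk (PathConnectedSpace.somePath _ _))
      exact ⟨w, γ, h2, fun h => absurd h hu⟩
  choose t γ h2 h3 using h
  refine ⟨⟨t, γ, h2, h3 o₀ rfl, ?_⟩⟩
  have h4 := h2 o₀
  rw [h3 o₀ rfl] at h4
  generalize γ o₀ = δ at h4
  cases h4
  rfl

namespace Tree
variable {o₀ : C.O} (T : Tree C o₀)

/-- classes in `X` -/
def c (u : C.O) : Path.Homotopic.Quotient (C.v o₀) (C.v u) := mp (T.γ u)

theorem c₀ : T.c o₀ = Path.Homotopic.Quotient.refl _ := by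
  unfold c
  rw [T.γ₀, mp_refl]

/-- the loop corresponding to a path -/
def lp {o o' : C.O} (γ : Path.Homotopic.Quotient (C.v o) (C.v o')) :
    FundamentalGroup X (C.v o₀) := ((T.c o).trans (γ.trans (T.c o').symm)).symm

theorem lp_refl (o : C.O) : T.lp (Path.Homotopic.Quotient.refl (C.v o)) = 1 := by
  unfold lp
  rw [Path.Homotopic.Quotient.refl_trans, Path.Homotopic.Quotient.trans_symm, q_symm_refl]
  rfl

theorem lp_trans {o o' o'' : C.O} (γ : Path.Homotopic.Quotient (C.v o) (C.v o'))
    (δ : Path.Homotopic.Quotient (C.v o') (C.v o'')) :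
    T.lp (γ.trans δ) = T.lp γ * T.lp δ := by
  rw [FundamentalGroup.mul_def]
  unfold lp
  rw [← q_symm_trans]
  simp only [Path.Homotopic.Quotient.trans_assoc, q_cancel1]

theorem lp_symm {o o' : C.O} (γ : Path.Homotopic.Quotient (C.v o) (C.v o')) :
    T.lp γ.symm = (T.lp γ)⁻¹ := by
  have h := T.lp_trans γ.symm γ
  rw [Path.Homotopic.Quotient.symm_trans, lp_refl] at h
  exact (inv_eq_of_mul_eq_one_left h.symm).symm

theorem lp_inj {o o' : C.O} {γ δ : Path.Homotopic.Quotient (C.v o) (C.v o')}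
    (h : T.lp γ = T.lp δ) : γ = δ := by
  unfold lp at h
  have h2 : (T.c o).trans (γ.trans (T.c o').symm) = (T.c o).trans (δ.trans (T.c o').symm) := by
    rw [← q_symm_symm ((T.c o).trans (γ.trans (T.c o').symm)), h, q_symm_symm]
  have h3 := congrArg (fun z => (T.c o).symm.trans (z.trans (T.c o'))) h2
  simpa only [Path.Homotopic.Quotient.trans_assoc, q_cancel1,
    Path.Homotopic.Quotient.symm_trans, Path.Homotopic.Quotient.trans_refl] using h3

theorem lp_loop (γ : FundamentalGroup X (C.v o₀)) :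
    T.lp (o := o₀) (o' := o₀) (FundamentalGroup.toPath γ).symm = γ := by
  unfold lp
  rw [c₀, q_symm_refl, Path.Homotopic.Quotient.trans_refl, Path.Homotopic.Quotient.refl_trans,
    q_symm_symm]

theorem lp_c (u : C.O) : T.lp (T.c u) = 1 := by
  unfold lp
  rw [c₀, Path.Homotopic.Quotient.trans_symm, Path.Homotopic.Quotient.trans_refl, q_symm_refl]
  rfl

/-- the homomorphism of the presentation (inverted because of the conventions in Mathlib) -/
noncomputable def π : FreeGroup C.E →* FundamentalGroup X (C.v o₀) :=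
  FreeGroup.lift (fun i => T.lp (ce i))

theorem π_of (i : C.E) : T.π (FreeGroup.of i) = T.lp (ce i) := by
  simp only [π, FreeGroup.lift_apply_of]

theorem π_rep {o o' : C.O} {w : C.Wd} {γ : Path.Homotopic.Quotient (C.v1 o) (C.v1 o')}
    (h : C.Rep o o' w γ) : T.π (C.wordOf w) = T.lp (mp γ) := by
  induction h with
  | nil o => rw [TwoCx.wordOf, map_one, mp_refl, lp_refl]
  | fwd i o' w γ h ih =>
    rw [TwoCx.wordOf, map_mul, ih, π_of, mp_trans, mp_e1, lp_trans]
  | bwd i o' w γ h ih =>
    rw [TwoCx.wordOf, map_mul, ih, map_inv, π_of, mp_trans, mp_symm, mp_e1, lp_trans, lp_symm]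

theorem π_t (u : C.O) : T.π (C.wordOf (T.t u)) = 1 := by
  rw [T.π_rep (T.rep u)]
  exact T.lp_c u

theorem π_w (D : C.RelData) (j : C.J) : T.π (C.wordOf (D.w j)) = 1 := by
  rw [T.π_rep (D.rep j), ← T.lp_refl (D.bo j)]
  congr 1
  exact rep_null D j

theorem π_surj (h1 : C.Out1) : Function.Surjective T.π := by
  intro g
  obtain ⟨w, γ, h2, h3⟩ := h1 o₀ o₀ (FundamentalGroup.toPath g).symm
  refine ⟨C.wordOf w, ?_⟩
  rw [T.π_rep h2]
  have h4 : mp γ = (FundamentalGroup.toPath g).symm := h3
  rw [h4, lp_loop]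

/-- the relators -/
def r (D : C.RelData) : C.J ⊕ {u : C.O // u ≠ o₀} → FreeGroup C.E
  | Sum.inl j => C.wordOf (D.w j)
  | Sum.inr u => C.wordOf (T.t u)

theorem r_ker (D : C.RelData) (z : C.J ⊕ {u : C.O // u ≠ o₀}) : T.π (T.r D z) = 1 := by
  rcases z with j | u
  · exact T.π_w D j
  · exact T.π_t u

theorem exists_edge_loop {Γ : Type} [Group Γ] (ψ : FreeGroup C.E →* Γ)
    (hψ : ∀ u, ψ (C.wordOf (T.t u)) = 1) (x : FreeGroup C.E) :
    ∃ (w : C.Wd) (γ : Path.Homotopic.Quotient (C.v1 o₀) (C.v1 o₀)), C.Rep o₀ o₀ w γ ∧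
      ψ (C.wordOf w) = ψ x ∧ T.lp (mp γ) = T.π x := by
  induction x using FreeGroup.induction_on with
  | C1 =>
    exact ⟨[], _, TwoCx.Rep.nil o₀, rfl, by rw [mp_refl, lp_refl, map_one]⟩
  | of i =>
    obtain ⟨w', h1, h2⟩ := exists_rep_symm (T.rep (C.tgt i))
    have h3 := rep_append (T.rep (C.src i)) (TwoCx.Rep.fwd i _ _ _ h1)
    refine ⟨_, _, h3, ?_, ?_⟩
    · rw [wordOf_append, TwoCx.wordOf, h2]
      simp [hψ]
    · rw [mp_trans, mp_trans, mp_symm, mp_e1, lp_trans, lp_trans, lp_symm]
      have h4 := T.lp_c (C.src i)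
      have h5 := T.lp_c (C.tgt i)
      unfold c at h4 h5
      rw [h4, h5, π_of, inv_one, mul_one, one_mul]
  | inv_of i ih =>
    obtain ⟨w, γ, h1, h2, h3⟩ := ih
    obtain ⟨w', h4, h5⟩ := exists_rep_symm h1
    refine ⟨w', _, h4, ?_, ?_⟩
    · rw [h5, map_inv, h2, map_inv]
    · rw [mp_symm, lp_symm, h3, map_inv]
  | mul x y ihx ihy =>
    obtain ⟨w, γ, h1, h2, h3⟩ := ihx
    obtain ⟨w', γ', h1', h2', h3'⟩ := ihy
    refine ⟨_, _, rep_append h1 h1', ?_, ?_⟩
    · rw [wordOf_append, map_mul, map_mul, h2, h2']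
    · rw [mp_trans, lp_trans, h3, h3', map_mul]

theorem ker_eq (D : C.RelData) (h2 : C.Out2 D) :
    T.π.ker = Subgroup.normalClosure (Set.range (T.r D)) := by
  apply le_antisymm
  · intro x hx
    have hx : T.π x = 1 := hx
    let N := Subgroup.normalClosure (Set.range (T.r D))
    let ψ : FreeGroup C.E →* FreeGroup C.E ⧸ N := QuotientGroup.mk' N
    have hψr : ∀ z, ψ (T.r D z) = 1 := fun z =>
      (QuotientGroup.eq_one_iff _).mpr (Subgroup.subset_normalClosure ⟨z, rfl⟩)
    have hψt : ∀ u, ψ (C.wordOf (T.t u)) = 1 := by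
      intro u
      by_cases hu : u = o₀
      · rw [hu, T.t₀]
        exact map_one ψ
      · exact hψr (Sum.inr ⟨u, hu⟩)
    obtain ⟨w, γ, h3, h4, h5⟩ := T.exists_edge_loop ψ hψt x
    have h6 : mp γ = Path.Homotopic.Quotient.refl _ := by
      apply T.lp_inj
      rw [h5, hx, lp_refl]
    have h7 := h2 _ ψ (fun j => hψr (Sum.inl j)) o₀ w γ h3 h6
    rw [h4] at h7
    exact (QuotientGroup.eq_one_iff x).mp h7
  · apply Subgroup.normalClosure_le_normal
    rintro _ ⟨z, rfl⟩
    exact T.r_ker D z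

/-! ### dual functionals -/

/-- translate of the tree path to `u` by `g` -/
def tr (g : FundamentalGroup X (C.v o₀)) (u : C.O) : Path.Homotopic.Quotient (C.v o₀) (C.v u) :=
  (FundamentalGroup.toPath g).symm.trans (T.c u)

theorem tr_lp (g : FundamentalGroup X (C.v o₀)) {o o' : C.O}
    (γ : Path.Homotopic.Quotient (C.v o) (C.v o')) :
    T.tr (g * T.lp γ) o' = (T.tr g o).trans γ := by
  unfold tr
  rw [FundamentalGroup.mul_def]
  unfold lp
  delta FundamentalGroup.toPath
  simp only [FundamentalGroup.toArrow]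
  rw [q_symm_trans, q_symm_symm]
  simp only [Path.Homotopic.Quotient.trans_assoc, Path.Homotopic.Quotient.symm_trans,
    Path.Homotopic.Quotient.trans_refl]

theorem tr_inj {g g' : FundamentalGroup X (C.v o₀)} {u : C.O} (h : T.tr g u = T.tr g' u) :
    g = g' := by
  unfold tr at h
  have h2 := congrArg (fun z => (z.trans (T.c u).symm).symm) h
  simpa only [Path.Homotopic.Quotient.trans_assoc, Path.Homotopic.Quotient.trans_symm,
    Path.Homotopic.Quotient.trans_refl, q_symm_symm] using h2

/-- the element moving the tree path to a given path -/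
def el {u : C.O} (d : Path.Homotopic.Quotient (C.v o₀) (C.v u)) : FundamentalGroup X (C.v o₀) :=
  (d.trans (T.c u).symm).symm

theorem el_tr (g : FundamentalGroup X (C.v o₀)) (u : C.O) : T.el (T.tr g u) = g := by
  unfold el tr
  rw [Path.Homotopic.Quotient.trans_assoc, Path.Homotopic.Quotient.trans_symm,
    Path.Homotopic.Quotient.trans_refl, q_symm_symm]

section functionals
variable (κ : ∀ i : C.E, Path.Homotopic.Quotient (C.v o₀) (C.v (C.src i)) → ℂ)

/-- crossed homomorphism defined by a cochain -/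
def evk (g : FundamentalGroup X (C.v o₀)) (x : FreeGroup C.E) : ℂ :=
  ev T.π (fun g i => κ i (T.tr g (C.src i))) g x

theorem evk_Ev {o : C.O} {d : Path.Homotopic.Quotient (C.v o₀) (C.v o)} {w : C.Wd} {z : ℂ}
    (h : C.Ev o₀ κ o d w z) : ∀ g : FundamentalGroup X (C.v o₀), d = T.tr g o →
    T.evk κ g (C.wordOf w) = z := by
  induction h with
  | nil o c => intro g _; exact ev_one _ _ _
  | fwd i c w z h ih =>
    intro g hg
    unfold evk at ih ⊢
    rw [TwoCx.wordOf, ev_mul, ev_of, ih, ← hg]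
    rw [hg, π_of, tr_lp]
    rfl
  | bwd i c w z h ih =>
    intro g hg
    unfold evk at ih ⊢
    have h1 : T.tr (g * T.π (FreeGroup.of i)⁻¹) (C.src i) = c.trans (ce i).symm := by
      rw [map_inv, π_of, ← lp_symm, tr_lp, hg]
    rw [TwoCx.wordOf, ev_mul, ev_inv, ev_of, ih _ (by rw [h1]; rfl), ← map_inv, h1]
    rfl

end functionals

/-- coboundary of a vertex cochain -/
def dχ (χ : ∀ u : C.O, Path.Homotopic.Quotient (C.v o₀) (C.v u) → ℂ) :
    ∀ i : C.E, Path.Homotopic.Quotient (C.v o₀) (C.v (C.src i)) → ℂ :=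
  fun i d => χ (C.tgt i) (d.trans (ce i)) - χ (C.src i) d

theorem evk_dχ (χ : ∀ u : C.O, Path.Homotopic.Quotient (C.v o₀) (C.v u) → ℂ) {o o' : C.O}
    {w : C.Wd} {γ : Path.Homotopic.Quotient (C.v1 o) (C.v1 o')} (h : C.Rep o o' w γ) :
    ∀ g : FundamentalGroup X (C.v o₀), T.evk (dχ χ) g (C.wordOf w) =
      χ o' ((T.tr g o).trans (mp γ)) - χ o (T.tr g o) := by
  induction h with
  | nil o =>
    intro g
    rw [mp_refl, Path.Homotopic.Quotient.trans_refl, sub_self]
    exact ev_one _ _ _
  | fwd i o' w γ h ih =>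
    intro g
    unfold evk at ih ⊢
    rw [TwoCx.wordOf, ev_mul, ev_of, ih, π_of, tr_lp, mp_trans, mp_e1, dχ,
      Path.Homotopic.Quotient.trans_assoc]
    ring
  | bwd i o' w γ h ih =>
    intro g
    unfold evk at ih ⊢
    have h1 : T.tr (g * T.π (FreeGroup.of i)⁻¹) (C.src i) = (T.tr g (C.tgt i)).trans (ce i).symm := by
      rw [map_inv, π_of, ← lp_symm, tr_lp]
    rw [TwoCx.wordOf, ev_mul, ev_inv, ev_of, ih, ← map_inv, h1, mp_trans, mp_symm, mp_e1, dχ,
      Path.Homotopic.Quotient.trans_assoc, Path.Homotopic.Quotient.trans_assoc,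
      Path.Homotopic.Quotient.symm_trans, Path.Homotopic.Quotient.trans_refl]
    ring

theorem evk_mul (κ : ∀ i : C.E, Path.Homotopic.Quotient (C.v o₀) (C.v (C.src i)) → ℂ)
    (g : FundamentalGroup X (C.v o₀)) (x y : FreeGroup C.E) :
    T.evk κ g (x * y) = T.evk κ g x + T.evk κ (g * T.π x) y := ev_mul _ _ _ _ _

theorem dual (D : C.RelData) (h3 : C.Out3 D o₀)
    (S : Set (FundamentalGroup X (C.v o₀) × (C.J ⊕ {u : C.O // u ≠ o₀}))) (hS : S.Finite)
    (s₀ : FundamentalGroup X (C.v o₀) × (C.J ⊕ {u : C.O // u ≠ o₀})) (hs₀ : s₀ ∈ S) :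
    ∃ ev : FundamentalGroup X (C.v o₀) → FreeGroup C.E → ℂ,
      (∀ g a b, ev g (a * b) = ev g a + ev (g * T.π a) b) ∧ ev s₀.1 (T.r D s₀.2) = 1 ∧
      ∀ s ∈ S, s ≠ s₀ → ev s.1 (T.r D s.2) = 0 := by
  classical
  obtain ⟨g₀, j₀ | ⟨u₀, hu₀⟩⟩ := s₀
  · -- a two-cell
    let S' : Set (Σ j : C.J, Path.Homotopic.Quotient (C.v o₀) (C.v (D.bo j))) :=
      {z | ∃ g, (g, Sum.inl z.1) ∈ S ∧ z.2 = T.tr g (D.bo z.1)}
    have hS' : S'.Finite := by
      apply (hS.image (fun s : FundamentalGroup X (C.v o₀) × (C.J ⊕ {u : C.O // u ≠ o₀}) =>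
        match s with
        | (g, Sum.inl j) => (⟨j, T.tr g (D.bo j)⟩ :
            Σ j : C.J, Path.Homotopic.Quotient (C.v o₀) (C.v (D.bo j)))
        | (g, Sum.inr u) => ⟨j₀, T.tr g (D.bo j₀)⟩)).subset
      rintro ⟨j, d⟩ ⟨g, hg, hd⟩
      refine ⟨(g, Sum.inl j), hg, ?_⟩
      simp only at hd ⊢
      rw [hd]
    obtain ⟨κ, hk1, hk2⟩ := h3 S' hS' ⟨j₀, T.tr g₀ (D.bo j₀)⟩ ⟨g₀, hs₀, rfl⟩
    let χ : ∀ u : C.O, Path.Homotopic.Quotient (C.v o₀) (C.v u) → ℂ :=
      fun u d => T.evk κ (T.el d) (C.wordOf (T.t u))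
    have hχ : ∀ g u, χ u (T.tr g u) = T.evk κ g (C.wordOf (T.t u)) := by
      intro g u
      simp only [χ, el_tr]
    have hj : ∀ g j, T.evk (dχ χ) g (C.wordOf (D.w j)) = 0 := by
      intro g j
      rw [T.evk_dχ χ (D.rep j)]
      have h : mp (Path.Homotopic.Quotient.mk (((D.τ j).trans (C.bd1 j)).trans (D.τ j).symm)) =
        Path.Homotopic.Quotient.refl _ := rep_null D j
      rw [h, Path.Homotopic.Quotient.trans_refl, sub_self]
    have hu : ∀ g u, T.evk (dχ χ) g (C.wordOf (T.t u)) = T.evk κ g (C.wordOf (T.t u)) := by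
      intro g u
      rw [T.evk_dχ χ (T.rep u)]
      have h : (T.tr g o₀).trans (mp (T.γ u)) = T.tr g u := by
        unfold tr
        rw [c₀, Path.Homotopic.Quotient.trans_refl]
        rfl
      rw [h, hχ, hχ, T.t₀]
      have h0 : T.evk κ g (C.wordOf []) = 0 := ev_one _ _ _
      rw [h0, sub_zero]
    refine ⟨fun g x => T.evk κ g x - T.evk (dχ χ) g x, ?_, ?_, ?_⟩
    · intro g a b
      simp only [evk_mul]
      ring
    · simp only [r]
      rw [hj, T.evk_Ev κ hk1 g₀ rfl, sub_zero]
    · rintro ⟨g, j | u⟩ hs hne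
      · simp only [r]
        rw [hj, sub_zero]
        apply T.evk_Ev κ (hk2 ⟨j, T.tr g (D.bo j)⟩ ⟨g, hs, rfl⟩ ?_) g rfl
        intro h
        apply hne
        have h1 : j = j₀ := congrArg Sigma.fst h
        subst h1
        simp only [Sigma.mk.injEq, heq_eq_eq, true_and] at h
        rw [T.tr_inj h]
      · simp only [r]
        rw [hu, sub_self]
  · -- a vertex
    let χ : ∀ u : C.O, Path.Homotopic.Quotient (C.v o₀) (C.v u) → ℂ :=
      fun u d => if (⟨u, d⟩ : Σ u : C.O, Path.Homotopic.Quotient (C.v o₀) (C.v u)) =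
        ⟨u₀, T.tr g₀ u₀⟩ then 1 else 0
    have key : ∀ g u, T.evk (dχ χ) g (C.wordOf (T.t u)) =
        if (⟨u, T.tr g u⟩ : Σ u : C.O, Path.Homotopic.Quotient (C.v o₀) (C.v u)) =
          ⟨u₀, T.tr g₀ u₀⟩ then 1 else 0 := by
      intro g u
      rw [T.evk_dχ χ (T.rep u)]
      have h : (T.tr g o₀).trans (mp (T.γ u)) = T.tr g u := by
        unfold tr
        rw [c₀, Path.Homotopic.Quotient.trans_refl]
        rfl
      have h0 : χ o₀ (T.tr g o₀) = 0 := by
        apply if_neg
        intro h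
        exact hu₀ (congrArg Sigma.fst h).symm
      rw [h, h0, sub_zero]
    refine ⟨fun g x => T.evk (dχ χ) g x, fun g a b => T.evk_mul _ _ _ _, ?_, ?_⟩
    · simp only [r]
      rw [key, if_pos rfl]
    · rintro ⟨g, j | u⟩ hs hne
      · simp only [r]
        rw [T.evk_dχ χ (D.rep j)]
        have h : mp (Path.Homotopic.Quotient.mk (((D.τ j).trans (C.bd1 j)).trans (D.τ j).symm)) =
          Path.Homotopic.Quotient.refl _ := rep_null D j
        rw [h, Path.Homotopic.Quotient.trans_refl, sub_self]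
      · simp only [r]
        rw [key]
        apply if_neg
        intro h
        apply hne
        have h1 : u.1 = u₀ := congrArg Sigma.fst h
        obtain ⟨u, hu⟩ := u
        simp only at h1
        subst h1
        simp only [Sigma.mk.injEq, heq_eq_eq, true_and] at h
        rw [T.tr_inj h]

end Tree

end OutsPres

end

/-- F10a: the three topological outputs give an aspherical presentation of the fundamental group. -/
theorem asph_of_outs {X : Type} [TopologicalSpace X] [PathConnectedSpace X] (C : TwoCx X)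
    (D : C.RelData) (o₀ : C.O) (h1 : C.Out1) (h2 : C.Out2 D) (h3 : C.Out3 D o₀) :
    AsphericalPresentation (FundamentalGroup X (C.v o₀)) := by
  obtain ⟨T⟩ := OutsPres.exists_tree o₀ h1
  exact asph_of_dual T.π (T.r D) (T.π_surj h1) (T.ker_eq D h2) (T.dual D h3)

end Crest.Agent.R197
private theorem rz_7ef98c4489 : type_of% @_root_.Crest.Agent.R197.OutsPres.Tree.r.eq_1 := @_root_.Crest.Agent.R197.OutsPres.Tree.r.eq_1 -- L327
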