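import Mathlib
import Crest.Prelude.Def_ClassifyingComplex
import Crest.Agent.R197.Defs
import Crest.Agent.R197.CW2Defs
import Crest.Agent.R197.OutThree
import Crest.Agent.R197.OutThreeW
import Crest.Agent.R197.OutTwo_Mg
import Crest.Agent.R197.EdgePath
import Crest.Agent.R197.OutsPres
import Crest.Agent.R197.Flat
import Crest.Agent.R197.Coind
import Crest.Agent.R197.CdShift_Mg
import Crest.Agent.R197.NPres
import Crest.Agent.R197.NDefs
import Crest.Agent.R197.E3CoverAbs
import Crest.Agent.R197.Omega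

-- ▼ part R197/AsphMain
section

/-! # Row 197, module F11: assembly of `asph_of_classifying` (helper898)

`asph_of_classifying_of`: the theorem from the statements of the modules F0, F3, F4, F6, F9b, F10a
(as hypotheses).  The final theorem is in `AsphFinal.lean`. -/

set_option autoImplicit false

open scoped unitInterval

namespace Crest.Agent.R197

/-- transport of aspherical presentations along isomorphisms -/
theorem AsphericalPresentation.of_mulEquiv {G H : Type} [Group G] [Group H] (e : H ≃* G)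
    (h : AsphericalPresentation H) : AsphericalPresentation G := by
  obtain ⟨A, B, π, r, hs, hk, hV⟩ := h
  refine ⟨A, B, e.toMonoidHom.comp π, r, e.surjective.comp hs, ?_, ?_⟩
  · rw [← hk]
    ext a
    rw [MonoidHom.mem_ker, MonoidHom.mem_ker]
    exact e.map_eq_one_iff
  · intro V _ inst v
    letI : DistribMulAction H V := DistribMulAction.compHom V e.toMonoidHom
    obtain ⟨s, h1, h2, h3⟩ := hV V v
    refine ⟨s, ?_, ?_, h3⟩
    · intro a b ha hb
      exact h1 a b (e.map_eq_one_iff.1 ha) (e.map_eq_one_iff.1 hb)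
    · intro w a ha
      exact h2 w a (e.map_eq_one_iff.1 ha)

theorem TwoCx.nonempty_O {X : Type} [TopologicalSpace X] (C : TwoCx X) (x : X) : Nonempty C.O := by
  rcases C.cover x with ⟨o, _⟩ | ⟨i, _, _, _⟩ | ⟨j, _, _, _⟩
  · exact ⟨o⟩
  · exact ⟨C.src i⟩
  · rcases C.f_bd j (0, 0) (fun h => lt_irrefl _ h.1.1) with ⟨o, _⟩ | ⟨i, _, _⟩
    · exact ⟨o⟩
    · exact ⟨C.src i⟩

/-- statement of F0 -/
def F0Stmt : Prop := ∀ (X : Type) [TopologicalSpace X] [T2Space X]
  [_root_.Topology.CWComplex (Set.univ : Set X)],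
  (∀ n, 2 < n → IsEmpty (_root_.Topology.RelCWComplex.cell (Set.univ : Set X) n)) →
    Nonempty (TwoCx X)

/-- statement of F3 -/
def F3Stmt : Prop := ∀ {X : Type} [TopologicalSpace X] (C : TwoCx X), Nonempty C.RelData

/-- statement of F4 -/
def F4Stmt : Prop := ∀ {X E : Type} [TopologicalSpace X] [TopologicalSpace E] (C : TwoCx X)
  (p : E → X) (_ : IsCoveringMap p) (_ : Function.Surjective p) [ContractibleSpace E], C.Out1

/-- statement of F6 -/
def F6Stmt : Prop := ∀ {X : Type} [TopologicalSpace X] (C : TwoCx X) (D : C.RelData), C.Out2 D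

/-- statement of F9b -/
def F9bStmt : Prop := ∀ {X E : Type} [TopologicalSpace X] [TopologicalSpace E] (C : TwoCx X)
  (D : C.RelData) (o₀ : C.O) (p : E → X) (_ : IsCoveringMap p) (_ : Function.Surjective p)
  [ContractibleSpace E], C.Out3 D o₀

/-- statement of F10a -/
def F10aStmt : Prop := ∀ {X : Type} [TopologicalSpace X] [PathConnectedSpace X] (C : TwoCx X)
  (D : C.RelData) (o₀ : C.O) (_ : C.Out1) (_ : C.Out2 D) (_ : C.Out3 D o₀),
    AsphericalPresentation (FundamentalGroup X (C.v o₀))

theorem asph_of_classifying_of (h0 : F0Stmt) (h3 : F3Stmt) (h4 : F4Stmt) (h6 : F6Stmt)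
    (h9 : F9bStmt) (h10 : F10aStmt) (G : Type) [Group G]
    (h : Crest.Topology.HasClassifyingComplex G 2) : AsphericalPresentation G := by
  obtain ⟨X, _, _, hT2, hdim, ⟨E, _, p, hE, hp, hs⟩, x, ⟨e⟩⟩ := h
  obtain ⟨C⟩ := h0 X hdim
  obtain ⟨o₀⟩ := C.nonempty_O x
  obtain ⟨D⟩ := h3 C
  haveI : PathConnectedSpace X := hs.pathConnectedSpace hp.continuous
  have hA := h10 C D o₀ (h4 C p hp hs) (h6 C D) (h9 C D o₀ p hp hs)
  exact hA.of_mulEquiv ((FundamentalGroup.fundamentalGroupMulEquivOfPathConnected (C.v o₀) x).trans e)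

end Crest.Agent.R197
end

-- ▼ part R197/OutThreeMain
section

/-! Row 197 / F9b: final form of out3. -/

set_option autoImplicit false

open scoped unitInterval

namespace Crest.Agent.R197

theorem out3 {X E : Type} [TopologicalSpace X] [TopologicalSpace E] (C : TwoCx X) (D : C.RelData)
    (o₀ : C.O) (p : E → X) (hp : IsCoveringMap p) (hs : Function.Surjective p)
    [ContractibleSpace E] : C.Out3 D o₀ :=
  TwoCx.out3_of_winding hp hs (fun j₀ u₀ hu₀ N _ => exists_winding C p hp j₀ u₀ hu₀ N) D o₀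

end Crest.Agent.R197
end

-- ▼ part R197/AsphFinal
section

/-! # Row 197, module F: `asph_of_classifying` (assembly by helper898) -/

set_option autoImplicit false

namespace Crest.Agent.R197

/-- A group with a two-dimensional classifying complex has an aspherical presentation. -/
theorem asph_of_classifying_final (G : Type) [Group G]
    (h : Crest.Topology.HasClassifyingComplex G 2) : AsphericalPresentation G :=
  asph_of_classifying_of (fun X _ _ _ h => exists_twoCx X h) (fun C => exists_relData C)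
    (fun C p hp hs _ => out1 C p hp hs) (fun C D => out2 C D)
    (fun C D o₀ p hp hs _ => out3 C D o₀ p hp hs)
    (fun C D o₀ h1 h2 h3 => asph_of_outs C D o₀ h1 h2 h3) G h

end Crest.Agent.R197
end

-- ▼ part R197/Beta1
section

/-! Row 197, task D3: derivations on the free group with prescribed values on `Λ_n^{ik}`. -/

set_option autoImplicit false

namespace Crest.Agent.R197

namespace Beta1

/-! ### the affine group `V ⋊ G` -/

/-- affine group -/
@[ext] structure Aff (G V : Type) where
  v : V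
  g : G

section aff
variable {G V : Type} [Group G] [AddCommGroup V] [DistribMulAction G V]

instance : Mul (Aff G V) := ⟨fun a b => ⟨a.v + a.g • b.v, a.g * b.g⟩⟩
instance : One (Aff G V) := ⟨⟨0, 1⟩⟩
instance : Inv (Aff G V) := ⟨fun a => ⟨-(a.g⁻¹ • a.v), a.g⁻¹⟩⟩

@[simp] theorem Aff.mul_v (a b : Aff G V) : (a * b).v = a.v + a.g • b.v := rfl
@[simp] theorem Aff.mul_g (a b : Aff G V) : (a * b).g = a.g * b.g := rfl
@[simp] theorem Aff.one_v : (1 : Aff G V).v = 0 := rfl
@[simp] theorem Aff.one_g : (1 : Aff G V).g = 1 := rfl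
@[simp] theorem Aff.inv_v (a : Aff G V) : (a⁻¹).v = -(a.g⁻¹ • a.v) := rfl
@[simp] theorem Aff.inv_g (a : Aff G V) : (a⁻¹).g = a.g⁻¹ := rfl

instance : Group (Aff G V) where
  mul_assoc a b c := by
    ext
    · simp [mul_smul, add_assoc]
    · simp [mul_assoc]
  one_mul a := by ext <;> simp
  mul_one a := by ext <;> simp
  inv_mul_cancel a := by ext <;> simp


end aff

/-! ### the wreath type group `(ℤ → H) ⋊ ℤ` -/

/-- `(ℤ → H) ⋊ ℤ` -/
@[ext] structure Wz (H : Type) where
  f : ℤ → H
  s : ℤ

section wz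
variable {H : Type} [Group H]

instance : Mul (Wz H) := ⟨fun a b => ⟨fun p => a.f p * b.f (p + a.s), a.s + b.s⟩⟩
instance : One (Wz H) := ⟨⟨fun _ => 1, 0⟩⟩
instance : Inv (Wz H) := ⟨fun a => ⟨fun p => (a.f (p - a.s))⁻¹, -a.s⟩⟩

@[simp] theorem Wz.mul_f (a b : Wz H) (p : ℤ) : (a * b).f p = a.f p * b.f (p + a.s) := rfl
@[simp] theorem Wz.mul_s (a b : Wz H) : (a * b).s = a.s + b.s := rfl
@[simp] theorem Wz.one_f (p : ℤ) : (1 : Wz H).f p = 1 := rfl
@[simp] theorem Wz.one_s : (1 : Wz H).s = 0 := rfl
@[simp] theorem Wz.inv_f (a : Wz H) (p : ℤ) : (a⁻¹).f p = (a.f (p - a.s))⁻¹ := rfl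
@[simp] theorem Wz.inv_s (a : Wz H) : (a⁻¹).s = -a.s := rfl

instance : Group (Wz H) where
  mul_assoc a b c := by
    ext p
    · simp [mul_assoc, add_assoc]
    · simp [add_assoc]
  one_mul a := by ext p <;> simp
  mul_one a := by ext p <;> simp
  inv_mul_cancel a := by
    ext p
    · simp [← sub_eq_add_neg]
    · simp

theorem Wz.shift_zpow (n : ℤ) : ((⟨fun _ => 1, 1⟩ : Wz H)) ^ n = ⟨fun _ => 1, n⟩ := by
  induction n using Int.induction_on with
  | zero => rfl
  | succ m ih => rw [zpow_add_one, ih]; ext p <;> simp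
  | pred m ih => rw [zpow_sub_one, ih]; ext p <;> simp [sub_eq_add_neg]

end wz

/-! ### the homomorphism `G → F₄ ⋊ S₄` -/

/-- the action of permutations on the free group -/
def permAct : Equiv.Perm (Fin 4) →* MulAut (FreeGroup (Fin 4)) where
  toFun σ := FreeGroup.freeGroupCongr σ
  map_one' := by
    ext x
    simp
  map_mul' σ τ := by
    ext x
    change FreeGroup.map (σ * τ) x = FreeGroup.map σ (FreeGroup.map τ x)
    rw [FreeGroup.map.comp]
    rfl

theorem permAct_of (σ : Equiv.Perm (Fin 4)) (i : Fin 4) :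
    permAct σ (FreeGroup.of i) = FreeGroup.of (σ i) := by
  change FreeGroup.map σ (FreeGroup.of i) = _
  simp

abbrev FS := FreeGroup (Fin 4) ⋊[permAct] Equiv.Perm (Fin 4)

abbrev fl (a : FreeGroup (Fin 4)) : FS := SemidirectProduct.inl a

theorem fs_rel : RelG (H := FS) (fun i => fl (FreeGroup.of i * (FreeGroup.of 0)⁻¹))
    (fun _ => fl (FreeGroup.of 0)⁻¹)
    (fun α => SemidirectProduct.inr (pX α)⁻¹ * fl (FreeGroup.of 0)⁻¹) := by
  have hA : ∀ i k, Aw (H := FS) (fun i => fl (FreeGroup.of i * (FreeGroup.of 0)⁻¹))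
      (fun _ => fl (FreeGroup.of 0)⁻¹) i k = fl (FreeGroup.of i)⁻¹ := by
    intro i k
    simp only [Aw]
    rw [← map_inv, ← map_mul]
    congr 1
    group
  have hl : ∀ i j k l n, lam (H := FS) (fun i => fl (FreeGroup.of i * (FreeGroup.of 0)⁻¹))
      (fun _ => fl (FreeGroup.of 0)⁻¹) i j k l n = 1 := by
    intro i j k l n
    simp only [lam, hA]
    group
  refine { x0 := ?_, hex := ?_, la := fun n => hl _ _ _ _ n, lb := fun n => hl _ _ _ _ n }
  · simp
  · intro α i k _ _
    rw [hA]
    simp only [Bw]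
    have h1 : fl (FreeGroup.of i)⁻¹ * SemidirectProduct.inr (pX α)⁻¹ =
        (SemidirectProduct.inr (pX α)⁻¹ : FS) * fl (FreeGroup.of (pX α i))⁻¹ := by
      have h2 := SemidirectProduct.inl_aut (φ := permAct) (pX α)⁻¹ (FreeGroup.of (pX α i))⁻¹
      rw [map_inv, permAct_of] at h2
      have h3 : ((pX α)⁻¹ : Equiv.Perm (Fin 4)) (pX α i) = i := by simp
      rw [h3] at h2
      change (SemidirectProduct.inl (FreeGroup.of i)⁻¹ : FS) * _ = _
      rw [h2, mul_assoc, ← map_mul, inv_mul_cancel, map_one, mul_one]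
    rw [← mul_assoc, h1]
    simp only [mul_assoc]
    congr 1
    rw [← map_inv, ← map_mul, ← map_mul, ← map_mul]
    congr 1
    group

/-- `G → F₄ ⋊ S₄` -/
def toFS : GG →* FS := GG.lift fs_rel

/-- the elements `Λ_n^i` -/
def Lm (i : Fin 4) (n : ℤ) : GG :=
  (Aw GG.x GG.y 0 0) ^ n * (Aw GG.x GG.y i 0) ^ (-n)




theorem toFS_Lm (i : Fin 4) (n : ℤ) :
    toFS (Lm i n) = fl ((FreeGroup.of 0) ^ (-n) * (FreeGroup.of i) ^ n) := by
  have hA : ∀ i k, toFS (Aw GG.x GG.y i k) = fl (FreeGroup.of i)⁻¹ := by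
    intro i k
    rw [map_Aw]
    simp only [toFS, GG.lift_x, GG.lift_y, Aw]
    rw [← map_inv, ← map_mul]
    congr 1
    group
  simp only [Lm, map_mul, map_zpow, hA, map_inv, inv_zpow, zpow_neg, inv_inv]

section wreath
variable {H : Type} [Group H]

/-- the homomorphism `F₄ → (ℤ → H) ⋊ ℤ` attached to a family `w` -/
noncomputable def theta (w : Fin 4 → ℤ → H) : FreeGroup (Fin 4) →* Wz H :=
  FreeGroup.lift fun i => ⟨fun p => w i (-p) * (w i (-p - 1))⁻¹, 1⟩

theorem theta_zero_zpow (w : Fin 4 → ℤ → H) (h0 : ∀ n, w 0 n = 1) (n : ℤ) :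
    theta w ((FreeGroup.of 0) ^ n) = ⟨fun _ => 1, n⟩ := by
  rw [map_zpow, theta, FreeGroup.lift_apply_of]
  simp only [h0, inv_one, mul_one]
  exact Wz.shift_zpow n

/-- one step -/
theorem theta_step (w : Fin 4 → ℤ → H) (h0 : ∀ n, w 0 n = 1) (i : Fin 4) (n : ℤ) :
    (theta w ((FreeGroup.of 0) ^ (-(n + 1)) * (FreeGroup.of i) ^ (n + 1))).f 0 =
      w i (n + 1) * (w i n)⁻¹ * (theta w ((FreeGroup.of 0) ^ (-n) * (FreeGroup.of i) ^ n)).f 0 ∧
    (theta w ((FreeGroup.of 0) ^ (-(n + 1)) * (FreeGroup.of i) ^ (n + 1))).s =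
      (theta w ((FreeGroup.of 0) ^ (-n) * (FreeGroup.of i) ^ n)).s := by
  have e : (FreeGroup.of (0 : Fin 4)) ^ (-(n + 1)) * (FreeGroup.of i) ^ (n + 1) =
      (FreeGroup.of 0) ^ (-(n + 1)) * FreeGroup.of i * (FreeGroup.of 0) ^ n *
        ((FreeGroup.of 0) ^ (-n) * (FreeGroup.of i) ^ n) := by group
  have h1 : theta w (FreeGroup.of i) = ⟨fun p => w i (-p) * (w i (-p - 1))⁻¹, 1⟩ := by
    rw [theta, FreeGroup.lift_apply_of]
  have h2 : theta w ((FreeGroup.of 0) ^ (-(n + 1)) * FreeGroup.of i * (FreeGroup.of 0) ^ n) =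
      ⟨fun p => w i (-p + (n + 1)) * (w i (-p + n))⁻¹, 0⟩ := by
    rw [map_mul, map_mul, theta_zero_zpow w h0, theta_zero_zpow w h0, h1]
    ext p
    · simp only [Wz.mul_f, one_mul, mul_one]
      congr 2
      · ring
      · congr 1; ring
    · simp
  rw [e, map_mul, h2]
  constructor
  · simp only [Wz.mul_f, neg_zero, zero_add, add_zero]
  · simp only [Wz.mul_s, zero_add]

theorem theta_value (w : Fin 4 → ℤ → H) (h0 : ∀ n, w 0 n = 1) (h1 : ∀ i, w i 0 = 1)
    (i : Fin 4) (n : ℤ) :
    (theta w ((FreeGroup.of 0) ^ (-n) * (FreeGroup.of i) ^ n)).f 0 = w i n ∧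
    (theta w ((FreeGroup.of 0) ^ (-n) * (FreeGroup.of i) ^ n)).s = 0 := by
  induction n using Int.induction_on with
  | zero => simp [h1]
  | succ m ih =>
    obtain ⟨a, b⟩ := theta_step w h0 i (m : ℤ)
    rw [a, b, ih.1, ih.2]
    exact ⟨by group, rfl⟩
  | pred m ih =>
    obtain ⟨a, b⟩ := theta_step w h0 i (-(m : ℤ) - 1)
    rw [sub_add_cancel] at a b
    rw [ih.1] at a
    rw [ih.2] at b
    refine ⟨?_, b.symm⟩
    have : (theta w ((FreeGroup.of 0) ^ (-(-(m : ℤ) - 1)) * (FreeGroup.of i) ^ (-(m : ℤ) - 1))).f 0 =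
        (w i (-(m : ℤ)) * (w i (-(m : ℤ) - 1))⁻¹)⁻¹ * w i (-(m : ℤ)) := by
      rw [eq_inv_mul_iff_mul_eq]; exact a.symm
    rw [this]; group

end wreath

section der
variable {M : Type} [AddCommGroup M]




/-- a derivation on a subgroup with values in a coinduced module is inner -/
theorem inner {G : Type} [Group G] (K : Subgroup G) (d : G → CC G M)
    (hd : ∀ a ∈ K, ∀ b ∈ K, d (a * b) = d a + a • d b) :
    ∃ z : CC G M, ∀ a ∈ K, d a = a • z - z := by
  classical
  refine ⟨fun g => d ((QuotientGroup.mk (s := K) g).out⁻¹ * g) (QuotientGroup.mk (s := K) g).out, ?_⟩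
  intro a ha
  have key : ∀ g : G, (QuotientGroup.mk (s := K) (g * a)) = QuotientGroup.mk (s := K) g := by
    intro g
    rw [QuotientGroup.eq]
    simpa using K.inv_mem ha
  funext g
  change d a g = d ((QuotientGroup.mk (s := K) (g * a)).out⁻¹ * (g * a))
      (QuotientGroup.mk (s := K) (g * a)).out -
    d ((QuotientGroup.mk (s := K) g).out⁻¹ * g) (QuotientGroup.mk (s := K) g).out
  rw [key g]
  set t := (QuotientGroup.mk (s := K) g).out with ht
  have hk : t⁻¹ * g ∈ K := by
    rw [← QuotientGroup.eq, ht, QuotientGroup.out_eq']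
  rw [← mul_assoc, hd _ hk _ ha]
  change d a g = (d (t⁻¹ * g) t + d a (t * (t⁻¹ * g))) - d (t⁻¹ * g) t
  rw [mul_inv_cancel_left]
  abel

end der

end Beta1


end Crest.Agent.R197
end

-- ▼ part R197/CdFinal
section

/-!
# Row 197, module D: `cd_GG`
-/

set_option autoImplicit false

namespace Crest.Agent.R197
namespace Cd

open Beta1


theorem KLam_free (H : Type) [Group H] (w : ℤ → Fin 4 → H) (h0 : ∀ i, w 0 i = 1)
    (h1 : ∀ n, w n 0 = 1) :
    ∃ f : KLam →* H, ∀ n i, f ⟨Lam i n, Lam_mem i n⟩ = w n i := by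
  classical
  let w' : Fin 4 → ℤ → H := fun i n => w n i
  have w0 : ∀ n, w' 0 n = 1 := h1
  have w1 : ∀ i, w' i 0 = 1 := h0
  let e : GG → Wz H := fun g => theta w' (toFS g).left
  have good : ∀ a ∈ KLam, (toFS a).right = 1 ∧ (e a).s = 0 := by
    intro a ha
    unfold KLam at ha
    induction ha using Subgroup.closure_induction with
    | mem a ha =>
      obtain ⟨⟨n, i⟩, rfl⟩ := ha
      have hv := theta_value w' w0 w1 i n
      have hl : (toFS (Lm i n)).left = (FreeGroup.of 0) ^ (-n) * (FreeGroup.of i) ^ n := by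
        rw [toFS_Lm]; rfl
      refine ⟨?_, ?_⟩
      · change (toFS (Lm i n)).right = 1
        rw [toFS_Lm]; rfl
      · change (theta w' (toFS (Lm i n)).left).s = 0
        rw [hl]; exact hv.2
    | one => simp [e]
    | mul a b _ _ iha ihb =>
      obtain ⟨a1, a2⟩ := iha
      obtain ⟨b1, b2⟩ := ihb
      have hab : e (a * b) = e a * e b := by
        simp only [e, map_mul, SemidirectProduct.mul_left, a1, map_one, MulAut.one_apply]
      refine ⟨?_, ?_⟩
      · rw [map_mul, SemidirectProduct.mul_right, a1, b1, one_mul]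
      · rw [hab, Wz.mul_s, a2, b2, add_zero]
    | inv a _ iha =>
      obtain ⟨a1, a2⟩ := iha
      have hab : e (a⁻¹) = (e a)⁻¹ := by
        simp only [e, map_inv, SemidirectProduct.inv_left, a1, inv_one, map_one, MulAut.one_apply]
      refine ⟨?_, ?_⟩
      · rw [map_inv, SemidirectProduct.inv_right, a1, inv_one]
      · rw [hab, Wz.inv_s, a2, neg_zero]
  refine ⟨{ toFun := fun q => (e q).f 0, map_one' := ?_, map_mul' := ?_ }, ?_⟩
  · simp [e]
  · intro a b
    obtain ⟨a1, a2⟩ := good a a.2
    have hab : e ((a * b : KLam) : GG) = e a * e b := by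
      simp only [e, Subgroup.coe_mul, map_mul, SemidirectProduct.mul_left, a1, map_one,
        MulAut.one_apply]
    rw [hab, Wz.mul_f, a2, add_zero]
  · intro n i
    have hv := theta_value w' w0 w1 i n
    have hl : (toFS (Lm i n)).left = (FreeGroup.of 0) ^ (-n) * (FreeGroup.of i) ^ n := by
      rw [toFS_Lm]; rfl
    change (theta w' (toFS (Lm i n)).left).f 0 = w n i
    rw [hl]
    exact hv.1

theorem nFacts : NFacts where
  lam1 := lam_GG
  free := fun H _ w h0 h1 => KLam_free H w h0 h1
  qbar := by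
    intro α H _ a b c d hc hl
    classical
    let m : Fin 4 → Fin 4 → H := fun i k =>
      if i = x1 α then (if k = y1 α then a else d) else (if k = y1 α then b else c)
    have hx : x2 α ≠ x1 α := (x1_ne_x2 α).symm
    have hy : y2 α ≠ y1 α := (y1_ne_y2 α).symm
    have m11 : m (x1 α) (y1 α) = a := by simp [m]
    have m12 : m (x1 α) (y2 α) = d := by simp [m, hy]
    have m21 : m (x2 α) (y1 α) = b := by simp [m, hx]
    have m22 : m (x2 α) (y2 α) = c := by simp [m, hx, hy]
    obtain ⟨φ, hφ, -⟩ := Qbar_lift α m (by rw [m11, m12, m21, m22, hc])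
      (fun n => by rw [m11, m12, m21, m22]; exact hl n)
    refine ⟨φ, ?_, ?_, ?_, ?_⟩
    · exact (hφ _ _ (Or.inl rfl) (Or.inl rfl)).trans m11
    · exact (hφ _ _ (Or.inr rfl) (Or.inl rfl)).trans m21
    · exact (hφ _ _ (Or.inr rfl) (Or.inr rfl)).trans m22
    · exact (hφ _ _ (Or.inl rfl) (Or.inr rfl)).trans m12

end Cd

/-- module D -/
theorem cd_GG (A : Rep ℤ GG) (n : ℕ) (hn : 3 ≤ n) :
    CategoryTheory.Limits.IsZero (groupCohomology A n) :=
  isZero_of_splitProp (Cd.splitProp_GG Cd.nFacts) A n hn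

end Crest.Agent.R197
end

-- ▼ part R197/H2
section

/-!
# Row 197, module H: `H²(G, ℤ) ≠ 0`

The bilinear cocycle `(g, h) ↦ f₁ g * f₂ h`, where `f₁`, `f₂ : G → ℤ` are homomorphisms, is not a
coboundary since `f₁ s * f₂ t - f₁ t * f₂ s ≠ 0` for the commuting elements `s = x₁`,
`t = y₁⁻¹ y₂`.
-/

set_option autoImplicit false

namespace Crest.Agent.R197

open CategoryTheory

/-- general criterion -/
theorem h2_ne_zero_of_hom {G : Type} [Group G] (f₁ f₂ : G →* Multiplicative ℤ) (s t : G)
    (hst : s * t = t * s)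
    (hne : (f₁ s).toAdd * (f₂ t).toAdd ≠ (f₁ t).toAdd * (f₂ s).toAdd) :
    ¬ Limits.IsZero (groupCohomology (Rep.trivial ℤ G ℤ) 2) := by
  intro hz
  let c : G × G → ℤ := fun p => (f₁ p.1).toAdd * (f₂ p.2).toAdd
  have hc : c ∈ groupCohomology.cocycles₂ (Rep.trivial ℤ G ℤ) := by
    rw [groupCohomology.mem_cocycles₂_iff]
    intro g h j
    change (f₁ (g * h)).toAdd * (f₂ j).toAdd + (f₁ g).toAdd * (f₂ h).toAdd =
      (f₁ h).toAdd * (f₂ j).toAdd + (f₁ g).toAdd * (f₂ (h * j)).toAdd
    simp only [map_mul, toAdd_mul]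
    ring
  have h0 : groupCohomology.H2π (Rep.trivial ℤ G ℤ) ⟨c, hc⟩ = 0 := by
    have : Subsingleton (groupCohomology.H2 (Rep.trivial ℤ G ℤ)) :=
      ModuleCat.subsingleton_of_isZero hz
    exact Subsingleton.elim _ _
  rw [groupCohomology.H2π_eq_zero_iff] at h0
  obtain ⟨ψ, hψ⟩ := h0
  have key : ∀ g h : G, ψ h - ψ (g * h) + ψ g = (f₁ g).toAdd * (f₂ h).toAdd := fun g h =>
    congrFun hψ (g, h)
  have e1 := key s t
  have e2 := key t s
  rw [hst] at e1
  apply hne
  rw [← e1, ← e2]
  ring

/-- target data for `f₁` -/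
def fx1 : Fin 4 → Multiplicative ℤ := ![1, Multiplicative.ofAdd 1, 1, 1]

theorem relG_f₁ : RelG fx1 (fun _ => (1 : Multiplicative ℤ)) (fun _ => 1) := by
  refine { x0 := rfl, hex := ?_, la := ?_, lb := ?_ }
  · intro α i k hi hk
    simp only [Aw, Bw]
    revert α i k
    decide
  · intro n
    simp only [lam, Aw]
    simp [mul_comm]
  · intro n
    simp only [lam, Aw]
    simp [mul_comm]

theorem relG_f₂ : RelG (fun _ => (1 : Multiplicative ℤ)) fx1 (fun _ => 1) := by
  refine { x0 := rfl, hex := ?_, la := ?_, lb := ?_ }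
  · intro α i k hi hk
    simp only [Aw, Bw]
    revert α i k
    decide
  · intro n
    simp only [lam, Aw]
    simp [mul_comm]
  · intro n
    simp only [lam, Aw]
    simp [mul_comm]

/-- module H -/
theorem h2_GG : ∃ A : Rep ℤ GG, ¬ CategoryTheory.Limits.IsZero (groupCohomology A 2) := by
  refine ⟨Rep.trivial ℤ GG ℤ, h2_ne_zero_of_hom (GG.lift relG_f₁) (GG.lift relG_f₂) (GG.x 1)
    ((GG.y 1)⁻¹ * GG.y 2) ?_ ?_⟩
  · have h := GG.rel.la 1
    have hx := GG.rel.x0
    simp only [lam, Aw, hx, inv_one, mul_one, zpow_one, Int.reduceNeg, zpow_neg] at h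
    -- y1 * (y1 x1⁻¹)⁻¹ * (y2 x1⁻¹) * y2⁻¹ = 1
    have h2 : GG.y 1 * (GG.x 1 * ((GG.y 1)⁻¹ * GG.y 2) * (GG.x 1)⁻¹ * ((GG.y 1)⁻¹ * GG.y 2)⁻¹) *
        (GG.y 1)⁻¹ = 1 := by
      rw [← h]; group
    have h3 : GG.x 1 * ((GG.y 1)⁻¹ * GG.y 2) * (GG.x 1)⁻¹ * ((GG.y 1)⁻¹ * GG.y 2)⁻¹ = 1 := by
      rwa [conj_eq_one_iff] at h2
    rw [mul_inv_eq_one, mul_inv_eq_iff_eq_mul] at h3
    exact h3
  · simp [fx1]

end Crest.Agent.R197
end

-- ▼ part R197/TreeDefs
section

/-! Row 197: oriented graphs, "treeish" graphs, products of trees: common definitions for the T- and N-tasks. -/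

set_option autoImplicit false

namespace Crest.Agent.R197

/-- oriented (multi)graph -/
structure OrGraph where
  V : Type
  E : Type
  o : E → V
  t : E → V

namespace OrGraph

/-- any two vertices are joined by an edge path -/
def Conn (T : OrGraph) : Prop :=
  ∀ u v : T.V, Relation.EqvGen (fun a b => ∃ e, T.o e = a ∧ T.t e = b) u v

/-- every function on edges is a coboundary -/
def Acyc (T : OrGraph) : Prop :=
  ∀ (M : Type) [AddCommGroup M] (f : T.E → M), ∃ F : T.V → M, ∀ e, F (T.t e) - F (T.o e) = f e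

/-- connected and acyclic -/
structure IsTree (T : OrGraph) : Prop where
  conn : T.Conn
  acyc : T.Acyc

/-- an action of a group on an oriented graph -/
class GAct (G : Type) [Group G] (T : OrGraph) [MulAction G T.V] [MulAction G T.E] : Prop where
  o_smul : ∀ (g : G) (e : T.E), T.o (g • e) = g • T.o e
  t_smul : ∀ (g : G) (e : T.E), T.t (g • e) = g • T.t e

/-- the points of the geometric realisation: vertices and interior points of edges (parameter in `(-1,1)`). -/
def Pt (T : OrGraph) : Type := T.V ⊕ (T.E × Set.Ioo (-1 : ℝ) 1)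

/-- cells: vertices and edges -/
def Cl (T : OrGraph) : Type := T.V ⊕ T.E

open Classical in
/-- characteristic map of a cell (parameter in `ℝ`, clamped outside `(-1,1)`) -/
noncomputable def chr (T : OrGraph) : T.Cl → ℝ → T.Pt
  | Sum.inl v, _ => Sum.inl v
  | Sum.inr e, s =>
    if h : -1 < s ∧ s < 1 then Sum.inr (e, ⟨s, h⟩)
    else if s ≤ -1 then Sum.inl (T.o e) else Sum.inl (T.t e)

end OrGraph

open OrGraph

/-- point set of a product of three trees -/
def E3 (T : Fin 3 → OrGraph) : Type := ∀ i, (T i).Pt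

/-- product cells -/
def Cells (T : Fin 3 → OrGraph) : Type := ∀ i, (T i).Cl

/-- characteristic map of a product cell, defined on all of `Fin 3 → ℝ` (clamped) -/
noncomputable def chr3 (T : Fin 3 → OrGraph) (c : Cells T) (s : Fin 3 → ℝ) : E3 T :=
  fun i => (T i).chr (c i) (s i)

/-- topology on the product of three trees: coinduced from all closed cubes. -/
noncomputable instance (T : Fin 3 → OrGraph) : TopologicalSpace (E3 T) :=
  ⨆ c : Cells T, TopologicalSpace.coinduced (chr3 T c) inferInstance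

/-- dimension of a product cell -/
noncomputable def Cells.dim {T : Fin 3 → OrGraph} (c : Cells T) : ℕ :=
  (Finset.univ.filter (fun i => (c i).isRight)).card

section action
variable {G : Type} [Group G]

instance Pt.instMulAction (T : OrGraph) [MulAction G T.V] [MulAction G T.E] : MulAction G T.Pt where
  smul g p := match p with
    | Sum.inl v => Sum.inl (g • v)
    | Sum.inr (e, s) => Sum.inr (g • e, s)
  one_smul p := by
    rcases p with v | ⟨e, s⟩
    · exact congrArg Sum.inl (one_smul G v)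
    · exact congrArg (fun e => Sum.inr (e, s)) (one_smul G e)
  mul_smul g h p := by
    rcases p with v | ⟨e, s⟩
    · exact congrArg Sum.inl (mul_smul g h v)
    · exact congrArg (fun e => Sum.inr (e, s)) (mul_smul g h e)

instance Cl.instMulAction (T : OrGraph) [MulAction G T.V] [MulAction G T.E] : MulAction G T.Cl where
  smul g p := match p with
    | Sum.inl v => Sum.inl (g • v)
    | Sum.inr e => Sum.inr (g • e)
  one_smul p := by
    rcases p with v | e
    · exact congrArg Sum.inl (one_smul G v)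
    · exact congrArg Sum.inr (one_smul G e)
  mul_smul g h p := by
    rcases p with v | e
    · exact congrArg Sum.inl (mul_smul g h v)
    · exact congrArg Sum.inr (mul_smul g h e)

instance E3.instMulAction (T : Fin 3 → OrGraph) [∀ i, MulAction G (T i).V]
    [∀ i, MulAction G (T i).E] : MulAction G (E3 T) where
  smul g z := fun i => g • z i
  one_smul z := funext fun i => one_smul G (z i)
  mul_smul g h z := funext fun i => mul_smul g h (z i)

instance Cells.instMulAction (T : Fin 3 → OrGraph) [∀ i, MulAction G (T i).V]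
    [∀ i, MulAction G (T i).E] : MulAction G (Cells T) where
  smul g z := fun i => g • z i
  one_smul z := funext fun i => one_smul G (z i)
  mul_smul g h z := funext fun i => mul_smul g h (z i)

/-- the action is free on vertices of the product -/
def FreeOnVertices (G : Type) [Group G] (T : Fin 3 → OrGraph) [∀ i, MulAction G (T i).V]
    [∀ i, MulAction G (T i).E] : Prop :=
  ∀ (g : G) (v : ∀ i, (T i).V), (∀ i, g • v i = v i) → g = 1

end action

end Crest.Agent.R197
private theorem rz_389ec575ac : type_of% @_root_.Crest.Agent.R197.OrGraph.chr.eq_1 := @_root_.Crest.Agent.R197.OrGraph.chr.eq_1 -- L44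
end

-- ▼ part R197/TreeT3
section

/-!
# Row 197, module N4: `T₃` and the Cayley trees are combinatorial trees
-/

set_option autoImplicit false

namespace Crest.Agent.R197

/-- the edges of `T₃` -/
abbrev T3E : Type := Σ α : Ltr, GG ⧸ Qbar α

/-- the vertices of `T₃` -/
abbrev T3V : Type := GG ⧸ Nbar

/-- origin of an edge of `T₃`: `g Qbar_α ↦ g Nbar` -/
def T3o (e : T3E) : T3V :=
  Quotient.liftOn' e.2 (fun g => (g : GG ⧸ Nbar)) (fun a b h => by
    rw [QuotientGroup.leftRel_apply] at h
    exact QuotientGroup.eq.mpr (Qbar_le_Nbar _ h))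

/-- end of an edge of `T₃`: `g Qbar_α ↦ g r_α Nbar` -/
def T3t (e : T3E) : T3V :=
  Quotient.liftOn' e.2 (fun g => ((g * GG.r e.1 : GG) : GG ⧸ Nbar)) (fun a b h => by
    rw [QuotientGroup.leftRel_apply] at h
    refine QuotientGroup.eq.mpr ?_
    have : (a * GG.r e.1)⁻¹ * (b * GG.r e.1) = (GG.r e.1)⁻¹ * (a⁻¹ * b) * GG.r e.1 := by group
    rw [this]
    exact conj_mem_Nbar h)

/-- The tree `T₃`. -/
def T3 : OrGraph where
  V := T3V
  E := T3E
  o := T3o
  t := T3t

/-- Cayley tree of `FreeGroup I`: edges `(p, i) : p ⟶ p * of i`. -/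
def cayley (I : Type) : OrGraph where
  V := FreeGroup I
  E := FreeGroup I × I
  o e := e.1
  t e := e.1 * FreeGroup.of e.2


theorem T3t_mk (α : Ltr) (g : GG) :
    T3t ⟨α, (g : GG ⧸ Qbar α)⟩ = ((g * GG.r α : GG) : GG ⧸ Nbar) := rfl

/-- `G` acts on the edges of `T₃`. -/
instance T3E.instMulAction : MulAction GG T3E where
  smul g e := ⟨e.1, g • e.2⟩
  one_smul e := by
    show (⟨e.1, (1 : GG) • e.2⟩ : T3E) = e
    rw [one_smul]
  mul_smul g h e := by
    show (⟨e.1, (g * h) • e.2⟩ : T3E) = ⟨e.1, g • h • e.2⟩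
    rw [mul_smul]

theorem T3E_smul_mk (g : GG) (α : Ltr) (a : GG) :
    g • (⟨α, (a : GG ⧸ Qbar α)⟩ : T3E) = ⟨α, ((g * a : GG) : GG ⧸ Qbar α)⟩ := rfl

/-- equivariance of the origin map -/
theorem T3o_smul (g : GG) (e : T3E) : T3o (g • e) = g • T3o e := by
  obtain ⟨α, q⟩ := e
  induction q using QuotientGroup.induction_on with
  | H a => rfl

/-- equivariance of the end map -/
theorem T3t_smul (g : GG) (e : T3E) : T3t (g • e) = g • T3t e := by
  obtain ⟨α, q⟩ := e
  induction q using QuotientGroup.induction_on with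
  | H a =>
    rw [T3E_smul_mk, T3t_mk, T3t_mk, mul_assoc]
    rfl

instance T3.instMulActionV : MulAction GG T3.V := inferInstanceAs (MulAction GG T3V)

instance T3.instMulActionE : MulAction GG T3.E := T3E.instMulAction

instance T3.instGAct : OrGraph.GAct GG T3 where
  o_smul := T3o_smul
  t_smul := T3t_smul

section skew
variable {G M : Type*} [Group G] [AddCommGroup M]

/-- the skew translation `(h, m) ↦ (h a, m + f h)` -/
def skew (a : G) (f : G → M) : Equiv.Perm (G × M) where
  toFun p := (p.1 * a, p.2 + f p.1)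
  invFun p := (p.1 * a⁻¹, p.2 - f (p.1 * a⁻¹))
  left_inv p := by ext <;> simp
  right_inv p := by ext <;> simp

@[simp] theorem skew_apply (a : G) (f : G → M) (h : G) (m : M) :
    skew a f (h, m) = (h * a, m + f h) := rfl

/-- right translations, as a homomorphism to the opposite of the permutations -/
def skewTr (G M : Type*) [Group G] [AddCommGroup M] : G →* (Equiv.Perm (G × M))ᵐᵒᵖ where
  toFun a := MulOpposite.op (skew a 0)
  map_one' := by
    rw [← MulOpposite.op_one]
    congr 1
    ext1 p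
    obtain ⟨h, m⟩ := p
    simp
  map_mul' a b := by
    rw [← MulOpposite.op_mul]
    congr 1
    ext1 p
    obtain ⟨h, m⟩ := p
    simp [mul_assoc]

theorem skewTr_apply (a : G) : skewTr G M a = MulOpposite.op (skew a 0) := rfl

end skew

/-- induction principle for `G` -/
theorem GG_closure : Subgroup.closure (Set.range (PresentedGroup.of (rels := relsG))) = ⊤ :=
  PresentedGroup.closure_range_of relsG

/-- induction along words, multiplying generators on the right -/
theorem GG_induction_right {p : GG → Prop} (one : p 1)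
    (mx : ∀ g i, p g → p (g * GG.x i)) (mx' : ∀ g i, p g → p (g * (GG.x i)⁻¹))
    (my : ∀ g i, p g → p (g * GG.y i)) (my' : ∀ g i, p g → p (g * (GG.y i)⁻¹))
    (mr : ∀ g α, p g → p (g * GG.r α)) (mr' : ∀ g α, p g → p (g * (GG.r α)⁻¹)) (g : GG) : p g := by
  have hg : g ∈ Subgroup.closure (Set.range (PresentedGroup.of (rels := relsG))) := by
    rw [GG_closure]; trivial
  refine Subgroup.closure_induction_right (p := fun g _ => p g) one ?_ ?_ hg
  · rintro g _ _ ⟨u, rfl⟩ h
    rcases u with i | i | α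
    · exact mx g i h
    · exact my g i h
    · exact mr g α h
  · rintro g _ _ ⟨u, rfl⟩ h
    rcases u with i | i | α
    · exact mx' g i h
    · exact my' g i h
    · exact mr' g α h

section acyc
variable {M : Type*} [AddCommGroup M] (f : Ltr → GG → M)
  (hf : ∀ (α : Ltr) (g q : GG), q ∈ Qbar α → f α (g * q) = f α g)

include hf in
theorem skewRel : RelG (fun i => skewTr GG M (GG.x i)) (fun k => skewTr GG M (GG.y k))
    (fun α => MulOpposite.op (skew (GG.r α) (f α))) := by
  refine { x0 := ?_, hex := ?_, la := ?_, lb := ?_ }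
  · show skewTr GG M (GG.x 0) = 1
    rw [GG.rel.x0, map_one]
  · intro α i k hi hk
    rw [← map_Aw, ← map_Bw, skewTr_apply, skewTr_apply, ← MulOpposite.op_mul, ← MulOpposite.op_mul]
    congr 1
    ext1 p
    obtain ⟨h, m⟩ := p
    have h1 := GG.rel.hex α i k hi hk
    have h2 := hf α h _ (Aw_mem_Qbar hi hk)
    simp only [Equiv.Perm.mul_apply, skew_apply, Pi.zero_apply, add_zero, mul_assoc, h1, h2]
  · intro n
    rw [← map_lam, GG.rel.la, map_one]
  · intro n
    rw [← map_lam, GG.rel.lb, map_one]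

/-- Acyclicity of `T₃` in group form. -/
theorem acycG (f : Ltr → GG → M)
    (hf : ∀ (α : Ltr) (g q : GG), q ∈ Qbar α → f α (g * q) = f α g) :
    ∃ F : GG → M, F 1 = 0 ∧ (∀ g n, n ∈ Nbar → F (g * n) = F g) ∧
      ∀ g α, F (g * GG.r α) = F g + f α g := by
  set Φ := GG.lift (skewRel f hf) with hΦ
  have hx : ∀ i, Φ (GG.x i) = skewTr GG M (GG.x i) := fun i => GG.lift_x _ i
  have hy : ∀ i, Φ (GG.y i) = skewTr GG M (GG.y i) := fun i => GG.lift_y _ i
  have hr : ∀ α, Φ (GG.r α) = MulOpposite.op (skew (GG.r α) (f α)) := fun α => GG.lift_r _ α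
  have hNs : ∀ n ∈ Nbar, Φ n = skewTr GG M n := by
    intro n hn
    unfold Nbar at hn
    induction hn using Subgroup.closure_induction with
    | mem g hg =>
      rcases hg with ⟨i, rfl⟩ | ⟨k, rfl⟩
      · exact hx i
      · exact hy k
    | one => rw [map_one, map_one]
    | mul a b _ _ ha hb => rw [map_mul, map_mul, ha, hb]
    | inv a _ ha => rw [map_inv, map_inv, ha]
  have hmul : ∀ g h : GG, ∀ p, (Φ (g * h)).unop p = (Φ h).unop ((Φ g).unop p) := by
    intro g h p
    rw [map_mul, MulOpposite.unop_mul, Equiv.Perm.mul_apply]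
  have hinv : ∀ g : GG, ∀ p, (Φ g⁻¹).unop p = (Φ g).unop.symm p := by
    intro g p
    rw [map_inv, MulOpposite.unop_inv]
    rfl
  have hfst : ∀ g : GG, ∀ p, ((Φ g).unop p).1 = p.1 * g := by
    intro g
    induction g using GG_induction_right with
    | one => intro p; simp
    | mx g i ih =>
      intro p
      rw [hmul, hx]
      show ((Φ g).unop p).1 * GG.x i = _
      rw [ih, mul_assoc]
    | my g i ih =>
      intro p
      rw [hmul, hy]
      show ((Φ g).unop p).1 * GG.y i = _
      rw [ih, mul_assoc]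
    | mr g i ih =>
      intro p
      rw [hmul, hr]
      show ((Φ g).unop p).1 * GG.r i = _
      rw [ih, mul_assoc]
    | mx' g i ih =>
      intro p
      rw [hmul, hinv, hx]
      show ((Φ g).unop p).1 * (GG.x i)⁻¹ = _
      rw [ih, mul_assoc]
    | my' g i ih =>
      intro p
      rw [hmul, hinv, hy]
      show ((Φ g).unop p).1 * (GG.y i)⁻¹ = _
      rw [ih, mul_assoc]
    | mr' g i ih =>
      intro p
      rw [hmul, hinv, hr]
      show ((Φ g).unop p).1 * (GG.r i)⁻¹ = _
      rw [ih, mul_assoc]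
  refine ⟨fun g => ((Φ g).unop (1, 0)).2, ?_, ?_, ?_⟩
  · simp
  · intro g n hn
    show ((Φ (g * n)).unop (1, 0)).2 = ((Φ g).unop (1, 0)).2
    rw [hmul, hNs n hn]
    show ((Φ g).unop (1, 0)).2 + 0 = _
    rw [add_zero]
  · intro g α
    show ((Φ (g * GG.r α)).unop (1, 0)).2 = ((Φ g).unop (1, 0)).2 + f α g
    rw [hmul, hr]
    show ((Φ g).unop (1, 0)).2 + f α ((Φ g).unop (1, 0)).1 = _
    rw [hfst, one_mul]

end acyc

/-- connectedness of `T₃`, in group form -/
theorem T3_reach (g w : GG) :
    Relation.EqvGen (fun a b : T3V => ∃ e, T3o e = a ∧ T3t e = b) (g : GG ⧸ Nbar)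
      ((g * w : GG) : GG ⧸ Nbar) := by
  have hN : ∀ (a n : GG), n ∈ Nbar → ((a * n : GG) : GG ⧸ Nbar) = (a : GG ⧸ Nbar) := by
    intro a n hn
    exact QuotientGroup.mk_mul_of_mem a hn
  induction w using GG_induction_right with
  | one => rw [mul_one]; exact Relation.EqvGen.refl _
  | mx w i ih => rw [← mul_assoc, hN _ _ (x_mem_Nbar i)]; exact ih
  | mx' w i ih => rw [← mul_assoc, hN _ _ (inv_mem (x_mem_Nbar i))]; exact ih
  | my w i ih => rw [← mul_assoc, hN _ _ (y_mem_Nbar i)]; exact ih
  | my' w i ih => rw [← mul_assoc, hN _ _ (inv_mem (y_mem_Nbar i))]; exact ih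
  | mr w α ih =>
    refine ih.trans _ _ _ (Relation.EqvGen.rel _ _ ⟨⟨α, ((g * w : GG) : GG ⧸ Qbar α)⟩, rfl, ?_⟩)
    rw [T3t_mk, mul_assoc]
  | mr' w α ih =>
    refine ih.trans _ _ _ (Relation.EqvGen.symm _ _ (Relation.EqvGen.rel _ _
      ⟨⟨α, ((g * (w * (GG.r α)⁻¹) : GG) : GG ⧸ Qbar α)⟩, rfl, ?_⟩))
    rw [T3t_mk]
    congr 1
    group

/-- `T₃` is a combinatorial tree. -/
theorem T3_isTree : T3.IsTree where
  conn := by
    intro a b
    induction a using QuotientGroup.induction_on with
    | H g =>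
      induction b using QuotientGroup.induction_on with
      | H h =>
        have := T3_reach g (g⁻¹ * h)
        rwa [mul_inv_cancel_left] at this
  acyc := by
    intro M _ f
    obtain ⟨F, -, hF1, hF2⟩ := acycG (M := M) (fun α g => f ⟨α, (g : GG ⧸ Qbar α)⟩) (by
      intro α g q hq
      show f ⟨α, ((g * q : GG) : GG ⧸ Qbar α)⟩ = f ⟨α, (g : GG ⧸ Qbar α)⟩
      rw [QuotientGroup.mk_mul_of_mem g hq])
    refine ⟨fun v => Quotient.liftOn' v F (fun a b h => ?_), ?_⟩
    · rw [QuotientGroup.leftRel_apply] at h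
      have := hF1 a _ h
      rw [mul_inv_cancel_left] at this
      exact this.symm
    · rintro ⟨α, q⟩
      induction q using QuotientGroup.induction_on with
      | H g =>
        show F (g * GG.r α) - F g = _
        rw [hF2, add_sub_cancel_left]

/-- Cayley trees of free groups are combinatorial trees. -/
theorem cayley_isTree (I : Type) : (cayley I).IsTree where
  conn := by
    have key : ∀ g w : FreeGroup I, Relation.EqvGen
        (fun a b : FreeGroup I => ∃ e : FreeGroup I × I, e.1 = a ∧ e.1 * FreeGroup.of e.2 = b)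
        g (g * w) := by
      intro g w
      have hw : w ∈ Subgroup.closure (Set.range (FreeGroup.of : I → FreeGroup I)) := by
        rw [FreeGroup.closure_range_of]; trivial
      refine Subgroup.closure_induction_right
        (p := fun w _ => Relation.EqvGen
        (fun a b : FreeGroup I => ∃ e : FreeGroup I × I, e.1 = a ∧ e.1 * FreeGroup.of e.2 = b)
        g (g * w)) ?_ ?_ ?_ hw
      · rw [mul_one]; exact Relation.EqvGen.refl _
      · rintro w _ _ ⟨u, rfl⟩ h
        refine h.trans _ _ _ (Relation.EqvGen.rel _ _ ⟨(g * w, u), rfl, ?_⟩)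
        simp [mul_assoc]
      · rintro w _ _ ⟨u, rfl⟩ h
        refine h.trans _ _ _ (Relation.EqvGen.symm _ _ (Relation.EqvGen.rel _ _
          ⟨(g * (w * (FreeGroup.of u)⁻¹), u), rfl, ?_⟩))
        simp [mul_assoc]
    have key' : ∀ a b : FreeGroup I, Relation.EqvGen
        (fun a b : FreeGroup I => ∃ e : FreeGroup I × I, e.1 = a ∧ e.1 * FreeGroup.of e.2 = b)
        a b := by
      intro a b
      have := key a (a⁻¹ * b)
      rwa [mul_inv_cancel_left] at this
    exact key'
  acyc := by
    intro M _ f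
    set Φ : FreeGroup I →* (Equiv.Perm (FreeGroup I × M))ᵐᵒᵖ :=
      FreeGroup.lift (fun i => MulOpposite.op (skew (FreeGroup.of i) (fun g => f (g, i)))) with hΦ
    have hr : ∀ i, Φ (FreeGroup.of i)
        = MulOpposite.op (skew (FreeGroup.of i) (fun g => f (g, i))) := fun i => by
      rw [hΦ, FreeGroup.lift_apply_of]
    have hmul : ∀ g h : FreeGroup I, ∀ p, (Φ (g * h)).unop p = (Φ h).unop ((Φ g).unop p) := by
      intro g h p
      rw [map_mul, MulOpposite.unop_mul, Equiv.Perm.mul_apply]
    have hinv : ∀ g : FreeGroup I, ∀ p, (Φ g⁻¹).unop p = (Φ g).unop.symm p := by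
      intro g p
      rw [map_inv, MulOpposite.unop_inv]
      rfl
    have hfst : ∀ g : FreeGroup I, ∀ p, ((Φ g).unop p).1 = p.1 * g := by
      intro w
      have hw : w ∈ Subgroup.closure (Set.range (FreeGroup.of : I → FreeGroup I)) := by
        rw [FreeGroup.closure_range_of]; trivial
      refine Subgroup.closure_induction_right
        (p := fun w _ => ∀ p, ((Φ w).unop p).1 = p.1 * w) ?_ ?_ ?_ hw
      · intro p; simp
      · rintro w _ _ ⟨u, rfl⟩ h p
        rw [hmul, hr]
        show ((Φ w).unop p).1 * FreeGroup.of u = _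
        rw [h, mul_assoc]
      · rintro w _ _ ⟨u, rfl⟩ h p
        rw [hmul, hinv, hr]
        show ((Φ w).unop p).1 * (FreeGroup.of u)⁻¹ = _
        rw [h, mul_assoc]
    refine ⟨fun g => ((Φ g).unop (1, 0)).2, ?_⟩
    rintro ⟨g, i⟩
    show ((Φ (g * FreeGroup.of i)).unop (1, 0)).2 - ((Φ g).unop (1, 0)).2 = f (g, i)
    rw [hmul, hr]
    show ((Φ g).unop (1, 0)).2 + f (((Φ g).unop (1, 0)).1, i) - _ = _
    rw [hfst, one_mul, add_sub_cancel_left]

end Crest.Agent.R197
end

-- ▼ part R197/E3Top
section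

/-! Row 197, task T2: topology of the product of three trees `E3 T`.

Because `Pt T` and `Cl T` are (non-reducible) definitions, use the constructors `Pt.vert v`,
`Pt.edge e s`, `Cl.vert v`, `Cl.edge e` and the case principles `Pt.cases'`, `Cl.cases'`
(`induction p using Pt.cases'`) instead of `Sum.inl`/`Sum.inr`. -/

set_option autoImplicit false

open Set Topology

namespace Crest.Agent.R197

open OrGraph

/-! ### clamping -/







namespace OrGraph

variable {T : OrGraph}

/-- vertex point -/
def Pt.vert (v : T.V) : T.Pt := Sum.inl v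
/-- interior edge point -/
def Pt.edge (e : T.E) (s : Ioo (-1 : ℝ) 1) : T.Pt := Sum.inr (e, s)
/-- vertex cell -/
def Cl.vert (v : T.V) : T.Cl := Sum.inl v
/-- edge cell -/
def Cl.edge (e : T.E) : T.Cl := Sum.inr e

@[elab_as_elim] theorem Pt.cases' {motive : T.Pt → Prop} (vert : ∀ v, motive (Pt.vert v))
    (edge : ∀ e s, motive (Pt.edge e s)) (p : T.Pt) : motive p := by
  rcases p with v | ⟨e, s⟩
  · exact vert v
  · exact edge e s

@[elab_as_elim] theorem Cl.cases' {motive : T.Cl → Prop} (vert : ∀ v, motive (Cl.vert v))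
    (edge : ∀ e, motive (Cl.edge e)) (p : T.Cl) : motive p := by
  rcases p with v | e
  · exact vert v
  · exact edge e

@[simp] theorem Pt.vert_inj {v w : T.V} : Pt.vert v = Pt.vert w ↔ v = w :=
  ⟨fun h => Sum.inl.inj h, fun h => congrArg _ h⟩
@[simp] theorem Pt.edge_inj {e e' : T.E} {s s' : Ioo (-1 : ℝ) 1} :
    Pt.edge e s = Pt.edge e' s' ↔ e = e' ∧ s = s' :=
  ⟨fun h => Prod.ext_iff.mp (Sum.inr.inj h), fun h => by rw [h.1, h.2]⟩
@[simp] theorem Pt.vert_ne_edge {v : T.V} {e : T.E} {s : Ioo (-1 : ℝ) 1} :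
    Pt.vert v ≠ Pt.edge e s := Sum.inl_ne_inr
@[simp] theorem Pt.edge_ne_vert {v : T.V} {e : T.E} {s : Ioo (-1 : ℝ) 1} :
    Pt.edge e s ≠ Pt.vert v := Sum.inr_ne_inl
@[simp] theorem Cl.vert_inj {v w : T.V} : Cl.vert v = Cl.vert w ↔ v = w :=
  ⟨fun h => Sum.inl.inj h, fun h => congrArg _ h⟩
@[simp] theorem Cl.edge_inj {e e' : T.E} : Cl.edge e = Cl.edge e' ↔ e = e' :=
  ⟨fun h => Sum.inr.inj h, fun h => congrArg _ h⟩
@[simp] theorem Cl.vert_ne_edge {v : T.V} {e : T.E} : Cl.vert v ≠ Cl.edge e := Sum.inl_ne_inr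
@[simp] theorem Cl.edge_ne_vert {v : T.V} {e : T.E} : Cl.edge e ≠ Cl.vert v := Sum.inr_ne_inl

variable (T)

@[simp] theorem chr_vert (v : T.V) (s : ℝ) : T.chr (Cl.vert v) s = Pt.vert v := rfl

theorem chr_edge_mem (e : T.E) {s : ℝ} (h : -1 < s ∧ s < 1) :
    T.chr (Cl.edge e) s = Pt.edge e ⟨s, h⟩ := by
  exact dif_pos h

theorem chr_edge_le (e : T.E) {s : ℝ} (h : s ≤ -1) : T.chr (Cl.edge e) s = Pt.vert (T.o e) := by
  have h' : ¬ (-1 < s ∧ s < 1) := fun h' => absurd h'.1 (not_lt.mpr h)
  exact (dif_neg h').trans (if_pos h)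

theorem chr_edge_ge (e : T.E) {s : ℝ} (h : 1 ≤ s) : T.chr (Cl.edge e) s = Pt.vert (T.t e) := by
  have h' : ¬ (-1 < s ∧ s < 1) := fun h' => absurd h'.2 (not_lt.mpr h)
  have h'' : ¬ s ≤ -1 := by intro h2; linarith
  exact (dif_neg h').trans (if_neg h'')



/-- basic neighbourhoods -/
def nb (ε : ℝ) (p q : T.Pt) : Prop :=
  match p, q with
  | Sum.inl v, Sum.inl w => w = v
  | Sum.inl v, Sum.inr (e, s) => (T.o e = v ∧ s.1 < -1 + ε) ∨ (T.t e = v ∧ 1 - ε < s.1)
  | Sum.inr _, Sum.inl _ => False
  | Sum.inr (e, s), Sum.inr (e', s') => e' = e ∧ |s'.1 - s.1| < ε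

variable {T}

@[simp] theorem nb_vv {ε : ℝ} {v w : T.V} : T.nb ε (Pt.vert v) (Pt.vert w) ↔ w = v := Iff.rfl

@[simp] theorem nb_ve {ε : ℝ} {v : T.V} {e : T.E} {s : Ioo (-1 : ℝ) 1} :
    T.nb ε (Pt.vert v) (Pt.edge e s) ↔
      (T.o e = v ∧ s.1 < -1 + ε) ∨ (T.t e = v ∧ 1 - ε < s.1) := Iff.rfl

@[simp] theorem nb_ev {ε : ℝ} {v : T.V} {e : T.E} {s : Ioo (-1 : ℝ) 1} :
    T.nb ε (Pt.edge e s) (Pt.vert v) ↔ False := Iff.rfl

@[simp] theorem nb_ee {ε : ℝ} {e e' : T.E} {s s' : Ioo (-1 : ℝ) 1} :
    T.nb ε (Pt.edge e s) (Pt.edge e' s') ↔ e' = e ∧ |s'.1 - s.1| < ε := Iff.rfl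

theorem self_nb {ε : ℝ} (hε : 0 < ε) (p : T.Pt) : T.nb ε p p := by
  induction p using Pt.cases' with
  | vert v => simp
  | edge e s => simp [hε]

theorem nb_mono {ε ε' : ℝ} (h : ε ≤ ε') {p q : T.Pt} (hq : T.nb ε p q) : T.nb ε' p q := by
  induction p using Pt.cases' with
  | vert v =>
    induction q using Pt.cases' with
    | vert w => exact hq
    | edge e s =>
      rw [nb_ve] at hq ⊢
      rcases hq with ⟨h1, h2⟩ | ⟨h1, h2⟩
      · exact Or.inl ⟨h1, by linarith⟩
      · exact Or.inr ⟨h1, by linarith⟩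
  | edge e s =>
    induction q using Pt.cases' with
    | vert w => exact hq.elim
    | edge e s =>
      rw [nb_ee] at hq ⊢
      exact ⟨hq.1, lt_of_lt_of_le hq.2 h⟩

theorem isOpen_preimage_nb {ε : ℝ} (hε0 : 0 < ε) (hε : ε ≤ 2) (p : T.Pt) (c : T.Cl) :
    IsOpen {s : ℝ | T.nb ε p (T.chr c s)} := by
  induction c using Cl.cases' with
  | vert w => exact (isOpen_const : IsOpen {_s : ℝ | T.nb ε p (Pt.vert w)})
  | edge e =>
    induction p using Pt.cases' with
    | vert v =>
      have key : {s : ℝ | T.nb ε (Pt.vert v) (T.chr (Cl.edge e) s)}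
          = {s | T.o e = v ∧ s < -1 + ε} ∪ {s | T.t e = v ∧ 1 - ε < s} := by
        ext s
        change T.nb ε (Pt.vert v) (T.chr (Cl.edge e) s) ↔
          (T.o e = v ∧ s < -1 + ε) ∨ (T.t e = v ∧ 1 - ε < s)
        rcases le_or_gt s (-1) with h | h
        · rw [chr_edge_le T e h, nb_vv]
          constructor
          · intro h1; exact Or.inl ⟨h1, by linarith⟩
          · rintro (⟨h1, -⟩ | ⟨-, h2⟩)
            · exact h1
            · linarith
        · rcases le_or_gt 1 s with h1 | h1
          · rw [chr_edge_ge T e h1, nb_vv]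
            constructor
            · intro h1; exact Or.inr ⟨h1, by linarith⟩
            · rintro (⟨-, h2⟩ | ⟨h2, -⟩)
              · linarith
              · exact h2
          · rw [chr_edge_mem T e ⟨h, h1⟩, nb_ve]
      rw [key]
      refine IsOpen.union ?_ ?_
      · by_cases h : T.o e = v
        · have : {s : ℝ | T.o e = v ∧ s < -1 + ε} = Iio (-1 + ε) := by ext s; simp [h]
          rw [this]; exact isOpen_Iio
        · simp [h]
      · by_cases h : T.t e = v
        · have : {s : ℝ | T.t e = v ∧ 1 - ε < s} = Ioi (1 - ε) := by ext s; simp [h]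
          rw [this]; exact isOpen_Ioi
        · simp [h]
    | edge e' s' =>
      have key : {s : ℝ | T.nb ε (Pt.edge e' s') (T.chr (Cl.edge e) s)}
          = {_s : ℝ | e = e'} ∩ ({s | |s - s'.1| < ε} ∩ Ioo (-1) 1) := by
        ext s
        change T.nb ε (Pt.edge e' s') (T.chr (Cl.edge e) s) ↔
          e = e' ∧ |s - s'.1| < ε ∧ -1 < s ∧ s < 1
        rcases le_or_gt s (-1) with h | h
        · rw [chr_edge_le T e h, nb_ev]
          constructor
          · intro h; exact h.elim
          · rintro ⟨-, -, h2, -⟩; linarith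
        · rcases le_or_gt 1 s with h1 | h1
          · rw [chr_edge_ge T e h1, nb_ev]
            constructor
            · intro h; exact h.elim
            · rintro ⟨-, -, -, h2⟩; linarith
          · rw [chr_edge_mem T e ⟨h, h1⟩, nb_ee]
            constructor
            · rintro ⟨h2, h3⟩; exact ⟨h2, h3, h, h1⟩
            · rintro ⟨h2, h3, -⟩; exact ⟨h2, h3⟩
      rw [key]
      refine IsOpen.inter isOpen_const (IsOpen.inter ?_ isOpen_Ioo)
      exact isOpen_lt (by fun_prop) continuous_const

end OrGraph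

/-! ### the product -/

variable {T : Fin 3 → OrGraph}

theorem continuous_chr3 (c : Cells T) : Continuous (chr3 T c) :=
  continuous_iff_coinduced_le.mpr
    (le_iSup (fun c : Cells T => TopologicalSpace.coinduced (chr3 T c) inferInstance) c)

theorem E3.isOpen_iff {s : Set (E3 T)} : IsOpen s ↔ ∀ c, IsOpen (chr3 T c ⁻¹' s) := by
  rw [isOpen_iSup_iff]
  exact forall_congr' fun c => isOpen_coinduced


theorem E3.continuous_iff {Y : Type*} [TopologicalSpace Y] {f : E3 T → Y} :
    Continuous f ↔ ∀ c, Continuous (f ∘ chr3 T c) := by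
  constructor
  · intro h c; exact h.comp (continuous_chr3 c)
  · intro h
    rw [continuous_def]
    intro s hs
    rw [E3.isOpen_iff]
    intro c
    exact (h c).isOpen_preimage s hs








/-- basic box neighbourhood -/
def box (ε : ℝ) (z : E3 T) : Set (E3 T) := {w | ∀ i, (T i).nb ε (z i) (w i)}


theorem self_mem_box {ε : ℝ} (hε : 0 < ε) (z : E3 T) : z ∈ box ε z := fun i => self_nb hε (z i)


theorem isOpen_box {ε : ℝ} (hε0 : 0 < ε) (hε : ε ≤ 2) (z : E3 T) : IsOpen (box ε z) := by
  rw [E3.isOpen_iff]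
  intro c
  have : chr3 T c ⁻¹' box ε z = univ.pi fun i => {s | (T i).nb ε (z i) ((T i).chr (c i) s)} := by
    ext s
    constructor
    · intro h i _; exact h i
    · intro h i; exact h i trivial
  rw [this]
  exact isOpen_set_pi finite_univ fun i _ => isOpen_preimage_nb hε0 hε (z i) (c i)

theorem box_mem_nhds {ε : ℝ} (hε0 : 0 < ε) (hε : ε ≤ 2) (z : E3 T) : box ε z ∈ 𝓝 z :=
  (isOpen_box hε0 hε z).mem_nhds (self_mem_box hε0 z)

/-! ### group action -/

section action
variable {G : Type} [Group G]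

section single
variable {T : OrGraph} [MulAction G T.V] [MulAction G T.E]

@[simp] theorem Pt.smul_vert (g : G) (v : T.V) : g • (Pt.vert v) = Pt.vert (g • v) := rfl
@[simp] theorem Pt.smul_edge (g : G) (e : T.E) (s : Ioo (-1 : ℝ) 1) :
    g • (Pt.edge e s) = Pt.edge (g • e) s := rfl
@[simp] theorem Cl.smul_vert (g : G) (v : T.V) : g • (Cl.vert v) = Cl.vert (g • v) := rfl
@[simp] theorem Cl.smul_edge (g : G) (e : T.E) : g • (Cl.edge e) = Cl.edge (g • e) := rfl

theorem smul_chr [GAct G T] (g : G) (c : T.Cl) (s : ℝ) : g • T.chr c s = T.chr (g • c) s := by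
  induction c using Cl.cases' with
  | vert v => rfl
  | edge e =>
    rcases le_or_gt s (-1) with h | h
    · rw [chr_edge_le T e h, Cl.smul_edge, chr_edge_le T _ h, Pt.smul_vert, GAct.o_smul]
    · rcases le_or_gt 1 s with h1 | h1
      · rw [chr_edge_ge T e h1, Cl.smul_edge, chr_edge_ge T _ h1, Pt.smul_vert, GAct.t_smul]
      · rw [chr_edge_mem T e ⟨h, h1⟩, Cl.smul_edge, chr_edge_mem T _ ⟨h, h1⟩, Pt.smul_edge]

theorem smul_nb_smul [GAct G T] (g : G) {ε : ℝ} {p q : T.Pt} :
    T.nb ε (g • p) (g • q) ↔ T.nb ε p q := by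
  induction p using Pt.cases' with
  | vert v =>
    induction q using Pt.cases' with
    | vert w => simp
    | edge e s => simp [GAct.o_smul, GAct.t_smul]
  | edge e s =>
    induction q using Pt.cases' with
    | vert w => simp
    | edge e s => simp

/-- separation of orbits in one factor -/
theorem exists_sep (p p' : T.Pt) : ∃ ε : ℝ, 0 < ε ∧ ∀ g : G, ∀ q : T.Pt,
    T.nb ε (g • p) q → T.nb ε p' q → g • p = p' := by
  induction p using Pt.cases' with
  | vert v =>
    induction p' using Pt.cases' with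
    | vert v' =>
      refine ⟨1, one_pos, fun g q h1 h2 => ?_⟩
      rw [Pt.smul_vert] at h1 ⊢
      induction q using Pt.cases' with
      | vert w =>
        rw [nb_vv] at h1 h2
        rw [← h1, h2]
      | edge e s =>
        rw [nb_ve] at h1 h2
        rcases h1 with ⟨h1, h3⟩ | ⟨h1, h3⟩ <;> rcases h2 with ⟨h2, h4⟩ | ⟨h2, h4⟩
        · rw [← h1, h2]
        · linarith
        · linarith
        · rw [← h1, h2]
    | edge e' s' =>
      have hs1 := s'.2.1
      have hs2 := s'.2.2
      refine ⟨min (1 + s'.1) (1 - s'.1) / 2, ?_, fun g q h1 h2 => ?_⟩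
      · have : 0 < min (1 + s'.1) (1 - s'.1) := lt_min (by linarith) (by linarith)
        linarith
      · rw [Pt.smul_vert] at h1
        induction q using Pt.cases' with
        | vert w => exact h2.elim
        | edge e s =>
          have a1 : min (1 + s'.1) (1 - s'.1) ≤ 1 + s'.1 := min_le_left _ _
          have a2 : min (1 + s'.1) (1 - s'.1) ≤ 1 - s'.1 := min_le_right _ _
          rw [nb_ee] at h2
          rw [nb_ve] at h1
          have h2' := abs_lt.mp h2.2
          rcases h1 with ⟨-, h3⟩ | ⟨-, h3⟩ <;> exfalso <;> linarith [h2'.1, h2'.2]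
  | edge e s =>
    induction p' using Pt.cases' with
    | vert v' =>
      have hs1 := s.2.1
      have hs2 := s.2.2
      refine ⟨min (1 + s.1) (1 - s.1) / 2, ?_, fun g q h1 h2 => ?_⟩
      · have : 0 < min (1 + s.1) (1 - s.1) := lt_min (by linarith) (by linarith)
        linarith
      · rw [Pt.smul_edge] at h1
        induction q using Pt.cases' with
        | vert w => exact h1.elim
        | edge e'' s'' =>
          have a1 : min (1 + s.1) (1 - s.1) ≤ 1 + s.1 := min_le_left _ _
          have a2 : min (1 + s.1) (1 - s.1) ≤ 1 - s.1 := min_le_right _ _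
          rw [nb_ee] at h1
          rw [nb_ve] at h2
          have h1' := abs_lt.mp h1.2
          rcases h2 with ⟨-, h3⟩ | ⟨-, h3⟩ <;> exfalso <;> linarith [h1'.1, h1'.2]
    | edge e' s' =>
      by_cases hss : s = s'
      · refine ⟨1, one_pos, fun g q h1 h2 => ?_⟩
        rw [Pt.smul_edge] at h1 ⊢
        induction q using Pt.cases' with
        | vert w => exact h1.elim
        | edge e'' s'' =>
          rw [nb_ee] at h1 h2
          rw [← h1.1, h2.1, hss]
      · have hne : s.1 - s'.1 ≠ 0 := fun h => hss (Subtype.ext (sub_eq_zero.mp h))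
        refine ⟨|s.1 - s'.1| / 2, by have := abs_pos.mpr hne; linarith, fun g q h1 h2 => ?_⟩
        rw [Pt.smul_edge] at h1
        induction q using Pt.cases' with
        | vert w => exact h1.elim
        | edge e'' s'' =>
          exfalso
          rw [nb_ee] at h1 h2
          have h1' : |s''.1 - s.1| < |s.1 - s'.1| / 2 := h1.2
          have h2' : |s''.1 - s'.1| < |s.1 - s'.1| / 2 := h2.2
          have h3 : |s.1 - s'.1| ≤ |s''.1 - s'.1| + |s''.1 - s.1| := by
            have h4 : s.1 - s'.1 = (s''.1 - s'.1) - (s''.1 - s.1) := by ring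
            rw [h4]
            exact abs_sub _ _
          linarith

end single

variable [∀ i, MulAction G (T i).V] [∀ i, MulAction G (T i).E]

@[simp] theorem E3.smul_apply (g : G) (z : E3 T) (i : Fin 3) : (g • z) i = g • z i := rfl
@[simp] theorem Cells.smul_apply (g : G) (c : Cells T) (i : Fin 3) : (g • c) i = g • c i := rfl

theorem exists_sep3 (G : Type) [Group G] [∀ i, MulAction G (T i).V] [∀ i, MulAction G (T i).E]
    (z z' : E3 T) : ∃ ε : ℝ, 0 < ε ∧ ε ≤ 2 ∧ ∀ g : G,
    (box ε (g • z) ∩ box ε z').Nonempty → g • z = z' := by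
  choose ε hε h using fun i => exists_sep (G := G) (z i) (z' i)
  refine ⟨min 2 (min (ε 0) (min (ε 1) (ε 2))), ?_, min_le_left _ _, ?_⟩
  · exact lt_min two_pos (lt_min (hε 0) (lt_min (hε 1) (hε 2)))
  · rintro g ⟨w, hw, hw'⟩
    have hi : ∀ i, min 2 (min (ε 0) (min (ε 1) (ε 2))) ≤ ε i := by
      intro i
      fin_cases i
      · exact (min_le_right _ _).trans (min_le_left _ _)
      · exact (min_le_right _ _).trans ((min_le_right _ _).trans (min_le_left _ _))
      · exact (min_le_right _ _).trans ((min_le_right _ _).trans (min_le_right _ _))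
    funext i
    exact h i g (w i) (nb_mono (hi i) (hw i)) (nb_mono (hi i) (hw' i))

/-- the vertex supporting a point (origin of the edge for an interior point) -/
def OrGraph.baseV {T : OrGraph} (p : T.Pt) : T.V :=
  match p with
  | Sum.inl v => v
  | Sum.inr (e, _) => T.o e

@[simp] theorem OrGraph.baseV_vert {T : OrGraph} (v : T.V) : baseV (Pt.vert v) = v := rfl
@[simp] theorem OrGraph.baseV_edge {T : OrGraph} (e : T.E) (s : Ioo (-1 : ℝ) 1) :
    baseV (Pt.edge e s) = T.o e := rfl

variable [∀ i, GAct G (T i)]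

theorem smul_baseV {T : OrGraph} [MulAction G T.V] [MulAction G T.E] [GAct G T] (g : G) (p : T.Pt) :
    g • baseV p = baseV (g • p) := by
  induction p using Pt.cases' with
  | vert v => rfl
  | edge e s => simp [GAct.o_smul]

omit [∀ i, GAct G (T i)] in
/-- the action is free on points -/
theorem free_of_freeOnVertices [∀ i, GAct G (T i)] (hfree : FreeOnVertices G T) (g : G)
    (z : E3 T) (h : g • z = z) : g = 1 := by
  refine hfree g (fun i => baseV (z i)) fun i => ?_
  have hi : g • z i = z i := congrFun h i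
  rw [smul_baseV, hi]

theorem smul_chr3 (g : G) (c : Cells T) (s : Fin 3 → ℝ) : g • chr3 T c s = chr3 T (g • c) s :=
  funext fun i => smul_chr g (c i) (s i)

theorem smul_mem_box_smul (g : G) {ε : ℝ} {z w : E3 T} : g • w ∈ box ε (g • z) ↔ w ∈ box ε z :=
  forall_congr' fun _ => smul_nb_smul g

theorem smul_image_box (g : G) (ε : ℝ) (z : E3 T) :
    (fun w => g • w) '' box ε z = box ε (g • z) := by
  ext w
  constructor
  · rintro ⟨w', hw', rfl⟩
    exact (smul_mem_box_smul g).mpr hw'
  · intro hw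
    refine ⟨g⁻¹ • w, ?_, smul_inv_smul g w⟩
    rw [← smul_mem_box_smul g, smul_inv_smul]
    exact hw

instance E3.instContinuousConstSMul : ContinuousConstSMul G (E3 T) where
  continuous_const_smul g := by
    rw [E3.continuous_iff]
    intro c
    have : (fun z : E3 T => g • z) ∘ chr3 T c = chr3 T (g • c) := by
      funext s; exact smul_chr3 g c s
    rw [this]
    exact continuous_chr3 (g • c)




end action

/-- Hausdorff property (separation for the trivial group) -/
instance E3.instT2Space : T2Space (E3 T) := by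
  let _ : ∀ i, MulAction (Equiv.Perm Empty) (T i).V := fun i =>
    { smul := fun _ v => v, one_smul := fun _ => rfl, mul_smul := fun _ _ _ => rfl }
  let _ : ∀ i, MulAction (Equiv.Perm Empty) (T i).E := fun i =>
    { smul := fun _ v => v, one_smul := fun _ => rfl, mul_smul := fun _ _ _ => rfl }
  refine ⟨fun z z' hne => ?_⟩
  obtain ⟨ε, h0, h2, h⟩ := exists_sep3 (Equiv.Perm Empty) z z'
  refine ⟨box ε z, box ε z', isOpen_box h0 h2 z, isOpen_box h0 h2 z', self_mem_box h0 z,
    self_mem_box h0 z', ?_⟩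
  rw [Set.disjoint_iff_inter_eq_empty, ← Set.not_nonempty_iff_eq_empty]
  intro hn
  have h1 : (1 : (Equiv.Perm Empty)) • z = z := one_smul _ z
  have := h 1 (by rw [h1]; exact hn)
  exact hne (h1 ▸ this)

end Crest.Agent.R197
end

-- ▼ part R197/E3CW
section

/-! Row 197 / task T5: the CW structure on the quotient of a product of three trees. -/

set_option autoImplicit false

namespace Crest.Agent.R197

open OrGraph Metric Set

section general

/-- inverse of a map which is injective on the open ball, relative to the closed ball -/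
theorem continuousOn_invFunOn_ball {n : ℕ} {X : Type*} [TopologicalSpace X] [T2Space X]
    (f : (Fin n → ℝ) → X) (hf : ContinuousOn f (closedBall 0 1))
    (hinj : ∀ s ∈ ball (0 : Fin n → ℝ) 1, ∀ s' ∈ closedBall (0 : Fin n → ℝ) 1, f s = f s' → s = s') :
    ContinuousOn (Function.invFunOn f (ball 0 1)) (f '' ball 0 1) := by
  rw [continuousOn_iff_isClosed]
  intro t ht
  refine ⟨f '' (t ∩ closedBall 0 1), ?_, ?_⟩
  · apply IsCompact.isClosed
    apply IsCompact.image_of_continuousOn
    · exact (isCompact_closedBall 0 1).inter_left ht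
    · exact hf.mono inter_subset_right
  · ext x
    constructor
    · rintro ⟨hx, hxS⟩
      refine ⟨⟨Function.invFunOn f (ball 0 1) x, ⟨hx, ?_⟩, ?_⟩, hxS⟩
      · exact ball_subset_closedBall (Function.invFunOn_mem hxS)
      · exact Function.invFunOn_eq hxS
    · rintro ⟨⟨s', ⟨hs't, hs'⟩, rfl⟩, hxS⟩
      refine ⟨?_, hxS⟩
      have h1 := Function.invFunOn_mem hxS
      have h2 := Function.invFunOn_eq hxS
      have := hinj _ h1 _ hs' h2
      show Function.invFunOn f (ball 0 1) (f s') ∈ t
      rw [this]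
      exact hs't

end general

namespace OrGraph
variable (T : OrGraph)

/-- the open cell containing a point -/
def cellOf : T.Pt → T.Cl
  | Sum.inl v => Sum.inl v
  | Sum.inr (e, _) => Sum.inr e

/-- the parameter of a point in its open cell -/
def coordOf : T.Pt → ℝ
  | Sum.inl _ => 0
  | Sum.inr (_, s) => (s : ℝ)

theorem chr_int (e : T.E) (s : ℝ) (h : -1 < s ∧ s < 1) :
    T.chr (Sum.inr e) s = Sum.inr (e, ⟨s, h⟩) := dif_pos h

theorem chr_low (e : T.E) (s : ℝ) (h : s ≤ -1) : T.chr (Sum.inr e) s = Sum.inl (T.o e) :=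
  (dif_neg (fun h' => absurd h'.1 (not_lt.mpr h))).trans (if_pos h)

theorem chr_high (e : T.E) (s : ℝ) (h : 1 ≤ s) : T.chr (Sum.inr e) s = Sum.inl (T.t e) :=
  (dif_neg (fun h' => absurd h'.2 (not_lt.mpr h))).trans
    (if_neg (not_le.mpr (lt_of_lt_of_le (by norm_num) h)))

theorem lmh (s : ℝ) : (-1 < s ∧ s < 1) ∨ s ≤ -1 ∨ 1 ≤ s := by
  by_cases h1 : s ≤ -1
  · exact Or.inr (Or.inl h1)
  · by_cases h2 : 1 ≤ s
    · exact Or.inr (Or.inr h2)
    · exact Or.inl ⟨not_le.mp h1, not_le.mp h2⟩

theorem chr_cellOf_coordOf (p : T.Pt) : T.chr (T.cellOf p) (T.coordOf p) = p := by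
  rcases p with v | ⟨e, s, hs⟩
  · rfl
  · exact T.chr_int e s hs

theorem abs_coordOf_lt (p : T.Pt) : |T.coordOf p| < 1 := by
  rcases p with v | ⟨e, s, hs⟩
  · simp [coordOf]
  · exact abs_lt.mpr hs


theorem cellOf_chr (c : T.Cl) (s : ℝ) (hs : |s| < 1) : T.cellOf (T.chr c s) = c := by
  rcases c with v | e
  · rfl
  · rw [T.chr_int e s (abs_lt.mp hs)]
    rfl

theorem coordOf_chr (c : T.Cl) (s : ℝ) (hs : |s| < 1) (hc : c.isRight = true) :
    T.coordOf (T.chr c s) = s := by
  rcases c with v | e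
  · simp at hc
  · rw [T.chr_int e s (abs_lt.mp hs)]
    rfl

/-- faces of a cell -/
def faces : T.Cl → Set T.Cl
  | Sum.inl v => {Sum.inl v}
  | Sum.inr e => {Sum.inr e, Sum.inl (T.o e), Sum.inl (T.t e)}

theorem faces_finite (c : T.Cl) : (T.faces c).Finite := by
  rcases c with v | e
  · exact Set.finite_singleton _
  · exact (((Set.finite_singleton _).insert _).insert _)

theorem cellOf_chr_mem_faces (c : T.Cl) (s : ℝ) : T.cellOf (T.chr c s) ∈ T.faces c := by
  rcases c with v | e
  · exact rfl
  · rcases lmh s with hs | hs | hs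
    · rw [T.chr_int e s hs]
      exact Or.inl rfl
    · rw [T.chr_low e s hs]
      exact Or.inr (Or.inl rfl)
    · rw [T.chr_high e s hs]
      exact Or.inr (Or.inr rfl)

theorem isRight_of_mem_faces {c c' : T.Cl} (h : c' ∈ T.faces c) (hr : c'.isRight = true) :
    c' = c := by
  rcases c with v | e
  · have : c' = Sum.inl v := h
    subst this
    simp at hr
  · rcases h with h | h | h
    · exact h
    · have : c' = Sum.inl (T.o e) := h
      subst this
      simp at hr
    · have : c' = Sum.inl (T.t e) := h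
      subst this
      simp at hr

theorem cellOf_chr_boundary (c : T.Cl) (s : ℝ) (hs : 1 ≤ |s|) :
    (T.cellOf (T.chr c s)).isRight = false := by
  rcases c with v | e
  · rfl
  · rcases lmh s with h1 | h1 | h1
    · exact absurd (abs_lt.mpr h1) (not_lt.mpr hs)
    · rw [T.chr_low e s h1]
      rfl
    · rw [T.chr_high e s h1]
      rfl

/-- clamping -/
noncomputable def clamp (s : ℝ) : ℝ := max (-1) (min 1 s)

theorem continuous_clamp : Continuous clamp := by
  unfold clamp; fun_prop

theorem abs_clamp_le (s : ℝ) : |clamp s| ≤ 1 := by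
  unfold clamp
  rw [abs_le]
  constructor
  · exact le_max_left _ _
  · exact max_le (by norm_num) (min_le_left _ _)

theorem chr_clampCW (c : T.Cl) (s : ℝ) : T.chr c (clamp s) = T.chr c s := by
  rcases c with v | e
  · rfl
  · rcases lmh s with h1 | h1 | h1
    · have : clamp s = s := by
        unfold clamp
        rw [min_eq_right h1.2.le, max_eq_right h1.1.le]
      rw [this]
    · have h3 : clamp s = -1 := by
        unfold clamp
        rw [min_eq_right (by linarith), max_eq_left h1]
      rw [h3, T.chr_low e s h1, T.chr_low e (-1) le_rfl]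
    · have h3 : clamp s = 1 := by
        unfold clamp
        rw [min_eq_left h1, max_eq_right (by norm_num)]
      rw [h3, T.chr_high e s h1, T.chr_high e 1 le_rfl]

theorem chr_inactive (c : T.Cl) (hc : c.isRight = false) (s s' : ℝ) : T.chr c s = T.chr c s' := by
  rcases c with v | e
  · rfl
  · simp at hc

section act
variable {T} {G : Type} [Group G] [MulAction G T.V] [MulAction G T.E]

theorem cellOf_smul (g : G) (p : T.Pt) : T.cellOf (g • p) = g • T.cellOf p := by
  rcases p with v | ⟨e, s⟩ <;> rfl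

theorem coordOf_smul (g : G) (p : T.Pt) : T.coordOf (g • p) = T.coordOf p := by
  rcases p with v | ⟨e, s⟩ <;> rfl

theorem isRight_smul (g : G) (c : T.Cl) : (g • c).isRight = c.isRight := by
  rcases c with v | e <;> rfl

theorem chr_smul [GAct G T] (g : G) (c : T.Cl) (s : ℝ) : T.chr (g • c) s = g • T.chr c s := by
  rcases c with v | e
  · rfl
  · show T.chr (Sum.inr (g • e)) s = _
    rcases lmh s with h1 | h1 | h1
    · rw [T.chr_int _ s h1, T.chr_int _ s h1]
      rfl
    · rw [T.chr_low _ s h1, T.chr_low _ s h1, GAct.o_smul]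
      rfl
    · rw [T.chr_high _ s h1, T.chr_high _ s h1, GAct.t_smul]
      rfl

end act

end OrGraph

section product
variable (T : Fin 3 → OrGraph)

/-- the open product cell of a point -/
def cellOf3 (z : E3 T) : Cells T := fun i => (T i).cellOf (z i)

/-- parameters of a point -/
def coordOf3 (z : E3 T) : Fin 3 → ℝ := fun i => (T i).coordOf (z i)

theorem chr3_cellOf3_coordOf3 (z : E3 T) : chr3 T (cellOf3 T z) (coordOf3 T z) = z :=
  funext fun i => (T i).chr_cellOf_coordOf (z i)

theorem continuous_chr3CW (c : Cells T) : Continuous (chr3 T c) := by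
  rw [continuous_iff_coinduced_le]
  exact le_iSup (fun c : Cells T => TopologicalSpace.coinduced (chr3 T c) inferInstance) c

theorem isClosed_E3_iff (A : Set (E3 T)) :
    IsClosed A ↔ ∀ c : Cells T, IsClosed (chr3 T c ⁻¹' A) := by
  constructor
  · intro h c
    exact h.preimage (continuous_chr3CW T c)
  · intro h
    rw [isClosed_iSup_iff]
    intro c
    rw [isClosed_coinduced]
    exact h c

variable {T}

/-- active coordinates -/
def act (c : Cells T) : Finset (Fin 3) := Finset.univ.filter (fun i => (c i).isRight)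

theorem mem_act {c : Cells T} {i : Fin 3} : i ∈ act c ↔ (c i).isRight = true := by
  simp [act]

theorem card_act (c : Cells T) : (act c).card = c.dim := rfl

theorem dim_le_three (c : Cells T) : c.dim ≤ 3 := by
  have := Finset.card_le_univ (act c)
  simpa [← card_act] using this

/-- enumeration of the active coordinates -/
noncomputable def enum (c : Cells T) {n : ℕ} (h : c.dim = n) : Fin n ≃ {i // i ∈ act c} :=
  ((act c).equivFinOfCardEq (by rw [card_act, h])).symm

/-- embedding of the parameter cube of the cell into the 3-dimensional cube -/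
noncomputable def emb (c : Cells T) {n : ℕ} (h : c.dim = n) (s : Fin n → ℝ) : Fin 3 → ℝ :=
  fun i => if hi : i ∈ act c then s ((enum c h).symm ⟨i, hi⟩) else 0

/-- projection to the active coordinates -/
noncomputable def prj (c : Cells T) {n : ℕ} (h : c.dim = n) (s : Fin 3 → ℝ) : Fin n → ℝ :=
  fun j => s (enum c h j)

theorem continuous_emb (c : Cells T) {n : ℕ} (h : c.dim = n) : Continuous (emb c h) := by
  unfold emb
  refine continuous_pi fun i => ?_
  by_cases hi : i ∈ act c
  · simp only [dif_pos hi]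
    exact continuous_apply _
  · simp only [dif_neg hi]
    exact continuous_const

theorem continuous_prj (c : Cells T) {n : ℕ} (h : c.dim = n) : Continuous (prj c h) := by
  unfold prj
  exact continuous_pi fun j => continuous_apply _

theorem prj_emb (c : Cells T) {n : ℕ} (h : c.dim = n) (s : Fin n → ℝ) :
    prj c h (emb c h s) = s := by
  funext j
  have hj : (enum c h j : Fin 3) ∈ act c := (enum c h j).2
  simp [prj, emb]

theorem chr3_emb_prj (c : Cells T) {n : ℕ} (h : c.dim = n) (s : Fin 3 → ℝ) :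
    chr3 T c (emb c h (prj c h s)) = chr3 T c s := by
  funext i
  by_cases hi : i ∈ act c
  · simp [chr3, emb, prj, hi]
  · have : (c i).isRight = false := by
      rw [mem_act] at hi
      simpa using hi
    exact (T i).chr_inactive _ this _ _

theorem abs_emb_lt (c : Cells T) {n : ℕ} (h : c.dim = n) (s : Fin n → ℝ) (hs : s ∈ ball (0 : Fin n → ℝ) 1)
    (i : Fin 3) : |emb c h s i| < 1 := by
  by_cases hi : i ∈ act c
  · simp only [emb, dif_pos hi]
    have := norm_le_pi_norm s ((enum c h).symm ⟨i, hi⟩)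
    rw [mem_ball_zero_iff] at hs
    exact lt_of_le_of_lt this hs
  · simp [emb, dif_neg hi]

theorem cellOf3_chr3_emb (c : Cells T) {n : ℕ} (h : c.dim = n) (s : Fin n → ℝ)
    (hs : s ∈ ball (0 : Fin n → ℝ) 1) : cellOf3 T (chr3 T c (emb c h s)) = c :=
  funext fun i => (T i).cellOf_chr _ _ (abs_emb_lt c h s hs i)

theorem prj_coordOf3_chr3_emb (c : Cells T) {n : ℕ} (h : c.dim = n) (s : Fin n → ℝ)
    (hs : s ∈ ball (0 : Fin n → ℝ) 1) : prj c h (coordOf3 T (chr3 T c (emb c h s))) = s := by
  conv_rhs => rw [← prj_emb c h s]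
  funext j
  have hj : (enum c h j : Fin 3) ∈ act c := (enum c h j).2
  exact (T _).coordOf_chr _ _ (abs_emb_lt c h s hs _) (mem_act.mp hj)

/-- faces of a product cell -/
def faces3 (c : Cells T) : Set (Cells T) := {c' | ∀ i, c' i ∈ (T i).faces (c i)}

theorem faces3_finite (c : Cells T) : (faces3 c).Finite := by
  have := Set.Finite.pi (t := fun i => (T i).faces (c i)) (fun i => (T i).faces_finite (c i))
  refine this.subset ?_
  intro c' hc' i _
  exact hc' i

theorem cellOf3_mem_faces3 (c : Cells T) (s : Fin 3 → ℝ) : cellOf3 T (chr3 T c s) ∈ faces3 c :=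
  fun i => (T i).cellOf_chr_mem_faces (c i) (s i)

theorem dim_lt_of_boundary (c : Cells T) {n : ℕ} (h : c.dim = n) (s : Fin n → ℝ)
    (hs : s ∈ sphere (0 : Fin n → ℝ) 1) : (cellOf3 T (chr3 T c (emb c h s))).dim < n := by
  obtain ⟨j, hj⟩ : ∃ j, 1 ≤ |s j| := by
    by_contra hcon
    push Not at hcon
    have h1 : ‖s‖ < 1 := (pi_norm_lt_iff one_pos).mpr hcon
    rw [mem_sphere_zero_iff_norm] at hs
    exact absurd hs h1.ne
  set i : Fin 3 := (enum c h j : Fin 3) with hi
  have hia : i ∈ act c := (enum c h j).2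
  have hemb : emb c h s i = s j := congrFun (prj_emb c h s) j
  subst h
  show (act (cellOf3 T (chr3 T c (emb c rfl s)))).card < (act c).card
  apply Finset.card_lt_card
  rw [Finset.ssubset_iff_of_subset]
  · refine ⟨i, hia, ?_⟩
    rw [mem_act]
    have := (T i).cellOf_chr_boundary (c i) (emb c rfl s i) (by rw [hemb]; exact hj)
    simp only [cellOf3, chr3]
    rw [this]
    simp
  · intro k hk
    rw [mem_act] at hk ⊢
    have := (T k).isRight_of_mem_faces (cellOf3_mem_faces3 c (emb c rfl s) k) hk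
    rw [← this]
    exact hk

section action
variable {G : Type} [Group G] [∀ i, MulAction G (T i).V] [∀ i, MulAction G (T i).E]

theorem cellOf3_smul (g : G) (z : E3 T) : cellOf3 T (g • z) = g • cellOf3 T z :=
  funext fun i => cellOf_smul g (z i)

theorem coordOf3_smul (g : G) (z : E3 T) : coordOf3 T (g • z) = coordOf3 T z :=
  funext fun i => coordOf_smul g (z i)

theorem chr3_smul [∀ i, GAct G (T i)] (g : G) (c : Cells T) (s : Fin 3 → ℝ) :
    chr3 T (g • c) s = g • chr3 T c s :=
  funext fun i => chr_smul g (c i) (s i)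

theorem dim_smul (g : G) (c : Cells T) : (g • c).dim = c.dim := by
  rw [← card_act, ← card_act]
  congr 1
  ext i
  rw [mem_act, mem_act]
  have : (g • c) i = g • c i := rfl
  rw [this, isRight_smul]

variable (G T)

/-- the orbit space -/
abbrev OrbSp : Type := MulAction.orbitRel.Quotient G (E3 T)

/-- orbit projection -/
abbrev qm (z : E3 T) : OrbSp T G := Quotient.mk'' z

variable {G T}

theorem qm_smul (g : G) (z : E3 T) : qm T G (g • z) = qm T G z := by
  apply Quotient.sound'
  exact MulAction.orbitRel_apply.mpr (MulAction.mem_orbit _ _)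

theorem qm_eq {z z' : E3 T} (h : qm T G z = qm T G z') : ∃ g : G, g • z' = z := by
  have := Quotient.exact h
  exact MulAction.orbitRel_apply.mp this

theorem continuous_qm : Continuous (qm T G) := continuous_quotient_mk'

variable (G T)

/-- index type of the `n`-cells: orbits of product cells, with dimension `n` -/
def QCell (n : ℕ) : Type := {o : MulAction.orbitRel.Quotient G (Cells T) // (Quotient.out o).dim = n}

variable {G T}

/-- representing product cell -/
noncomputable def QCell.rep {n : ℕ} (o : QCell T G n) : Cells T := Quotient.out o.1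

theorem QCell.dim_rep {n : ℕ} (o : QCell T G n) : o.rep.dim = n := o.2

/-- characteristic map of a cell of the quotient -/
noncomputable def QCell.chr {n : ℕ} (o : QCell T G n) (s : Fin n → ℝ) : OrbSp T G :=
  qm T G (chr3 T o.rep (emb o.rep o.dim_rep s))

theorem QCell.continuous_chr {n : ℕ} (o : QCell T G n) : Continuous o.chr :=
  continuous_qm.comp ((continuous_chr3CW T _).comp (continuous_emb _ _))

/-- the cell of the quotient containing a given product cell -/
noncomputable def mkQ (c : Cells T) {n : ℕ} (h : c.dim = n) : QCell T G n :=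
  ⟨Quotient.mk'' c, by
    have h1 : (Quotient.mk'' (Quotient.out (Quotient.mk'' c : MulAction.orbitRel.Quotient G (Cells T))) :
      MulAction.orbitRel.Quotient G (Cells T)) = Quotient.mk'' c := Quotient.out_eq' _
    have h2 := MulAction.orbitRel_apply.mp (Quotient.exact h1)
    obtain ⟨g, hg⟩ := h2
    rw [← hg]
    show (g • c).dim = n
    rw [dim_smul, h]⟩

theorem rep_mkQ (c : Cells T) {n : ℕ} (h : c.dim = n) :
    ∃ g : G, (mkQ (G := G) c h).rep = g • c := by
  have h1 : (Quotient.mk'' (Quotient.out (Quotient.mk'' c : MulAction.orbitRel.Quotient G (Cells T))) :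
      MulAction.orbitRel.Quotient G (Cells T)) = Quotient.mk'' c := Quotient.out_eq' _
  have h2 := MulAction.orbitRel_apply.mp (Quotient.exact h1)
  obtain ⟨g, hg⟩ := h2
  exact ⟨g, hg.symm⟩

theorem qm_chr3_eq [∀ i, GAct G (T i)] (c : Cells T) {n : ℕ} (h : c.dim = n) (s : Fin 3 → ℝ) :
    qm T G (chr3 T c s) =
      (mkQ (G := G) c h).chr (prj (mkQ (G := G) c h).rep (mkQ (G := G) c h).dim_rep s) := by
  obtain ⟨g, hg⟩ := rep_mkQ (G := G) c h
  unfold QCell.chr
  rw [chr3_emb_prj, hg, chr3_smul, qm_smul]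

theorem mem_open_of_point [∀ i, GAct G (T i)] (z : E3 T) {n : ℕ} (h : (cellOf3 T z).dim = n) :
    qm T G z ∈ (mkQ (G := G) (cellOf3 T z) h).chr '' ball 0 1 := by
  refine ⟨_, ?_, ((congrArg (qm T G) (chr3_cellOf3_coordOf3 T z)).symm.trans
    (qm_chr3_eq _ h (coordOf3 T z))).symm⟩
  rw [mem_ball_zero_iff, pi_norm_lt_iff one_pos]
  intro j
  exact (T _).abs_coordOf_lt _

/-- an interior parameter is determined by its image; the cell too -/
theorem chr_eq_chr {n m : ℕ} (o : QCell T G n) (o' : QCell T G m) (s : Fin n → ℝ) (s' : Fin m → ℝ)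
    (hs : s ∈ ball (0 : Fin n → ℝ) 1) (hs' : s' ∈ ball (0 : Fin m → ℝ) 1)
    (h : o.chr s = o'.chr s') : (⟨n, o⟩ : Σ n, QCell T G n) = ⟨m, o'⟩ := by
  obtain ⟨g, hg⟩ := qm_eq h
  have h1 := congrArg (cellOf3 T) hg
  rw [cellOf3_smul, cellOf3_chr3_emb _ _ _ hs, cellOf3_chr3_emb _ _ _ hs'] at h1
  have h2 : o.1 = o'.1 := by
    rw [← Quotient.out_eq' o.1, ← Quotient.out_eq' o'.1]
    apply Quotient.sound'
    exact MulAction.orbitRel_apply.mpr ⟨g, h1⟩
  have hnm : n = m := by rw [← o.2, ← o'.2, h2]
  subst hnm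
  have : o = o' := Subtype.ext h2
  rw [this]

theorem chr_inj {n : ℕ} (o : QCell T G n) (s s' : Fin n → ℝ)
    (hs : s ∈ ball (0 : Fin n → ℝ) 1) (hs' : s' ∈ closedBall (0 : Fin n → ℝ) 1)
    (h : o.chr s = o.chr s') : s = s' := by
  obtain ⟨g, hg⟩ := qm_eq h
  have h1 := congrArg (cellOf3 T) hg
  by_cases hs'' : s' ∈ ball (0 : Fin n → ℝ) 1
  · have h2 := congrArg (coordOf3 T) hg
    rw [coordOf3_smul] at h2
    rw [← prj_coordOf3_chr3_emb o.rep o.dim_rep s hs, ← prj_coordOf3_chr3_emb o.rep o.dim_rep s' hs'',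
      h2]
  · exfalso
    have hsph : s' ∈ sphere (0 : Fin n → ℝ) 1 := by
      rw [mem_sphere]
      rw [mem_closedBall] at hs'
      rw [mem_ball, not_lt] at hs''
      exact le_antisymm hs' hs''
    have h3 := dim_lt_of_boundary o.rep o.dim_rep s' hsph
    rw [cellOf3_smul, cellOf3_chr3_emb _ _ _ hs] at h1
    have h4 := congrArg Cells.dim h1
    rw [dim_smul, o.dim_rep] at h4
    omega

variable (G T)

/-- the CW structure on the orbit space -/
@[instance_reducible]
noncomputable def quotCW [∀ i, GAct G (T i)] [T2Space (OrbSp T G)] :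
    Topology.CWComplex (Set.univ : Set (OrbSp T G)) where
  cell n := QCell T G n
  map n o := Set.InjOn.toPartialEquiv o.chr (ball 0 1)
    (fun s hs s' hs' h => chr_inj o s s' hs (ball_subset_closedBall hs') h)
  source_eq n o := rfl
  continuousOn n o := o.continuous_chr.continuousOn
  continuousOn_symm n o :=
    continuousOn_invFunOn_ball o.chr o.continuous_chr.continuousOn
      (fun s hs s' hs' h => chr_inj o s s' hs hs' h)
  pairwiseDisjoint' := by
    rintro ⟨n, o⟩ - ⟨m, o'⟩ - hne
    show Disjoint (o.chr '' ball 0 1) (o'.chr '' ball 0 1)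
    rw [Set.disjoint_left]
    rintro x ⟨s, hs, rfl⟩ ⟨s', hs', hss⟩
    exact hne (chr_eq_chr o o' s s' hs hs' hss.symm)
  mapsTo' n o := by
    classical
    have hfin : ∀ m, {j : QCell T G m | j.1 ∈ (fun c : Cells T =>
        (Quotient.mk'' c : MulAction.orbitRel.Quotient G (Cells T))) '' faces3 o.rep}.Finite := by
      intro m
      exact Set.Finite.preimage (Subtype.val_injective.injOn) ((faces3_finite o.rep).image _)
    refine ⟨fun m => (hfin m).toFinset, ?_⟩
    intro s hs
    have h1 := dim_lt_of_boundary o.rep o.dim_rep s hs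
    have h2 := mem_open_of_point (G := G) (chr3 T o.rep (emb o.rep o.dim_rep s)) rfl
    simp only [Set.mem_iUnion]
    refine ⟨_, h1, mkQ (cellOf3 T (chr3 T o.rep (emb o.rep o.dim_rep s))) rfl, ?_, ?_⟩
    · rw [Set.Finite.mem_toFinset]
      exact ⟨_, cellOf3_mem_faces3 o.rep _, rfl⟩
    · exact Set.image_mono ball_subset_closedBall h2
  closed' A _ hA := by
    have hq : Topology.IsQuotientMap (qm T G) := isQuotientMap_quotient_mk'
    rw [← hq.isClosed_preimage, isClosed_E3_iff]
    intro c
    set o : QCell T G c.dim := mkQ (G := G) c rfl with ho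
    have h1 : IsClosed (A ∩ o.chr '' closedBall 0 1) := hA c.dim o
    have h2 : IsClosed (closedBall 0 1 ∩ o.chr ⁻¹' (A ∩ o.chr '' closedBall 0 1)) :=
      isClosed_closedBall.inter (h1.preimage o.continuous_chr)
    have h3 : Continuous (fun s : Fin 3 → ℝ => prj o.rep o.dim_rep (fun i => clamp (s i))) :=
      (continuous_prj _ _).comp (continuous_pi fun i => continuous_clamp.comp (continuous_apply i))
    convert h2.preimage h3 using 1
    ext s
    have h4 : qm T G (chr3 T c s) = o.chr (prj o.rep o.dim_rep (fun i => clamp (s i))) := by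
      rw [← qm_chr3_eq]
      congr 1
      funext i
      exact ((T i).chr_clampCW (c i) (s i)).symm
    have h5 : prj o.rep o.dim_rep (fun i => clamp (s i)) ∈ closedBall (0 : Fin c.dim → ℝ) 1 := by
      rw [mem_closedBall_zero_iff, pi_norm_le_iff_of_nonneg zero_le_one]
      intro j
      exact abs_clamp_le _
    constructor
    · intro h
      have h' : qm T G (chr3 T c s) ∈ A := h
      rw [h4] at h'
      exact ⟨h5, h', ⟨_, h5, rfl⟩⟩
    · rintro ⟨-, h', -⟩
      show qm T G (chr3 T c s) ∈ A
      rw [h4]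
      exact h'
  union' := by
    rw [Set.eq_univ_iff_forall]
    intro x
    obtain ⟨z, rfl⟩ : ∃ z, qm T G z = x := Quotient.exists_rep x
    simp only [Set.mem_iUnion]
    exact ⟨_, _, Set.image_mono ball_subset_closedBall (mem_open_of_point (G := G) z rfl)⟩

theorem quotCW_isEmpty [∀ i, GAct G (T i)] [T2Space (OrbSp T G)] (n : ℕ) (hn : 3 < n) :
    letI := quotCW T G
    IsEmpty (Topology.RelCWComplex.cell (Set.univ : Set (OrbSp T G)) n) := by
  refine ⟨fun o => ?_⟩
  have o' : QCell T G n := o
  have h := dim_le_three o'.rep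
  rw [o'.dim_rep] at h
  omega

theorem classifying_of_cover [∀ i, GAct G (T i)] (hT2 : T2Space (OrbSp T G))
    (hcov : Crest.Topology.HasContractibleCover (OrbSp T G))
    (hpi : ∃ x : OrbSp T G, Nonempty (FundamentalGroup (OrbSp T G) x ≃* G)) :
    Crest.Topology.HasClassifyingComplex G 3 :=
  ⟨OrbSp T G, inferInstance, quotCW T G, hT2, quotCW_isEmpty T G, hcov, hpi⟩

end action

end product

end Crest.Agent.R197
private theorem rz_023f9f6fce : type_of% @_root_.Crest.Agent.R197.OrGraph.cellOf.eq_1 := @_root_.Crest.Agent.R197.OrGraph.cellOf.eq_1 -- L48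
private theorem rz_fc439d70f1 : type_of% @_root_.Crest.Agent.R197.OrGraph.coordOf.eq_1 := @_root_.Crest.Agent.R197.OrGraph.coordOf.eq_1 -- L53
end

-- ▼ part R197/Rooted
section

/-! Row 197, task T1: rooted structure of a tree. -/

set_option autoImplicit false

namespace Crest.Agent.R197

open OrGraph

namespace OrGraph

/-- undirected adjacency -/
def Adj' (T : OrGraph) (a b : T.V) : Prop :=
  ∃ e, (T.o e = a ∧ T.t e = b) ∨ (T.o e = b ∧ T.t e = a)

/-- there is an edge path of length `n` from `v0` to `v` -/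
inductive Reach (T : OrGraph) (v0 : T.V) : ℕ → T.V → Prop
  | zero : Reach T v0 0 v0
  | succ {n : ℕ} {u v : T.V} (h : Reach T v0 n u) (huv : T.Adj' u v) : Reach T v0 (n + 1) v

theorem Adj'.symm {T : OrGraph} {a b : T.V} (h : T.Adj' a b) : T.Adj' b a := by
  obtain ⟨e, h | h⟩ := h
  · exact ⟨e, Or.inr h⟩
  · exact ⟨e, Or.inl h⟩

theorem exists_reach {T : OrGraph} (hT : T.Conn) (v0 v : T.V) : ∃ n, T.Reach v0 n v := by
  have key : ∀ a b : T.V, Relation.EqvGen (fun a b => ∃ e, T.o e = a ∧ T.t e = b) a b →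
      ((∃ n, T.Reach v0 n a) ↔ (∃ n, T.Reach v0 n b)) := by
    intro a b hab
    induction hab with
    | rel a b h =>
      obtain ⟨e, he⟩ := h
      constructor
      · rintro ⟨n, hn⟩
        exact ⟨n + 1, hn.succ ⟨e, Or.inl he⟩⟩
      · rintro ⟨n, hn⟩
        exact ⟨n + 1, hn.succ ⟨e, Or.inr he⟩⟩
    | refl a => exact Iff.rfl
    | symm a b _ ih => exact ih.symm
    | trans a b c _ _ ih1 ih2 => exact ih1.trans ih2
  exact (key v0 v (hT v0 v)).1 ⟨0, Reach.zero⟩

/-- Rooted structure on an oriented graph: depth function and parent edge. -/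
structure Rooted (T : OrGraph) (v0 : T.V) where
  dep : T.V → ℕ
  pe : T.V → Option T.E
  dep_root : dep v0 = 0
  eq_root : ∀ v, dep v = 0 → v = v0
  pe_root : pe v0 = none
  pe_ne : ∀ v, v ≠ v0 → ∃ e, pe v = some e ∧
    ((T.t e = v ∧ dep (T.o e) + 1 = dep v) ∨ (T.o e = v ∧ dep (T.t e) + 1 = dep v))
  edge : ∀ e, (dep (T.t e) = dep (T.o e) + 1 ∧ pe (T.t e) = some e) ∨
    (dep (T.o e) = dep (T.t e) + 1 ∧ pe (T.o e) = some e)

theorem nonempty_rooted (T : OrGraph) (hT : T.IsTree) (v0 : T.V) : Nonempty (T.Rooted v0) := by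
  classical
  let dep : T.V → ℕ := fun v => Nat.find (exists_reach hT.conn v0 v)
  have hdep : ∀ v, T.Reach v0 (dep v) v := fun v => Nat.find_spec (exists_reach hT.conn v0 v)
  have hmin : ∀ v n, T.Reach v0 n v → dep v ≤ n := fun v n h =>
    Nat.find_min' (exists_reach hT.conn v0 v) h
  have h0 : dep v0 = 0 := Nat.le_zero.mp (hmin v0 0 Reach.zero)
  have h0' : ∀ v, dep v = 0 → v = v0 := by
    intro v hv
    have h := hdep v
    rw [hv] at h
    cases h
    rfl
  -- parent edges
  have hpar : ∀ v, v ≠ v0 → ∃ e,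
      ((T.t e = v ∧ dep (T.o e) + 1 = dep v) ∨ (T.o e = v ∧ dep (T.t e) + 1 = dep v)) := by
    intro v hv
    have hpos : dep v ≠ 0 := fun h => hv (h0' v h)
    obtain ⟨n, hn⟩ := Nat.exists_eq_succ_of_ne_zero hpos
    have h := hdep v
    rw [hn] at h
    cases h with
    | succ h huv =>
      rename_i u
      have h1 : dep u ≤ n := hmin u n h
      have h2 : n + 1 ≤ dep u + 1 := by
        have := hmin v (dep u + 1) ((hdep u).succ huv)
        omega
      have h3 : dep u + 1 = dep v := by omega
      obtain ⟨e, he | he⟩ := huv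
      · exact ⟨e, Or.inl ⟨he.2, by rw [he.1]; exact h3⟩⟩
      · exact ⟨e, Or.inr ⟨he.1, by rw [he.2]; exact h3⟩⟩
  choose pe' hpe' using hpar
  let pe : T.V → Option T.E := fun v => if h : v = v0 then none else some (pe' v h)
  have hpe : ∀ v, v ≠ v0 → ∃ e, pe v = some e ∧
      ((T.t e = v ∧ dep (T.o e) + 1 = dep v) ∨ (T.o e = v ∧ dep (T.t e) + 1 = dep v)) := by
    intro v hv
    exact ⟨pe' v hv, by simp [pe, hv], hpe' v hv⟩
  -- every edge is a parent edge
  have hused : ∀ e, ∃ v, pe v = some e := by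
    intro e
    by_contra hne
    push Not at hne
    obtain ⟨F, hF⟩ := hT.acyc ℤ (fun e' => if e' = e then 1 else 0)
    have hconst : ∀ n : ℕ, ∀ v, dep v = n → F v = F v0 := by
      intro n
      induction n with
      | zero => intro v hv; rw [h0' v hv]
      | succ n ih =>
        intro v hv
        have hvne : v ≠ v0 := by rintro rfl; omega
        obtain ⟨e', he', h⟩ := hpe v hvne
        have hne' : e' ≠ e := by
          rintro rfl
          exact hne v he'
        have hFe := hF e'
        rw [if_neg hne'] at hFe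
        rcases h with ⟨h1, h2⟩ | ⟨h1, h2⟩
        · have := ih (T.o e') (by omega)
          rw [h1] at hFe
          linarith
        · have := ih (T.t e') (by omega)
          rw [h1] at hFe
          linarith
    have := hF e
    rw [if_pos rfl, hconst _ (T.t e) rfl, hconst _ (T.o e) rfl, sub_self] at this
    exact zero_ne_one this
  refine ⟨{ dep := dep, pe := pe, dep_root := h0, eq_root := h0', pe_root := by simp [pe],
            pe_ne := hpe, edge := ?_ }⟩
  intro e
  obtain ⟨v, hv⟩ := hused e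
  have hpe0 : pe v0 = none := by simp [pe]
  have hvne : v ≠ v0 := by
    intro h
    rw [h, hpe0] at hv
    cases hv
  obtain ⟨e', he', h⟩ := hpe v hvne
  have : e' = e := by
    rw [hv] at he'
    exact (Option.some.inj he').symm
  subst this
  rcases h with ⟨h1, h2⟩ | ⟨h1, h2⟩
  · left
    rw [h1]
    exact ⟨h2.symm, hv⟩
  · right
    rw [h1]
    exact ⟨h2.symm, hv⟩

/-- a choice of rooted structure -/
noncomputable def rooted (T : OrGraph) (hT : T.IsTree) (v0 : T.V) : T.Rooted v0 :=
  (nonempty_rooted T hT v0).some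


namespace Rooted
variable {T : OrGraph} {v0 : T.V} (R : T.Rooted v0)

/-- the endpoint of `e` farther from the root -/
noncomputable def far (e : T.E) : T.V :=
  open Classical in if R.dep (T.t e) = R.dep (T.o e) + 1 then T.t e else T.o e

/-- the endpoint of `e` closer to the root -/
noncomputable def near (e : T.E) : T.V :=
  open Classical in if R.dep (T.t e) = R.dep (T.o e) + 1 then T.o e else T.t e

theorem far_near (e : T.E) :
    (R.far e = T.t e ∧ R.near e = T.o e ∧ R.dep (T.t e) = R.dep (T.o e) + 1) ∨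
    (R.far e = T.o e ∧ R.near e = T.t e ∧ R.dep (T.o e) = R.dep (T.t e) + 1) := by
  unfold far near
  by_cases h : R.dep (T.t e) = R.dep (T.o e) + 1
  · left; simp [h]
  · right
    rcases R.edge e with h1 | h1
    · exact absurd h1.1 h
    · rw [if_neg h, if_neg h]
      exact ⟨rfl, rfl, h1.1⟩

theorem dep_far (e : T.E) : R.dep (R.far e) = R.dep (R.near e) + 1 := by
  rcases R.far_near e with ⟨h1, h2, h3⟩ | ⟨h1, h2, h3⟩ <;> rw [h1, h2, h3]

theorem pe_far (e : T.E) : R.pe (R.far e) = some e := by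
  rcases R.far_near e with ⟨h1, h2, h3⟩ | ⟨h1, h2, h3⟩
  · rw [h1]
    rcases R.edge e with h | h
    · exact h.2
    · omega
  · rw [h1]
    rcases R.edge e with h | h
    · omega
    · exact h.2

theorem far_injective : Function.Injective R.far := by
  intro e e' h
  have h1 := R.pe_far e
  rw [h, R.pe_far e'] at h1
  exact (Option.some.inj h1).symm

theorem exists_far {v : T.V} (hv : v ≠ v0) : ∃ e, R.far e = v := by
  obtain ⟨e, he, h⟩ := R.pe_ne v hv
  refine ⟨e, ?_⟩
  rcases R.far_near e with ⟨h1, h2, h3⟩ | ⟨h1, h2, h3⟩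
  · rcases h with ⟨h4, h5⟩ | ⟨h4, h5⟩
    · rw [h1, h4]
    · rw [h4] at h3; omega
  · rcases h with ⟨h4, h5⟩ | ⟨h4, h5⟩
    · rw [h4] at h3; omega
    · rw [h1, h4]


/-- the parent of a vertex (the root is its own parent) -/
noncomputable def par (v : T.V) : T.V :=
  match R.pe v with
  | none => v
  | some e => R.near e

theorem par_root : R.par v0 = v0 := by simp [par, R.pe_root]

theorem par_far (e : T.E) : R.par (R.far e) = R.near e := by simp [par, R.pe_far]

theorem dep_par (v : T.V) : R.dep (R.par v) = R.dep v - 1 := by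
  by_cases hv : v = v0
  · subst hv; rw [R.par_root, R.dep_root]
  · obtain ⟨e, rfl⟩ := R.exists_far hv
    rw [R.par_far, R.dep_far]; omega



end Rooted

end OrGraph

end Crest.Agent.R197
end

-- ▼ part R197/Contract
section

/-! Row 197, task T3: the product of three rooted trees (with the topology coherent with the
cubes) is contractible. -/

set_option autoImplicit false

namespace Crest.Agent.R197

open OrGraph Set

/-- rooted structure on an oriented graph, in the form used for the contraction -/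
structure RootData (T : OrGraph) where
  root : T.V
  dep : T.V → ℕ
  par : T.V → T.V
  cell : T.V → T.Cl
  sgn : T.V → ℝ
  hsgn : ∀ v, sgn v = 1 ∨ sgn v = -1
  seg_one : ∀ v (s : ℝ), 1 ≤ s → T.chr (cell v) (sgn v * s) = Sum.inl v
  seg_neg : ∀ v (s : ℝ), s ≤ -1 → 0 < dep v → T.chr (cell v) (sgn v * s) = Sum.inl (par v)
  dep_par : ∀ v, 0 < dep v → dep (par v) + 1 = dep v
  eq_root : ∀ v, dep v = 0 → v = root
  top : T.E → T.V
  cell_top : ∀ e, cell (top e) = Sum.inr e
  dep_top : ∀ e, 0 < dep (top e)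

/-- a path in the point set of a graph which is a cell on every unit interval -/
def PL {T : OrGraph} (γ : ℝ → T.Pt) : Prop :=
  ∀ m : ℤ, ∃ (c : T.Cl) (σ : ℝ), ∀ u : ℝ, (m : ℝ) ≤ u → u ≤ m + 1 → γ u = T.chr c (σ * (2 * (u - m) - 1))

theorem locallyFinite_cubes :
    LocallyFinite (fun m : Fin 3 → ℤ => {u : Fin 3 → ℝ | ∀ i, (m i : ℝ) ≤ u i ∧ u i ≤ m i + 1}) := by
  intro x
  refine ⟨Metric.ball x 1, Metric.ball_mem_nhds x one_pos, ?_⟩
  refine Set.Finite.subset
    (Set.finite_Icc (fun i => ⌊x i⌋ - 3 : Fin 3 → ℤ) (fun i => ⌊x i⌋ + 3 : Fin 3 → ℤ)) ?_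
  rintro m ⟨u, hu, hux⟩
  have hd : ∀ i, |u i - x i| < 1 := by
    intro i
    have h1 := hux
    rw [Metric.mem_ball] at h1
    have h2 := dist_le_pi_dist u x i
    rw [Real.dist_eq] at h2
    linarith
  constructor
  · intro i
    have h1 := abs_lt.1 (hd i)
    have h2 := hu i
    have h3 := Int.floor_le (x i)
    have h4 : ((⌊x i⌋ - 3 : ℤ) : ℝ) ≤ (m i : ℝ) := by push_cast; linarith [h2.1, h2.2, h1.1, h1.2]
    exact_mod_cast h4
  · intro i
    have h1 := abs_lt.1 (hd i)
    have h2 := hu i
    have h3 := Int.lt_floor_add_one (x i)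
    have h4 : (m i : ℝ) ≤ ((⌊x i⌋ + 3 : ℤ) : ℝ) := by push_cast; linarith [h2.1, h2.2, h1.1, h1.2]
    exact_mod_cast h4

theorem continuous_chr3' (T : Fin 3 → OrGraph) (c : Cells T) : Continuous (chr3 T c) :=
  continuous_iff_coinduced_le.2 (le_iSup (fun c : Cells T => TopologicalSpace.coinduced (chr3 T c) inferInstance) c)

/-- the box map of three paths -/
def boxPL {T : Fin 3 → OrGraph} (γ : ∀ i, ℝ → (T i).Pt) (u : Fin 3 → ℝ) : E3 T :=
  fun i => γ i (u i)

/-- the box map of three PL paths is continuous -/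
theorem continuous_box {T : Fin 3 → OrGraph} (γ : ∀ i, ℝ → (T i).Pt) (hγ : ∀ i, PL (γ i)) :
    Continuous (boxPL γ) := by
  refine locallyFinite_cubes.continuous ?_ ?_ ?_
  · rw [Set.eq_univ_iff_forall]
    intro u
    rw [Set.mem_iUnion]
    exact ⟨fun i => ⌊u i⌋, fun i => ⟨Int.floor_le _, (Int.lt_floor_add_one _).le⟩⟩
  · intro m
    have : {u : Fin 3 → ℝ | ∀ i, (m i : ℝ) ≤ u i ∧ u i ≤ m i + 1} =
        ⋂ i, {u : Fin 3 → ℝ | (m i : ℝ) ≤ u i ∧ u i ≤ m i + 1} := by
      ext u; simp
    rw [this]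
    refine isClosed_iInter fun i => ?_
    exact (isClosed_le continuous_const (continuous_apply i)).inter
      (isClosed_le (continuous_apply i) continuous_const)
  · intro m
    choose c σ h using fun i => hγ i (m i)
    have hc : Continuous (fun u : Fin 3 → ℝ =>
        chr3 T c (fun i => σ i * (2 * (u i - m i) - 1))) := by
      refine (continuous_chr3' T c).comp ?_
      fun_prop
    refine hc.continuousOn.congr ?_
    intro u hu
    funext i
    exact h i (u i) (hu i).1 (hu i).2

namespace RootData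

variable {T : OrGraph} (R : RootData T)

/-- geodesic from the root to `v` where `n = dep v` -/
noncomputable def gam : ℕ → T.V → ℝ → T.Pt
  | 0, v, _ => Sum.inl v
  | n + 1, v, u => if (n : ℝ) ≤ u then T.chr (R.cell v) (R.sgn v * (2 * (u - n) - 1))
      else gam n (R.par v) u

theorem gam_ge (n : ℕ) (v : T.V) (u : ℝ) (hu : (n : ℝ) ≤ u) : R.gam n v u = Sum.inl v := by
  cases n with
  | zero => rfl
  | succ n =>
    push_cast at hu
    rw [gam, if_pos (by linarith)]
    exact R.seg_one v _ (by linarith)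

theorem gam_succ_le (n : ℕ) (v : T.V) (hv : R.dep v = n + 1) (u : ℝ) (hu : u ≤ n) :
    R.gam (n + 1) v u = R.gam n (R.par v) u := by
  rcases hu.lt_or_eq with h | h
  · rw [gam, if_neg (not_le.2 h)]
  · rw [gam, if_pos h.ge, R.gam_ge n _ u h.ge]
    exact R.seg_neg v _ (by rw [h]; norm_num) (by omega)

theorem gam_PL (n : ℕ) : ∀ v : T.V, R.dep v = n → PL (R.gam n v) := by
  induction n with
  | zero =>
    intro v _ m
    exact ⟨Sum.inl v, 1, fun u _ _ => rfl⟩
  | succ n ih =>
    intro v hv m
    rcases lt_trichotomy m (n : ℤ) with h | h | h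
    · obtain ⟨c, σ, hc⟩ := ih (R.par v) (by have := R.dep_par v (by omega); omega) m
      refine ⟨c, σ, fun u h1 h2 => ?_⟩
      rw [← hc u h1 h2]
      refine R.gam_succ_le n v hv u ?_
      have : (m : ℝ) + 1 ≤ n := by exact_mod_cast h
      linarith
    · refine ⟨R.cell v, R.sgn v, fun u h1 h2 => ?_⟩
      have hm : (m : ℝ) = n := by rw [h]; simp
      rw [gam, if_pos (by linarith), hm]
    · refine ⟨Sum.inl v, 1, fun u h1 h2 => ?_⟩
      refine R.gam_ge (n + 1) v u ?_
      have : (n : ℝ) + 1 ≤ m := by exact_mod_cast h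
      push_cast
      linarith

theorem gam_zero (n : ℕ) : ∀ v : T.V, R.dep v = n → R.gam n v 0 = Sum.inl R.root := by
  induction n with
  | zero => intro v hv; rw [gam, R.eq_root v hv]
  | succ n ih =>
    intro v hv
    rw [R.gam_succ_le n v hv 0 (by positivity)]
    exact ih _ (by have := R.dep_par v (by omega); omega)

/-- top vertex of a cell -/
def topc : T.Cl → T.V
  | Sum.inl v => v
  | Sum.inr e => R.top e

/-- height function on a cell -/
noncomputable def hc : T.Cl → ℝ → ℝ
  | Sum.inl v, _ => R.dep v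
  | Sum.inr e, s => R.dep (R.top e) - 1 + (1 + R.sgn (R.top e) * (max (-1) (min s 1))) / 2

theorem continuous_hc (c : T.Cl) : Continuous (R.hc c) := by
  rcases c with v | e
  · exact continuous_const
  · unfold hc
    fun_prop

/-- contraction of the point set -/
noncomputable def con (t : ℝ) : T.Pt → T.Pt
  | Sum.inl v => R.gam (R.dep v) v ((1 - t) * R.dep v)
  | Sum.inr (e, s) => R.gam (R.dep (R.top e)) (R.top e)
      ((1 - t) * (R.dep (R.top e) - 1 + (1 + R.sgn (R.top e) * s) / 2))

theorem top_cases (e : T.E) : (R.sgn (R.top e) = 1 ∧ R.top e = T.t e ∧ R.par (R.top e) = T.o e) ∨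
    (R.sgn (R.top e) = -1 ∧ R.top e = T.o e ∧ R.par (R.top e) = T.t e) := by
  have h1 := R.seg_one (R.top e) 1 le_rfl
  have h2 := R.seg_neg (R.top e) (-1) le_rfl (R.dep_top e)
  rw [R.cell_top] at h1 h2
  rcases R.hsgn (R.top e) with h | h
  · left
    rw [h] at h1 h2
    refine ⟨h, ?_, ?_⟩
    · have : T.chr (Sum.inr e) (1 * 1) = Sum.inl (T.t e) := by
        simp only [chr]; norm_num
      rw [this] at h1
      exact (Sum.inl.inj h1).symm
    · have : T.chr (Sum.inr e) (1 * (-1)) = Sum.inl (T.o e) := by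
        simp only [chr]; norm_num
      rw [this] at h2
      exact (Sum.inl.inj h2).symm
  · right
    rw [h] at h1 h2
    refine ⟨h, ?_, ?_⟩
    · have : T.chr (Sum.inr e) (-1 * 1) = Sum.inl (T.o e) := by
        simp only [chr]; norm_num
      rw [this] at h1
      exact (Sum.inl.inj h1).symm
    · have : T.chr (Sum.inr e) (-1 * (-1)) = Sum.inl (T.t e) := by
        simp only [chr]; norm_num
      rw [this] at h2
      exact (Sum.inl.inj h2).symm

theorem con_par (t : ℝ) (ht : 0 ≤ t) (v : T.V) (hv : 0 < R.dep v) :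
    R.con t (Sum.inl (R.par v)) = R.gam (R.dep v) v ((1 - t) * (R.dep v - 1)) := by
  have hp := R.dep_par v hv
  obtain ⟨n, hn⟩ : ∃ n, R.dep v = n + 1 := ⟨R.dep v - 1, by omega⟩
  have hn' : R.dep (R.par v) = n := by omega
  rw [con, hn', hn]
  have : ((n + 1 : ℕ) : ℝ) - 1 = n := by push_cast; ring
  rw [this, R.gam_succ_le n v hn _ ?_]
  have h0 : (0 : ℝ) ≤ n := by positivity
  nlinarith

theorem con_chr (t : ℝ) (ht : 0 ≤ t) (c : T.Cl) (s : ℝ) :
    R.con t (T.chr c s) = R.gam (R.dep (R.topc c)) (R.topc c) ((1 - t) * R.hc c s) := by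
  rcases c with v | e
  · rfl
  · simp only [topc, hc]
    by_cases h : -1 < s ∧ s < 1
    · have h1 : T.chr (Sum.inr e) s = Sum.inr (e, ⟨s, h⟩) := by
        simp only [chr, dif_pos h]
      rw [h1, con]
      have h2 : max (-1) (min s 1) = s := by
        rw [min_eq_left h.2.le, max_eq_right h.1.le]
      rw [h2]
    · by_cases hs : s ≤ -1
      · have h1 : T.chr (Sum.inr e) s = Sum.inl (T.o e) := by
          simp only [chr, dif_neg h, if_pos hs]
        have h2 : max (-1) (min s 1) = -1 := by
          rw [min_eq_left (by linarith), max_eq_left hs]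
        rw [h1, h2]
        rcases R.top_cases e with ⟨h3, h4, h5⟩ | ⟨h3, h4, h5⟩
        · rw [← h5, R.con_par t ht _ (R.dep_top e), h3]
          congr 1
          ring
        · rw [← h4, con, h3]
          congr 1
          ring
      · have hs1 : 1 ≤ s := by
          by_contra h6
          exact h ⟨not_le.1 hs, not_le.1 h6⟩
        have h1 : T.chr (Sum.inr e) s = Sum.inl (T.t e) := by
          simp only [chr, dif_neg h, if_neg hs]
        have h2 : max (-1) (min s 1) = 1 := by
          rw [min_eq_right hs1, max_eq_right (by norm_num)]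
        rw [h1, h2]
        rcases R.top_cases e with ⟨h3, h4, h5⟩ | ⟨h3, h4, h5⟩
        · rw [← h4, con, h3]
          congr 1
          ring
        · rw [← h5, R.con_par t ht _ (R.dep_top e), h3]
          congr 1
          ring

theorem con_zero (p : T.Pt) : R.con 0 p = p := by
  rcases p with v | ⟨e, s⟩
  · rw [con, R.gam_ge _ _ _ (by simp)]
  · rw [con]
    obtain ⟨n, hn⟩ : ∃ n, R.dep (R.top e) = n + 1 := ⟨R.dep (R.top e) - 1, by have := R.dep_top e; omega⟩
    rw [hn]
    have hs := s.2
    have h2 : R.sgn (R.top e) * R.sgn (R.top e) = 1 := by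
      rcases R.hsgn (R.top e) with h | h <;> rw [h] <;> norm_num
    have h3 : -1 ≤ R.sgn (R.top e) * (s : ℝ) := by
      rcases R.hsgn (R.top e) with h | h <;> rw [h] <;> linarith [hs.1, hs.2]
    rw [gam, if_pos (by push_cast; linarith), R.cell_top]
    have h4 : R.sgn (R.top e) * (2 * ((1 - 0) * (((n + 1 : ℕ) : ℝ) - 1 +
        (1 + R.sgn (R.top e) * (s : ℝ)) / 2) - n) - 1) = s := by
      push_cast
      linear_combination (s : ℝ) * h2
    rw [h4]
    simp only [chr]
    rw [dif_pos ⟨hs.1, hs.2⟩]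

theorem con_one (p : T.Pt) : R.con 1 p = Sum.inl R.root := by
  rcases p with v | ⟨e, s⟩
  · rw [con, sub_self, zero_mul, R.gam_zero _ _ rfl]
  · rw [con, sub_self, zero_mul, R.gam_zero _ _ rfl]

end RootData

theorem isQuotientMap_cubes (T : Fin 3 → OrGraph) :
    Topology.IsQuotientMap (fun p : (Σ _ : Cells T, (Fin 3 → ℝ)) => chr3 T p.1 p.2) := by
  refine ⟨Topology.isCoinducing_iff.2 ?_, ?_⟩
  swap
  · intro z
    have h : ∀ i, ∃ (c : (T i).Cl) (s : ℝ), (T i).chr c s = z i := by
      intro i
      rcases hz : z i with v | ⟨e, s⟩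
      · exact ⟨Sum.inl v, 0, rfl⟩
      · refine ⟨Sum.inr e, s, ?_⟩
        simp only [chr]
        rw [dif_pos ⟨s.2.1, s.2.2⟩]
    choose c s h using h
    exact ⟨⟨c, s⟩, funext h⟩
  · intro U
    have : IsOpen U ↔ ∀ c : Cells T, IsOpen ((chr3 T c) ⁻¹' U) := by
      show @IsOpen _ (⨆ c : Cells T, TopologicalSpace.coinduced (chr3 T c) inferInstance) U ↔ _
      rw [isOpen_iSup_iff]
      rfl
    rw [this, isOpen_sigma_iff]
    rfl

theorem contractible_of_rootData (T : Fin 3 → OrGraph) (R : ∀ i, RootData (T i)) :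
    ContractibleSpace (E3 T) := by
  rw [contractible_iff_id_nullhomotopic]
  let H : unitInterval × E3 T → E3 T := fun p i => (R i).con p.1 (p.2 i)
  have hH : Continuous H := by
    refine (isQuotientMap_cubes T).continuous_lift_prod_right ?_
    -- I × Σ c, ℝ³
    have hswap : Continuous (fun q : (Σ _ : Cells T, (Fin 3 → ℝ)) × unitInterval =>
        H (q.2, chr3 T q.1.1 q.1.2)) := by
      have h1 : Continuous (fun q : (Σ _ : Cells T, (Fin 3 → ℝ) × unitInterval) =>
          H (q.2.2, chr3 T q.1 q.2.1)) := by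
        rw [continuous_sigma_iff]
        intro c
        have h2 : ∀ x : (Fin 3 → ℝ) × unitInterval, H (x.2, chr3 T c x.1) =
            boxPL (fun i => (R i).gam ((R i).dep ((R i).topc (c i))) ((R i).topc (c i)))
              (fun i => (1 - (x.2 : ℝ)) * (R i).hc (c i) (x.1 i)) := by
          intro x
          funext i
          exact (R i).con_chr x.2 x.2.2.1 (c i) (x.1 i)
        simp only [h2]
        have h3 := continuous_box (T := T)
          (fun i => (R i).gam ((R i).dep ((R i).topc (c i))) ((R i).topc (c i)))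
          (fun i => (R i).gam_PL _ _ rfl)
        refine h3.comp (f := fun x : (Fin 3 → ℝ) × unitInterval => fun i =>
          (1 - (x.2 : ℝ)) * (R i).hc (c i) (x.1 i)) ?_
        refine continuous_pi fun i => ?_
        have h4 := (R i).continuous_hc (c i)
        fun_prop
      exact h1.comp (Homeomorph.sigmaProdDistrib.continuous)
    exact hswap.comp continuous_swap
  refine ⟨(fun i => Sum.inl (R i).root : E3 T), ⟨⟨⟨H, hH⟩, ?_, ?_⟩⟩⟩
  · intro z
    funext i
    exact (R i).con_zero (z i)
  · intro z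
    funext i
    exact (R i).con_one (z i)

namespace RootData

variable {T : OrGraph} {v0 : T.V}

open Classical in
/-- root data from a rooted structure -/
noncomputable def ofRooted (R : T.Rooted v0) : RootData T where
  root := v0
  dep := R.dep
  par := R.par
  cell v := match R.pe v with
    | none => Sum.inl v
    | some e => Sum.inr e
  sgn v := if ∃ e, R.far e = v ∧ R.far e = T.t e ∧ R.near e = T.o e then 1 else -1
  hsgn v := by
    by_cases h : ∃ e, R.far e = v ∧ R.far e = T.t e ∧ R.near e = T.o e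
    · left; rw [if_pos h]
    · right; rw [if_neg h]
  seg_one v s hs := by
    by_cases hv : v = v0
    · subst hv
      rw [R.pe_root]
      rfl
    · obtain ⟨e, rfl⟩ := R.exists_far hv
      rw [R.pe_far]
      by_cases h : ∃ e', R.far e' = R.far e ∧ R.far e' = T.t e' ∧ R.near e' = T.o e'
      · rw [if_pos h, one_mul]
        obtain ⟨e', h1, h2, -⟩ := h
        obtain rfl := R.far_injective h1
        rw [h2]
        simp only [chr]
        rw [dif_neg (fun h => absurd h.2 (not_lt.2 hs)), if_neg (by linarith)]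
      · rw [if_neg h]
        rcases R.far_near e with ⟨h1, h2, -⟩ | ⟨h1, h2, -⟩
        · exact absurd ⟨e, rfl, h1, h2⟩ h
        · rw [h1]
          simp only [chr]
          rw [dif_neg (fun h => by linarith [h.1]), if_pos (by linarith)]
  seg_neg v s hs hd := by
    have hv : v ≠ v0 := by
      rintro rfl
      rw [R.dep_root] at hd
      exact lt_irrefl _ hd
    obtain ⟨e, rfl⟩ := R.exists_far hv
    rw [R.pe_far, R.par_far]
    by_cases h : ∃ e', R.far e' = R.far e ∧ R.far e' = T.t e' ∧ R.near e' = T.o e'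
    · rw [if_pos h, one_mul]
      obtain ⟨e', h1, -, h2⟩ := h
      obtain rfl := R.far_injective h1
      rw [h2]
      simp only [chr]
      rw [dif_neg (fun h => by linarith [h.1]), if_pos (by linarith)]
    · rw [if_neg h]
      rcases R.far_near e with ⟨h1, h2, -⟩ | ⟨h1, h2, -⟩
      · exact absurd ⟨e, rfl, h1, h2⟩ h
      · rw [h2]
        simp only [chr]
        rw [dif_neg (fun h => by linarith [h.2]), if_neg (by linarith)]
  dep_par v hd := by
    rw [R.dep_par]
    omega
  eq_root v h := R.eq_root v h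
  top := R.far
  cell_top e := by rw [R.pe_far]
  dep_top e := by rw [R.dep_far]; omega

end RootData

/-- task T3: the product of three trees is contractible -/
theorem e3_contractible (T : Fin 3 → OrGraph) (hT : ∀ i, (T i).IsTree) (v0 : ∀ i, (T i).V) :
    ContractibleSpace (E3 T) :=
  contractible_of_rootData T fun i => RootData.ofRooted (OrGraph.rooted (T i) (hT i) (v0 i))

end Crest.Agent.R197
private theorem rz_94c3beae65 : type_of% @_root_.Crest.Agent.R197.RootData.con.eq_1 := @_root_.Crest.Agent.R197.RootData.con.eq_1 -- L168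
private theorem rz_81371b7410 : type_of% @_root_.Crest.Agent.R197.RootData.gam.eq_def := @_root_.Crest.Agent.R197.RootData.gam.eq_def -- L100
private theorem rz_ee83c400dc : type_of% @_root_.Crest.Agent.R197.RootData.gam.eq_1 := @_root_.Crest.Agent.R197.RootData.gam.eq_1 -- L100
private theorem rz_1d12a17bdd : type_of% @_root_.Crest.Agent.R197.RootData.hc.eq_1 := @_root_.Crest.Agent.R197.RootData.hc.eq_1 -- L157
private theorem rz_d403da2bc0 : type_of% @_root_.Crest.Agent.R197.RootData.topc.eq_1 := @_root_.Crest.Agent.R197.RootData.topc.eq_1 -- L152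
end

-- ▼ part R197/ClassTrees
section

/-!
# Row 197: assembly of module T: `classifying_of_trees`
-/

set_option autoImplicit false

open Topology Set

namespace Crest.Agent.R197

variable {G : Type} [Group G] {T : Fin 3 → OrGraph} [∀ i, MulAction G (T i).V]
  [∀ i, MulAction G (T i).E] [∀ i, OrGraph.GAct G (T i)]

theorem e3_orbSep : OrbSep G (E3 T) := by
  intro z z'
  obtain ⟨ε, h0, h2, h⟩ := exists_sep3 G z z'
  refine ⟨box ε z, box_mem_nhds h0 h2 z, box ε z', box_mem_nhds h0 h2 z', fun g hg => ?_⟩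
  rw [smul_image_box] at hg
  exact h g hg

/-- A group acting on three trees, freely on the vertices of the product, has a classifying complex
of dimension at most three. -/
theorem classifying_of_trees (G : Type) [Group G] (T : Fin 3 → OrGraph)
    [∀ i, MulAction G (T i).V] [∀ i, MulAction G (T i).E] [∀ i, OrGraph.GAct G (T i)]
    (hT : ∀ i, (T i).IsTree) (v0 : ∀ i, (T i).V) (hfree : FreeOnVertices G T) :
    Crest.Topology.HasClassifyingComplex G 3 := by
  have : ContractibleSpace (E3 T) := e3_contractible T hT v0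
  have hsep : OrbSep G (E3 T) := e3_orbSep
  have hf : ∀ (g : G) (z : E3 T), g • z = z → g = 1 := fun g z h =>
    free_of_freeOnVertices hfree g z h
  exact classifying_of_cover T G (abs_t2 hsep) (abs_hasContractibleCover hsep hf)
    ⟨_, abs_pi1 hsep hf (fun i => Sum.inl (v0 i))⟩

end Crest.Agent.R197
end

-- ▼ part R197/Class3

/-!
# Row 197, task T6: the three trees of `GG`, freeness on vertices, `classifying_three`
-/

set_option autoImplicit false

namespace Crest.Agent.R197

/-- the Cayley tree of `F₄` with the `X`-action of `GG` -/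
def cayX : OrGraph := cayley (Fin 4)
/-- the Cayley tree of `F₄` with the `Y`-action of `GG` -/
def cayY : OrGraph := cayley (Fin 4)

instance instActCayXV : MulAction GG cayX.V where
  smul g p := actX g p
  one_smul p := actX_one p
  mul_smul g h p := actX_mul g h p

instance instActCayYV : MulAction GG cayY.V where
  smul g p := actY g p
  one_smul p := actY_one p
  mul_smul g h p := actY_mul g h p

instance instActCayXE : MulAction GG cayX.E where
  smul g e := (actX g e.1, permX g e.2)
  one_smul e := Prod.ext (actX_one e.1) (by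
    show permX 1 e.2 = e.2
    rw [map_one]; rfl)
  mul_smul g h e := Prod.ext (actX_mul g h e.1) (by
    show permX (g * h) e.2 = permX g (permX h e.2)
    rw [map_mul]; rfl)

instance instActCayYE : MulAction GG cayY.E where
  smul g e := (actY g e.1, permY g e.2)
  one_smul e := Prod.ext (actY_one e.1) (by
    show permY 1 e.2 = e.2
    rw [map_one]; rfl)
  mul_smul g h e := Prod.ext (actY_mul g h e.1) (by
    show permY (g * h) e.2 = permY g (permY h e.2)
    rw [map_mul]; rfl)



instance instGActCayX : OrGraph.GAct GG cayX where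
  o_smul _ _ := rfl
  t_smul g e := (actX_mul_of g e.1 e.2).symm

instance instGActCayY : OrGraph.GAct GG cayY where
  o_smul _ _ := rfl
  t_smul g e := (actY_mul_of g e.1 e.2).symm

/-- the three trees -/
def TT : Fin 3 → OrGraph := ![cayX, cayY, T3]

instance instActTTV : ∀ i, MulAction GG (TT i).V
  | 0 => inferInstanceAs (MulAction GG cayX.V)
  | 1 => inferInstanceAs (MulAction GG cayY.V)
  | 2 => inferInstanceAs (MulAction GG T3.V)

instance instActTTE : ∀ i, MulAction GG (TT i).E
  | 0 => inferInstanceAs (MulAction GG cayX.E)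
  | 1 => inferInstanceAs (MulAction GG cayY.E)
  | 2 => inferInstanceAs (MulAction GG T3.E)

instance instGActTT : ∀ i, OrGraph.GAct GG (TT i)
  | 0 => inferInstanceAs (OrGraph.GAct GG cayX)
  | 1 => inferInstanceAs (OrGraph.GAct GG cayY)
  | 2 => inferInstanceAs (OrGraph.GAct GG T3)

theorem TT_isTree : ∀ i, (TT i).IsTree
  | 0 => cayley_isTree (Fin 4)
  | 1 => cayley_isTree (Fin 4)
  | 2 => T3_isTree

/-- base vertices -/
def TTroot : ∀ i, (TT i).V
  | 0 => (1 : FreeGroup (Fin 4))
  | 1 => (1 : FreeGroup (Fin 4))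
  | 2 => ((1 : GG) : GG ⧸ Nbar)

theorem free_of_fix (hinj : ∀ n (hn : n ∈ Nbar), nbX ⟨n, hn⟩ = 1 → nbY ⟨n, hn⟩ = 1 → n = 1)
    (g : GG) (p q : FreeGroup (Fin 4)) (w : GG ⧸ Nbar) (h0 : actX g p = p) (h1 : actY g q = q)
    (h2 : g • w = w) : g = 1 := by
  induction w using QuotientGroup.induction_on with
  | H a =>
    have hn : a⁻¹ * g * a ∈ Nbar := by
      have h3 : ((g * a : GG) : GG ⧸ Nbar) = (a : GG ⧸ Nbar) := h2
      have h4 := QuotientGroup.eq.mp h3.symm
      rwa [← mul_assoc] at h4
    have hX : actX (a⁻¹ * g * a) (actX a⁻¹ p) = actX a⁻¹ p := by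
      rw [actX_mul, actX_act_inv, actX_mul, h0]
    have hY : actY (a⁻¹ * g * a) (actY a⁻¹ q) = actY a⁻¹ q := by
      rw [actY_mul, actY_act_inv, actY_mul, h1]
    rw [actX_of_mem hn] at hX
    rw [actY_of_mem hn] at hY
    have h5 := hinj _ hn (mul_eq_right.mp hX) (mul_eq_right.mp hY)
    have h6 : g = a * (a⁻¹ * g * a) * a⁻¹ := by group
    rw [h6, h5]
    group

/-- `G` acts freely on the vertices of the product of the three trees, given that
`Nbar → F₄ × F₄` is injective. -/
theorem freeOnVertices_TT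
    (hinj : ∀ n (hn : n ∈ Nbar), nbX ⟨n, hn⟩ = 1 → nbY ⟨n, hn⟩ = 1 → n = 1) :
    FreeOnVertices GG TT := fun g v hv =>
  free_of_fix hinj g (v 0) (v 1) (v 2) (hv 0) (hv 1) (hv 2)

/-- `G` acts freely on the vertices of the product of the three trees. -/
theorem freeOnVertices_GG : FreeOnVertices GG TT :=
  freeOnVertices_TT fun n hn hX hY =>
    congrArg Subtype.val (nbXY_injective (a₁ := ⟨n, hn⟩) (a₂ := 1) (by simp [hX, hY]))

/-- module T: `G` has a classifying complex of dimension at most three. -/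
theorem classifying_three : Crest.Topology.HasClassifyingComplex GG 3 :=
  classifying_of_trees GG TT TT_isTree TTroot freeOnVertices_GG

end Crest.Agent.R197
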