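import Mathlib
import Crest.Agent.R197.Defs

-- ▼ part R197/Wr
section

/-!
Row 197: the group of labelled permutations (right actions with labels in a group).
-/

set_option autoImplicit false

namespace Crest.Agent.R197

/-- Labelled permutations.  Composition is from left to right:
`(a * b)` first applies `a`, then `b`, and the labels multiply along the path. -/
@[ext] structure Wr (S W : Type*) where
  perm : Equiv.Perm S
  lab : S → W

namespace Wr

variable {S W : Type*} [Group W]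

instance : Mul (Wr S W) := ⟨fun a b => ⟨a.perm.trans b.perm, fun g => a.lab g * b.lab (a.perm g)⟩⟩
instance : One (Wr S W) := ⟨⟨Equiv.refl S, fun _ => 1⟩⟩
instance : Inv (Wr S W) := ⟨fun a => ⟨a.perm.symm, fun g => (a.lab (a.perm.symm g))⁻¹⟩⟩

@[simp] theorem mul_perm (a b : Wr S W) (g : S) : (a * b).perm g = b.perm (a.perm g) := rfl
@[simp] theorem mul_lab (a b : Wr S W) (g : S) :
    (a * b).lab g = a.lab g * b.lab (a.perm g) := rfl
@[simp] theorem one_perm (g : S) : (1 : Wr S W).perm g = g := rfl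
@[simp] theorem one_lab (g : S) : (1 : Wr S W).lab g = 1 := rfl
@[simp] theorem inv_perm (a : Wr S W) : (a⁻¹).perm = a.perm.symm := rfl
@[simp] theorem inv_lab (a : Wr S W) (g : S) :
    (a⁻¹).lab g = (a.lab (a.perm.symm g))⁻¹ := rfl

instance : Group (Wr S W) where
  mul_assoc a b c := by
    ext g <;> simp [mul_assoc]
  one_mul a := by ext g <;> simp
  mul_one a := by ext g <;> simp
  inv_mul_cancel a := by ext g <;> simp

/-- The subgroup of elements with trivial permutation and labels in `V`. -/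
def labIn (S : Type*) {W : Type*} [Group W] (V : Subgroup W) : Subgroup (Wr S W) where
  carrier := {a | (∀ g, a.perm g = g) ∧ ∀ g, a.lab g ∈ V}
  one_mem' := ⟨fun _ => rfl, fun _ => V.one_mem⟩
  mul_mem' := by
    rintro a b ⟨ha, ha'⟩ ⟨hb, hb'⟩
    exact ⟨fun g => by simp [ha, hb], fun g => V.mul_mem (ha' g) (hb' _)⟩
  inv_mem' := by
    rintro a ⟨ha, ha'⟩
    refine ⟨fun g => ?_, fun g => V.inv_mem (ha' _)⟩
    rw [inv_perm, Equiv.symm_apply_eq, ha]

theorem mem_labIn {V : Subgroup W} {a : Wr S W} :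
    a ∈ labIn S V ↔ (∀ g, a.perm g = g) ∧ ∀ g, a.lab g ∈ V := Iff.rfl

instance labIn_normal (V : Subgroup W) [V.Normal] : (labIn S V).Normal where
  conj_mem := by
    rintro a ⟨ha, ha'⟩ b
    refine ⟨fun g => ?_, fun g => ?_⟩
    · simp [ha]
    · simp only [mul_lab, inv_lab, mul_perm, ha, Equiv.symm_apply_apply]
      exact Subgroup.Normal.conj_mem ‹_› _ (ha' _) _

/-- evaluation of the label is a homomorphism on `labIn` -/
theorem commutator_labIn_le (V V' V'' : Subgroup W) (h : ⁅V, V'⁆ ≤ V'') :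
    ⁅labIn S V, labIn S V'⁆ ≤ labIn S V'' := by
  rw [Subgroup.commutator_le]
  rintro a ⟨ha, ha'⟩ b ⟨hb, hb'⟩
  have hb2 : ∀ g, b.perm.symm g = g := fun g => by rw [Equiv.symm_apply_eq, hb]
  have ha2 : ∀ g, a.perm.symm g = g := fun g => by rw [Equiv.symm_apply_eq, ha]
  refine ⟨fun g => ?_, fun g => ?_⟩
  · simp [commutatorElement_def, ha, hb, ha2, hb2]
  · simp only [commutatorElement_def, mul_lab, inv_lab, mul_perm, inv_perm, ha, hb, ha2, hb2]
    exact h (Subgroup.commutator_mem_commutator (ha' g) (hb' g))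

end Wr

end Crest.Agent.R197
end

-- ▼ part R197/DetBeta
section

/-!
# Row 197, module B3: first-letter function on free groups

`hd p` = index of the first letter of the reduced word of `p` (`none` for `p = 1`),
`bt p = (hd p).getD 0` for `p : FreeGroup (Fin 4)`,
`sub S` = subgroup generated by the letters in `S`, `chi` = exponent sum.
-/

set_option autoImplicit false
set_option linter.unusedSectionVars false
set_option linter.unusedSimpArgs false

namespace Crest.Agent.R197.Beta

open FreeGroup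

variable {ι κ : Type*} [DecidableEq ι] [DecidableEq κ]

/-- reduced word of `p` times a letter -/
theorem toWord_mul_letter (p : FreeGroup ι) (a : ι) (b : Bool) :
    (p * mk [(a, b)]).toWord =
      if p.toWord.getLast? = some (a, !b) then p.toWord.dropLast else p.toWord ++ [(a, b)] := by
  have hr : IsReduced p.toWord := isReduced_toWord
  have hp : p * mk [(a, b)] = mk (p.toWord ++ [(a, b)]) := by
    rw [← mul_mk, mk_toWord]
  split_ifs with h
  · have hne : p.toWord ≠ [] := by
      rintro h0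
      simp [h0] at h
    have hsplit : p.toWord = p.toWord.dropLast ++ [(a, !b)] := by
      have h1 := List.dropLast_append_getLast hne
      rw [List.getLast?_eq_some_getLast hne] at h
      rw [Option.some.injEq] at h
      rw [h] at h1
      exact h1.symm
    have hred : IsReduced p.toWord.dropLast := by
      apply hr.infix
      exact ⟨[], [(a, !b)], by simpa using hsplit.symm⟩
    rw [hp, toWord_mk, hsplit]
    have hstep : Red.Step (p.toWord.dropLast ++ [(a, !b)] ++ [(a, b)]) (p.toWord.dropLast) := by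
      have := @Red.Step.not ι p.toWord.dropLast [] a (!b)
      simpa using this
    rw [reduce.Step.eq hstep, hred.reduce_eq]
    simp
  · rw [hp, toWord_mk]
    apply IsReduced.reduce_eq
    refine List.IsChain.append hr (by simp) ?_
    intro x hx y hy
    simp only [List.head?_cons, Option.mem_def, Option.some.injEq] at hy hx
    subst hy
    intro hxa
    by_contra hb
    apply h
    rw [hx]
    congr 1
    obtain ⟨x1, x2⟩ := x
    simp only at hxa hb
    subst hxa
    congr 1
    cases x2 <;> cases b <;> simp_all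

/-- index of the first letter of the reduced word (`none` for `1`). -/
def hd (p : FreeGroup ι) : Option ι := p.toWord.head?.map Prod.fst

@[simp] theorem hd_one : hd (1 : FreeGroup ι) = none := by simp [hd]

@[simp] theorem hd_eq_none {p : FreeGroup ι} : hd p = none ↔ p = 1 := by
  simp [hd]

theorem hd_mul_letter {p : FreeGroup ι} (a : ι) (b : Bool) (hp : p ≠ 1)
    (hpq : p * mk [(a, b)] ≠ 1) : hd (p * mk [(a, b)]) = hd p := by
  have hp' : p.toWord ≠ [] := by simpa using hp
  have hpq' : (p * mk [(a, b)]).toWord ≠ [] := by simpa using hpq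
  unfold hd
  congr 1
  rw [toWord_mul_letter] at hpq' ⊢
  split_ifs at hpq' ⊢ with h
  · match hw : p.toWord, hp', hpq' with
    | x :: y :: l, _, _ => simp
    | [x], _, h2 => simp [hw] at h2
    | [], h1, _ => simp [hw] at h1
  · rw [List.head?_append_of_ne_nil _ hp']

/-- subgroup generated by the letters in `S`. -/
def sub (S : Set ι) : Subgroup (FreeGroup ι) := Subgroup.closure (FreeGroup.of '' S)

theorem of_mem_sub {S : Set ι} {i : ι} (hi : i ∈ S) : (FreeGroup.of i) ∈ sub S :=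
  Subgroup.subset_closure ⟨i, hi, rfl⟩

theorem mk_mem_sub {S : Set ι} {i : ι} (b : Bool) (hi : i ∈ S) :
    (mk [(i, b)] : FreeGroup ι) ∈ sub S := by
  cases b
  · have h : (mk [(i, false)] : FreeGroup ι) = (FreeGroup.of i)⁻¹ := by
      simp [FreeGroup.of, inv_mk, invRev]
    rw [h]
    exact inv_mem (of_mem_sub hi)
  · exact of_mem_sub hi

/-- a useful induction principle -/
theorem sub_induction {S : Set ι} {C : FreeGroup ι → Prop} (h1 : C 1)
    (hmul : ∀ q, q ∈ sub S → C q → ∀ i ∈ S, ∀ b, C (q * mk [(i, b)]))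
    {q : FreeGroup ι} (hq : q ∈ sub S) : C q := by
  have key : ∀ q ∈ sub S, q ∈ sub S ∧ C q := by
    intro q hq
    unfold sub at hq
    induction hq using Subgroup.closure_induction_right with
    | one => exact ⟨one_mem _, h1⟩
    | mul_right x hx y hy ih =>
      obtain ⟨i, hi, rfl⟩ := hy
      exact ⟨mul_mem ih.1 (of_mem_sub hi), hmul x ih.1 ih.2 i hi true⟩
    | mul_inv_cancel x hx y hy ih =>
      obtain ⟨i, hi, rfl⟩ := hy
      refine ⟨mul_mem ih.1 (inv_mem (of_mem_sub hi)), ?_⟩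
      have h : (FreeGroup.of i : FreeGroup ι)⁻¹ = mk [(i, false)] := by
        simp [FreeGroup.of, inv_mk, invRev]
      rw [h]
      exact hmul x ih.1 ih.2 i hi false
  exact (key q hq).2

theorem mem_sub_iff {S : Set ι} {p : FreeGroup ι} :
    p ∈ sub S ↔ ∀ l ∈ p.toWord, l.1 ∈ S := by
  constructor
  · intro hp
    refine sub_induction (S := S) (C := fun p => ∀ l ∈ p.toWord, l.1 ∈ S) ?_ ?_ hp
    · simp
    · intro q _ hq i hi b l hl
      rw [toWord_mul_letter] at hl
      split_ifs at hl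
      · exact hq l (List.mem_of_mem_dropLast hl)
      · rcases List.mem_append.mp hl with hl | hl
        · exact hq l hl
        · simp only [List.mem_singleton] at hl
          subst hl
          exact hi
  · intro h
    rw [← mk_toWord (x := p)]
    generalize p.toWord = L at h
    induction L with
    | nil => exact one_mem _
    | cons x L ih =>
      have hx : (mk (x :: L) : FreeGroup ι) = mk [x] * mk L := by
        rw [mul_mk]; rfl
      rw [hx]
      refine mul_mem ?_ (ih fun l hl => h l (List.mem_cons_of_mem _ hl))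
      obtain ⟨i, b⟩ := x
      exact mk_mem_sub b (h (i, b) (by simp))

/-- right multiplication by elements of `sub S` does not change the first letter of a `p ∉ sub S`. -/
theorem hd_mul_of_notMem {S : Set ι} {p q : FreeGroup ι} (hp : p ∉ sub S) (hq : q ∈ sub S) :
    hd (p * q) = hd p := by
  have hne : ∀ q ∈ sub S, p * q ≠ 1 := by
    intro q hq h
    apply hp
    have : p = q⁻¹ := eq_inv_of_mul_eq_one_left h
    rw [this]
    exact inv_mem hq
  refine sub_induction (S := S) (C := fun q => hd (p * q) = hd p) (by simp) ?_ hq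
  intro q hq hh i hi b
  rw [← hh, ← mul_assoc]
  apply hd_mul_letter
  · exact hne q hq
  · rw [mul_assoc]
    exact hne _ (mul_mem hq (mk_mem_sub b hi))


theorem hd_of_mem {S : Set ι} {p : FreeGroup ι} (hp : p ∈ sub S) (h1 : p ≠ 1) :
    ∃ i ∈ S, hd p = some i := by
  have hp' : p.toWord ≠ [] := by simpa using h1
  rw [mem_sub_iff] at hp
  match hw : p.toWord, hp' with
  | x :: l, _ =>
    refine ⟨x.1, hp x (by simp [hw]), by simp [hd, hw]⟩



theorem zpow_mem_sub {S : Set ι} {i : ι} (hi : i ∈ S) (n : ℤ) :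
    (FreeGroup.of i : FreeGroup ι) ^ n ∈ sub S :=
  zpow_mem (of_mem_sub hi) n

theorem mem_sub_singleton {i : ι} {p : FreeGroup ι} :
    p ∈ sub ({i} : Set ι) ↔ ∃ n : ℤ, p = FreeGroup.of i ^ n := by
  unfold sub
  rw [Set.image_singleton, Subgroup.mem_closure_singleton]
  constructor
  · rintro ⟨n, rfl⟩; exact ⟨n, rfl⟩
  · rintro ⟨n, rfl⟩; exact ⟨n, rfl⟩

/-- exponent sum -/
def chi : FreeGroup ι →* Multiplicative ℤ := FreeGroup.lift fun _ => Multiplicative.ofAdd 1

omit [DecidableEq ι] in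
@[simp] theorem chi_of (i : ι) : chi (FreeGroup.of i) = Multiplicative.ofAdd (1 : ℤ) := by
  simp [chi]

omit [DecidableEq ι] in
@[simp] theorem chi_map (f : ι → κ) (p : FreeGroup ι) : chi (FreeGroup.map f p) = chi p := by
  have : (chi (ι := κ)).comp (FreeGroup.map f) = chi := by
    ext i
    simp
  exact DFunLike.congr_fun this p

/-- additive version of the exponent sum -/
def ch (p : FreeGroup ι) : ℤ := Multiplicative.toAdd (chi p)

omit [DecidableEq ι] in
@[simp] theorem ch_one : ch (1 : FreeGroup ι) = 0 := by simp [ch]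
omit [DecidableEq ι] in
@[simp] theorem ch_mul (p q : FreeGroup ι) : ch (p * q) = ch p + ch q := by simp [ch]
omit [DecidableEq ι] in
@[simp] theorem ch_inv (p : FreeGroup ι) : ch (p⁻¹) = - ch p := by simp [ch]
omit [DecidableEq ι] in
@[simp] theorem ch_of (i : ι) : ch (FreeGroup.of i) = 1 := by simp [ch]
omit [DecidableEq ι] in
@[simp] theorem ch_zpow (p : FreeGroup ι) (n : ℤ) : ch (p ^ n) = n * ch p := by simp [ch]
omit [DecidableEq ι] in
@[simp] theorem ch_pow (p : FreeGroup ι) (n : ℕ) : ch (p ^ n) = n * ch p := by simp [ch]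
omit [DecidableEq ι] in
@[simp] theorem ch_map (f : ι → κ) (p : FreeGroup ι) : ch (FreeGroup.map f p) = ch p := by
  simp [ch]

theorem of_zpow_eq_one {i : ι} {n : ℤ} : (FreeGroup.of i : FreeGroup ι) ^ n = 1 ↔ n = 0 := by
  constructor
  · intro h
    have := congrArg ch h
    simpa using this
  · rintro rfl; simp


theorem hd_zpow {i : ι} {n : ℤ} (hn : n ≠ 0) : hd ((FreeGroup.of i : FreeGroup ι) ^ n) = some i := by
  have h1 : (FreeGroup.of i : FreeGroup ι) ^ n ∈ sub ({i} : Set ι) := zpow_mem_sub (Set.mem_singleton i) n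
  obtain ⟨j, hj, hh⟩ := hd_of_mem h1 (by rw [Ne, of_zpow_eq_one]; exact hn)
  rw [hh, Set.mem_singleton_iff.mp hj]

theorem hd_of (i : ι) : hd (FreeGroup.of i : FreeGroup ι) = some i := by
  simpa using hd_zpow (i := i) (n := 1) one_ne_zero

theorem hd_of_inv (i : ι) : hd (FreeGroup.of i : FreeGroup ι)⁻¹ = some i := by
  simpa using hd_zpow (i := i) (n := -1) (by norm_num)

/-- (i) -/
theorem hd_mul_of {p : FreeGroup ι} (i : ι) (hp : p ≠ 1) (h : p * FreeGroup.of i ≠ 1) :
    hd (p * FreeGroup.of i) = hd p :=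
  hd_mul_letter i true hp h

theorem hd_mul_of_inv {p : FreeGroup ι} (i : ι) (hp : p ≠ 1) (h : p * (FreeGroup.of i)⁻¹ ≠ 1) :
    hd (p * (FreeGroup.of i)⁻¹) = hd p := by
  have e : (FreeGroup.of i : FreeGroup ι)⁻¹ = mk [(i, false)] := by
    simp [FreeGroup.of, inv_mk, invRev]
  rw [e] at h ⊢
  exact hd_mul_letter i false hp h

/-- (ii) general form: `p` not a power of `x_i`. -/
theorem hd_mul_zpow {p : FreeGroup ι} {i : ι} (n : ℤ) (hp : ∀ m : ℤ, p ≠ FreeGroup.of i ^ m) :
    hd (p * FreeGroup.of i ^ n) = hd p := by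
  apply hd_mul_of_notMem (S := {i})
  · rw [mem_sub_singleton]
    rintro ⟨m, hm⟩
    exact hp m hm
  · exact zpow_mem_sub (Set.mem_singleton i) n

/-- (ii'): if `p ≠ 1` and `p * x_i ^ n ≠ 1` then the first letters agree. -/
theorem hd_mul_zpow' {p : FreeGroup ι} {i : ι} {n : ℤ} (hp : p ≠ 1)
    (h : p * FreeGroup.of i ^ n ≠ 1) : hd (p * FreeGroup.of i ^ n) = hd p := by
  by_cases hm : ∃ m : ℤ, p = FreeGroup.of i ^ m
  · obtain ⟨m, rfl⟩ := hm
    rw [← zpow_add] at h ⊢
    rw [Ne, of_zpow_eq_one] at h hp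
    rw [hd_zpow h, hd_zpow hp]
  · push Not at hm
    exact hd_mul_zpow n hm

/-- the reduced word of the image under an injective relabelling -/
theorem toWord_map (σ : ι → κ) (hσ : Function.Injective σ) (p : FreeGroup ι) :
    (FreeGroup.map σ p).toWord = p.toWord.map fun l => (σ l.1, l.2) := by
  conv_lhs => rw [← mk_toWord (x := p)]
  rw [map.mk, toWord_mk]
  apply FreeGroup.IsReduced.reduce_eq
  have hr : FreeGroup.IsReduced p.toWord := isReduced_toWord
  unfold FreeGroup.IsReduced at hr ⊢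
  rw [List.isChain_map]
  refine hr.imp ?_
  intro a b hab h
  exact hab (hσ h)

/-- (iv) -/
theorem hd_map (σ : ι → κ) (hσ : Function.Injective σ) (p : FreeGroup ι) :
    hd (FreeGroup.map σ p) = (hd p).map σ := by
  unfold hd
  rw [toWord_map σ hσ]
  cases p.toWord <;> simp


/-! ## The index-`Fin 4` version with default value `0` -/

/-- index of the first letter, `0` for the trivial element. -/
def bt (p : FreeGroup (Fin 4)) : Fin 4 := (hd p).getD 0

@[simp] theorem bt_one : bt 1 = 0 := by simp [bt]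

theorem bt_eq_of_hd {p q : FreeGroup (Fin 4)} (h : hd p = hd q) : bt p = bt q := by
  unfold bt; rw [h]

theorem bt_mul_of {p : FreeGroup (Fin 4)} (i : Fin 4) (hp : p ≠ 1) (h : p * FreeGroup.of i ≠ 1) :
    bt (p * FreeGroup.of i) = bt p :=
  bt_eq_of_hd (hd_mul_of i hp h)

theorem bt_mul_of_inv {p : FreeGroup (Fin 4)} (i : Fin 4) (hp : p ≠ 1)
    (h : p * (FreeGroup.of i)⁻¹ ≠ 1) : bt (p * (FreeGroup.of i)⁻¹) = bt p :=
  bt_eq_of_hd (hd_mul_of_inv i hp h)

theorem bt_mul_zpow {p : FreeGroup (Fin 4)} {i : Fin 4} {n : ℤ} (hp : p ≠ 1)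
    (h : p * FreeGroup.of i ^ n ≠ 1) : bt (p * FreeGroup.of i ^ n) = bt p :=
  bt_eq_of_hd (hd_mul_zpow' hp h)

theorem bt_zpow {i : Fin 4} {n : ℤ} (hn : n ≠ 0) : bt (FreeGroup.of i ^ n) = i := by
  simp [bt, hd_zpow hn]

@[simp] theorem bt_of (i : Fin 4) : bt (FreeGroup.of i) = i := by
  simp [bt, hd_of]

@[simp] theorem bt_of_inv (i : Fin 4) : bt (FreeGroup.of i)⁻¹ = i := by
  simp [bt, hd_of_inv]


theorem bt_mem {S : Set (Fin 4)} {p : FreeGroup (Fin 4)} (hp : p ∈ sub S) (h1 : p ≠ 1) :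
    bt p ∈ S := by
  obtain ⟨i, hi, h⟩ := hd_of_mem hp h1
  simpa [bt, h] using hi

/-- (iv) for a permutation; `p ≠ 1` is needed because of the default value `0`. -/
theorem bt_map (σ : Equiv.Perm (Fin 4)) {p : FreeGroup (Fin 4)} (hp : p ≠ 1) :
    bt (FreeGroup.map σ p) = σ (bt p) := by
  unfold bt
  rw [hd_map σ σ.injective]
  cases h : hd p with
  | none => exact absurd (hd_eq_none.mp h) hp
  | some i => simp


/-- the subgroup `⟨x_i, x_j⟩` attached to the `X`-pair of a letter -/
def subX (α : Ltr) : Subgroup (FreeGroup (Fin 4)) := sub {i | inX α i}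
/-- the subgroup `⟨y_k, y_l⟩` attached to the `Y`-pair of a letter -/
def subY (α : Ltr) : Subgroup (FreeGroup (Fin 4)) := sub {k | inY α k}


theorem pX_pX (α : Ltr) (i : Fin 4) : pX α (pX α i) = i := by
  revert α i; decide
theorem pY_pY (α : Ltr) (i : Fin 4) : pY α (pY α i) = i := by
  revert α i; decide



theorem of_mem_subX {α : Ltr} {i : Fin 4} (hi : inX α i) : FreeGroup.of i ∈ subX α :=
  of_mem_sub hi
theorem of_mem_subY {α : Ltr} {k : Fin 4} (hk : inY α k) : FreeGroup.of k ∈ subY α :=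
  of_mem_sub hk


theorem inX_bt {α : Ltr} {p : FreeGroup (Fin 4)} (hp : p ∈ subX α) (h1 : p ≠ 1) : inX α (bt p) :=
  bt_mem hp h1

end Crest.Agent.R197.Beta
end

-- ▼ part R197/DetPsi
section

/-!
# Row 197, module B4: the detection homomorphism `Psi : E → Wr Pt W`.

`E` acts from the right on the points `(ν, p, q)`; the labels are the ones of the blueprint (B3).
-/

set_option autoImplicit false

namespace Crest.Agent.R197.Det

open FreeGroup (of)
open Beta

abbrev F4 := FreeGroup (Fin 4)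
abbrev FL := FreeGroup Ltr
/-- the points of the connection -/
abbrev Pt := FL × F4 × F4

/-- relabelling of the letters -/
abbrev cg (σ : Equiv.Perm (Fin 4)) : F4 →* F4 := FreeGroup.map σ

theorem cg_of (σ : Equiv.Perm (Fin 4)) (i : Fin 4) : cg σ (of i) = of (σ i) := by simp

theorem cg_cg {σ : Equiv.Perm (Fin 4)} (h : ∀ i, σ (σ i) = i) (p : F4) : cg σ (cg σ p) = p := by
  have : (cg σ).comp (cg σ) = MonoidHom.id F4 := by
    ext i; simp [h]
  exact DFunLike.congr_fun this p

/-- the sum of the exponents of a point -/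
def tot (g : Pt) : ℤ := ch g.1 + ch g.2.1 + ch g.2.2

def px (i : Fin 4) : Equiv.Perm Pt where
  toFun g := (g.1, g.2.1 * (of i * (of 0)⁻¹), g.2.2)
  invFun g := (g.1, g.2.1 * (of 0 * (of i)⁻¹), g.2.2)
  left_inv g := by simp [mul_assoc]
  right_inv g := by simp [mul_assoc]

def py (k : Fin 4) : Equiv.Perm Pt where
  toFun g := (g.1, g.2.1 * (of 0)⁻¹, g.2.2 * of k)
  invFun g := (g.1, g.2.1 * of 0, g.2.2 * (of k)⁻¹)
  left_inv g := by simp [mul_assoc]
  right_inv g := by simp [mul_assoc]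

def pr (α : Ltr) : Equiv.Perm Pt where
  toFun g := (g.1 * of α, cg (pX α) g.2.1 * (of 0)⁻¹, cg (pY α) g.2.2)
  invFun g := (g.1 * (of α)⁻¹, cg (pX α) (g.2.1 * of 0), cg (pY α) g.2.2)
  left_inv g := by
    simp only [inv_mul_cancel_right, mul_inv_cancel_right, cg_cg (pX_pX α), cg_cg (pY_pY α)]
  right_inv g := by
    simp only [inv_mul_cancel_right, mul_inv_cancel_right, cg_cg (pX_pX α), cg_cg (pY_pY α)]

@[simp] theorem px_apply (i : Fin 4) (g : Pt) :
    px i g = (g.1, g.2.1 * (of i * (of 0)⁻¹), g.2.2) := rfl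
@[simp] theorem px_symm_apply (i : Fin 4) (g : Pt) :
    (px i).symm g = (g.1, g.2.1 * (of 0 * (of i)⁻¹), g.2.2) := rfl
@[simp] theorem py_apply (k : Fin 4) (g : Pt) :
    py k g = (g.1, g.2.1 * (of 0)⁻¹, g.2.2 * of k) := rfl
@[simp] theorem py_symm_apply (k : Fin 4) (g : Pt) :
    (py k).symm g = (g.1, g.2.1 * of 0, g.2.2 * (of k)⁻¹) := rfl
@[simp] theorem pr_apply (α : Ltr) (g : Pt) :
    pr α g = (g.1 * of α, cg (pX α) g.2.1 * (of 0)⁻¹, cg (pY α) g.2.2) := rfl

theorem tot_py (k : Fin 4) (g : Pt) : tot (py k g) = tot g := by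
  simp only [tot, py_apply, ch_mul, ch_inv, ch_of]; ring
theorem tot_pr (α : Ltr) (g : Pt) : tot (pr α g) = tot g := by
  simp only [tot, pr_apply, ch_mul, ch_inv, ch_of, ch_map]; ring
theorem tot_px_symm (i : Fin 4) (g : Pt) : tot ((px i).symm g) = tot g := by
  simp [tot]

/-- Node matrices with block gauges. -/
structure NodeData (W : Type) [Group W] where
  gm : FL → Fin 4 → Fin 4 → W
  U : FL → Ltr → Fin 4 → W
  V : FL → Ltr → Fin 4 → W
  gm_zero : ∀ ν k, gm ν 0 k = 1
  gm_zero' : ∀ ν i, gm ν i 0 = 1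
  triv : ∀ ν, ch ν < -1 → ∀ i k, gm ν i k = 1
  gauge : ∀ ν α i k, inX α i → inY α k →
    (U ν α i)⁻¹ * gm ν i k * V ν α k = gm (ν * of α) (pX α i) (pY α k)
  trivU : ∀ ν α, ch ν < -2 → ∀ i, U ν α i = 1
  trivV : ∀ ν α, ch ν < -2 → ∀ k, V ν α k = 1

/-- constructor from existential gauges -/
theorem NodeData.exists {W : Type} [Group W] (gm : FL → Fin 4 → Fin 4 → W)
    (gm_zero : ∀ ν k, gm ν 0 k = 1) (gm_zero' : ∀ ν i, gm ν i 0 = 1)
    (triv : ∀ ν, ch ν < -1 → ∀ i k, gm ν i k = 1)
    (gauge : ∀ ν α, ∃ U V : Fin 4 → W, ∀ i k, inX α i → inY α k →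
      (U i)⁻¹ * gm ν i k * V k = gm (ν * of α) (pX α i) (pY α k)) :
    ∃ D : NodeData W, D.gm = gm := by
  have h : ∀ ν α, ∃ U V : Fin 4 → W, (∀ i k, inX α i → inY α k →
      (U i)⁻¹ * gm ν i k * V k = gm (ν * of α) (pX α i) (pY α k)) ∧
      (ch ν < -2 → (∀ i, U i = 1) ∧ ∀ k, V k = 1) := by
    intro ν α
    by_cases hν : ch ν < -2
    · refine ⟨1, 1, fun i k _ _ => ?_, fun _ => ⟨fun _ => rfl, fun _ => rfl⟩⟩
      rw [triv ν (by omega), triv (ν * of α) (by rw [ch_mul, ch_of]; omega)]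
      simp
    · obtain ⟨U, V, hUV⟩ := gauge ν α
      exact ⟨U, V, hUV, fun h => absurd h hν⟩
  choose U V h1 h2 using h
  exact ⟨⟨gm, U, V, gm_zero, gm_zero', triv, h1, fun ν α hν => (h2 ν α hν).1,
    fun ν α hν => (h2 ν α hν).2⟩, rfl⟩

namespace NodeData

variable {W : Type} [Group W] (D : NodeData W)

/-- the frame function -/
def f (ν : FL) (p q : F4) : W := D.gm ν (bt p) (bt q)

open Classical in
/-- the label of `r_α` (without the layer test) -/
noncomputable def F (ν : FL) (α : Ltr) (p q : F4) : W :=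
  if p ∈ subX α then
    (if q ∈ subY α then
      (if q = 1 then (if p = 1 then 1 else D.U ν α (bt p)) else D.V ν α (bt q))
    else 1)
  else (D.f ν p q)⁻¹ * D.f (ν * of α) (cg (pX α) p) (cg (pY α) q)

theorem f_one_right (ν : FL) (p : F4) : D.f ν p 1 = 1 := by
  simp [f, D.gm_zero']

theorem F_of_notMem {ν : FL} {α : Ltr} {p q : F4} (hp : p ∉ subX α) :
    D.F ν α p q = (D.f ν p q)⁻¹ * D.f (ν * of α) (cg (pX α) p) (cg (pY α) q) := by
  rw [F, if_neg hp]
theorem F_of_notMem' {ν : FL} {α : Ltr} {p q : F4} (hp : p ∈ subX α) (hq : q ∉ subY α) :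
    D.F ν α p q = 1 := by
  rw [F, if_pos hp, if_neg hq]
theorem F_of_ne {ν : FL} {α : Ltr} {p q : F4} (hp : p ∈ subX α) (hq : q ∈ subY α) (h : q ≠ 1) :
    D.F ν α p q = D.V ν α (bt q) := by
  rw [F, if_pos hp, if_pos hq, if_neg h]
theorem F_one {ν : FL} {α : Ltr} {p : F4} (hp : p ∈ subX α) (h : p ≠ 1) :
    D.F ν α p 1 = D.U ν α (bt p) := by
  rw [F, if_pos hp, if_pos (Subgroup.one_mem _), if_pos rfl, if_neg h]
theorem F_one_one {ν : FL} {α : Ltr} : D.F ν α 1 1 = 1 := by
  rw [F, if_pos (Subgroup.one_mem _), if_pos (Subgroup.one_mem _), if_pos rfl, if_pos rfl]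

/-- the hexagon relation on the level of labels -/
theorem hexlab (ν : FL) (α : Ltr) (p q : F4) (i k : Fin 4) (hi : inX α i) (hk : inY α k)
    (hlay : ch ν + ch p + ch q = -3) :
    (D.f ν p q)⁻¹ * D.f ν p (q * of k) * D.F ν α (p * (of i)⁻¹) (q * of k) =
      D.F ν α p q * ((D.f (ν * of α) (cg (pX α) p * (of (pX α i))⁻¹) (cg (pY α) q))⁻¹ *
        D.f (ν * of α) (cg (pX α) p * (of (pX α i))⁻¹) (cg (pY α) q * of (pY α k))) := by
  have hcp : cg (pX α) p * (of (pX α i))⁻¹ = cg (pX α) (p * (of i)⁻¹) := by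
    rw [map_mul, map_inv, cg_of]
  have hcq : cg (pY α) q * of (pY α k) = cg (pY α) (q * of k) := by
    rw [map_mul, cg_of]
  rw [hcp, hcq]
  have hpX : p * (of i)⁻¹ ∈ subX α ↔ p ∈ subX α :=
    Subgroup.mul_mem_cancel_right _ (Subgroup.inv_mem _ (of_mem_subX hi))
  have hqY : q * of k ∈ subY α ↔ q ∈ subY α :=
    Subgroup.mul_mem_cancel_right _ (of_mem_subY hk)
  by_cases hp : p ∈ subX α
  swap
  · -- case 1
    have hp' : p * (of i)⁻¹ ∉ subX α := fun h => hp (hpX.1 h)
    have hp1 : p ≠ 1 := fun h => hp (h ▸ Subgroup.one_mem _)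
    have hp1' : p * (of i)⁻¹ ≠ 1 := fun h => hp' (h ▸ Subgroup.one_mem _)
    have hb : bt (p * (of i)⁻¹) = bt p := bt_mul_of_inv i hp1 hp1'
    have hb' : bt (cg (pX α) (p * (of i)⁻¹)) = bt (cg (pX α) p) := by
      rw [bt_map _ hp1, bt_map _ hp1', hb]
    rw [D.F_of_notMem hp, D.F_of_notMem hp']
    simp only [f, hb, hb']
    group
  have hp' : p * (of i)⁻¹ ∈ subX α := hpX.2 hp
  by_cases hq : q ∈ subY α
  swap
  · -- case 2
    have hq' : q * of k ∉ subY α := fun h => hq (hqY.1 h)
    have hq1 : q ≠ 1 := fun h => hq (h ▸ Subgroup.one_mem _)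
    have hq1' : q * of k ≠ 1 := fun h => hq' (h ▸ Subgroup.one_mem _)
    have hb : bt (q * of k) = bt q := bt_mul_of k hq1 hq1'
    have hb' : bt (cg (pY α) (q * of k)) = bt (cg (pY α) q) := by
      rw [bt_map _ hq1, bt_map _ hq1', hb]
    rw [D.F_of_notMem' hp hq, D.F_of_notMem' hp' hq']
    simp only [f, hb, hb']
    group
  have hq' : q * of k ∈ subY α := hqY.2 hq
  -- case 3
  by_cases hq1 : q = 1
  · subst hq1
    rw [ch_one] at hlay
    rw [map_one, one_mul, f_one_right, f_one_right, D.F_of_ne hp' (of_mem_subY hk)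
      (FreeGroup.of_ne_one k), bt_of, cg_of]
    simp only [f, bt_of]
    by_cases hp1 : p = 1
    · subst hp1
      rw [ch_one] at hlay
      rw [D.F_one_one, D.trivV ν α (by omega) k, D.triv ν (by omega),
        D.triv (ν * of α) (by rw [ch_mul, ch_of]; omega)]
      simp
    · by_cases hp2 : p * (of i)⁻¹ = 1
      · have hpi : p = of i := by rwa [mul_inv_eq_one] at hp2
        subst hpi
        rw [ch_of] at hlay
        rw [D.F_one hp hp1, D.trivU ν α (by omega), D.trivV ν α (by omega) k,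
          D.triv ν (by omega), D.triv (ν * of α) (by rw [ch_mul, ch_of]; omega)]
        simp
      · have hb : bt (p * (of i)⁻¹) = bt p := bt_mul_of_inv i hp1 hp2
        have hX := inX_bt hp hp1
        have hg := D.gauge ν α (bt p) k hX hk
        rw [D.F_one hp hp1, bt_map _ hp2, hb, ← hg]
        group
  · by_cases hq2 : q * of k = 1
    · have hqk : q = (of k)⁻¹ := eq_inv_of_mul_eq_one_left hq2
      have hbq : bt q = k := by rw [hqk, bt_of_inv]
      have hbq' : bt (cg (pY α) q) = pY α k := by rw [bt_map _ hq1, hbq]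
      have hcq1 : ch q = -1 := by rw [hqk, ch_inv, ch_of]
      rw [hq2, map_one, f_one_right, f_one_right, D.F_of_ne hp hq hq1]
      simp only [f, hbq, hbq', mul_one]
      by_cases hp2 : p * (of i)⁻¹ = 1
      · have hpi : p = of i := by rwa [mul_inv_eq_one] at hp2
        subst hpi
        rw [ch_of] at hlay
        rw [hp2, D.F_one_one, D.trivV ν α (by omega) k,
          D.triv ν (by omega), D.triv (ν * of α) (by rw [ch_mul, ch_of]; omega)]
        simp
      · rw [D.F_one hp' hp2]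
        by_cases hp1 : p = 1
        · subst hp1
          rw [ch_one] at hlay
          have h3 := D.triv ν (by omega)
          have hg := D.gauge ν α i k hi hk
          rw [h3] at hg
          have e3 : bt ((1 : F4) * (of i)⁻¹) = i := by rw [one_mul, bt_of_inv]
          rw [bt_map _ hp2, e3, ← hg, h3]
          group
        · have hb : bt (p * (of i)⁻¹) = bt p := bt_mul_of_inv i hp1 hp2
          have hX := inX_bt hp hp1
          have hg := D.gauge ν α (bt p) k hX hk
          rw [bt_map _ hp2, hb, ← hg]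
          group
    · have hb : bt (q * of k) = bt q := bt_mul_of k hq1 hq2
      have hb' : bt (cg (pY α) (q * of k)) = bt (cg (pY α) q) := by
        rw [bt_map _ hq1, bt_map _ hq2, hb]
      rw [D.F_of_ne hp hq hq1, D.F_of_ne hp' hq' hq2]
      simp only [f, hb, hb']
      group

/-- the image of `x_i` -/
def gx (_D : NodeData W) (i : Fin 4) : Wr Pt W := ⟨px i, fun _ => 1⟩
/-- the image of `y_k` -/
def gy (k : Fin 4) : Wr Pt W :=
  ⟨py k, fun g => if tot g = -3 then (D.f g.1 g.2.1 g.2.2)⁻¹ * D.f g.1 g.2.1 (g.2.2 * of k) else 1⟩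
/-- the image of `r_α` -/
noncomputable def gr (α : Ltr) : Wr Pt W :=
  ⟨pr α, fun g => if tot g = -3 then D.F g.1 α g.2.1 g.2.2 else 1⟩

@[simp] theorem gx_perm (i : Fin 4) : (D.gx i).perm = px i := rfl
@[simp] theorem gx_lab (i : Fin 4) (g : Pt) : (D.gx i).lab g = 1 := rfl
@[simp] theorem gy_perm (k : Fin 4) : (D.gy k).perm = py k := rfl
theorem gy_lab (k : Fin 4) (g : Pt) : (D.gy k).lab g =
    if tot g = -3 then (D.f g.1 g.2.1 g.2.2)⁻¹ * D.f g.1 g.2.1 (g.2.2 * of k) else 1 := rfl
@[simp] theorem gr_perm (α : Ltr) : (D.gr α).perm = pr α := rfl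
theorem gr_lab (α : Ltr) (g : Pt) : (D.gr α).lab g =
    if tot g = -3 then D.F g.1 α g.2.1 g.2.2 else 1 := rfl

theorem relE : RelE D.gx D.gy D.gr where
  x0 := by
    apply Wr.ext
    · ext g : 1
      simp only [gx_perm, px_apply, mul_inv_cancel, mul_one, Wr.one_perm]
    · rfl
  hex := by
    intro α i k hi hk
    have e1 : ∀ g : Pt, (px i).symm (py k g) = (g.1, g.2.1 * (of i)⁻¹, g.2.2 * of k) := by
      intro g
      simp [mul_assoc]
    have e2 : ∀ g : Pt, (px (pX α i)).symm (pr α g) =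
        (g.1 * of α, cg (pX α) g.2.1 * (of (pX α i))⁻¹, cg (pY α) g.2.2) := by
      intro g
      simp [mul_assoc]
    apply Wr.ext
    · ext g : 1
      simp only [Aw, Bw, Wr.mul_perm, Wr.inv_perm, gx_perm, gy_perm, gr_perm, e1, e2]
      simp only [pr_apply, py_apply, map_mul, map_inv, cg_of]
    · funext g
      simp only [Aw, Bw, Wr.mul_lab, Wr.mul_perm, Wr.inv_perm, Wr.inv_lab, gx_lab, gx_perm,
        gy_perm, gr_perm, e1, e2, gy_lab, gr_lab, inv_one, mul_one, one_mul]
      have t1 : tot (g.1, g.2.1 * (of i)⁻¹, g.2.2 * of k) = tot g := by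
        rw [← e1, tot_px_symm, tot_py]
      have t2 : tot (g.1 * of α, cg (pX α) g.2.1 * (of (pX α i))⁻¹, cg (pY α) g.2.2) = tot g := by
        rw [← e2, tot_px_symm, tot_pr]
      rw [t1, t2]
      by_cases hg : tot g = -3
      · simp only [if_pos hg]
        exact D.hexlab g.1 α g.2.1 g.2.2 i k hi hk hg
      · simp only [if_neg hg, mul_one]

/-- **The detection homomorphism.** -/
noncomputable def Psi : EE →* Wr Pt W := EE.lift D.relE

@[simp] theorem Psi_x (i : Fin 4) : D.Psi (EE.x i) = D.gx i := EE.lift_x _ i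
@[simp] theorem Psi_y (k : Fin 4) : D.Psi (EE.y k) = D.gy k := EE.lift_y _ k
@[simp] theorem Psi_r (α : Ltr) : D.Psi (EE.r α) = D.gr α := EE.lift_r _ α

/-- the permutation of `A_ik` -/
theorem Psi_A_perm (i k : Fin 4) (g : Pt) :
    (D.Psi (Aw EE.x EE.y i k)).perm g = (g.1, g.2.1 * (of i)⁻¹, g.2.2 * of k) := by
  simp [Aw, mul_assoc]

theorem Psi_A_lab (i k : Fin 4) (g : Pt) :
    (D.Psi (Aw EE.x EE.y i k)).lab g =
      if tot g = -3 then (D.f g.1 g.2.1 g.2.2)⁻¹ * D.f g.1 g.2.1 (g.2.2 * of k) else 1 := by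
  simp [Aw, gy_lab]

end NodeData

end Crest.Agent.R197.Det
end

-- ▼ part R197/DetMat
section

/-!
# Row 197, module B2: node matrices and the block gauge

`theta w ν` is `w t` if the reduced word of `ν : FreeGroup Ltr` is the positive word in the letters
`7 (↦ false)`, `8 (↦ true)` coded by `t`, and `1` otherwise.
-/

set_option autoImplicit false

namespace Crest.Agent.R197

open FreeGroup

/-- exponent sum of the letters -/
def chiL : FreeGroup Ltr →* Multiplicative ℤ :=
  FreeGroup.lift (fun _ => Multiplicative.ofAdd (1 : ℤ))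

@[simp] theorem chiL_of (α : Ltr) : chiL (FreeGroup.of α) = Multiplicative.ofAdd (1 : ℤ) := by
  simp [chiL]

/-- code of the *inverse* word: all letters must be `(7, false)` or `(8, false)`; the head of the
list is the (inverse of the) LAST letter of the word. -/
def codeInv : List (Ltr × Bool) → Option (List Bool)
  | [] => some []
  | x :: L =>
    if x = (7, false) then (codeInv L).map (fun t => t ++ [false])
    else if x = (8, false) then (codeInv L).map (fun t => t ++ [true])
    else none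

section
variable {W : Type*} [Group W] (w : List Bool → W)

/-- `theta w ν = w t` if `ν` is the positive word in `7, 8` coded by `t`, else `1`. -/
def theta (ν : FreeGroup Ltr) : W := (codeInv (ν⁻¹).toWord).elim 1 w

@[simp] theorem theta_one : theta w 1 = w [] := by
  simp [theta, codeInv]

/-- the reduced word of `(ν * of α)⁻¹` -/
theorem toWord_mul_of_inv (ν : FreeGroup Ltr) (α : Ltr) :
    ((ν * of α)⁻¹).toWord = List.casesOn (ν⁻¹).toWord [(α, false)] fun hd tl =>
      if α = hd.1 ∧ hd.2 = true then tl else (α, false) :: hd :: tl := by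
  rw [mul_inv_rev, FreeGroup.toWord_mul, FreeGroup.toWord_inv (of α), FreeGroup.toWord_of]
  simp only [FreeGroup.invRev, List.map_cons, List.map_nil, List.reverse_cons, List.reverse_nil,
    List.nil_append, List.cons_append, Bool.not_true]
  rw [FreeGroup.reduce.cons, FreeGroup.reduce_toWord]
  cases (ν⁻¹).toWord with
  | nil => rfl
  | cons hd tl =>
    obtain ⟨a, b⟩ := hd
    cases b <;> simp


theorem theta_mul_of (ν : FreeGroup Ltr) (α : Ltr) :
    theta w (ν * of α) = (codeInv (List.casesOn (ν⁻¹).toWord [(α, false)] fun hd tl =>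
      if α = hd.1 ∧ hd.2 = true then tl else (α, false) :: hd :: tl)).elim 1 w := by
  rw [theta, toWord_mul_of_inv]

/-- the recursion holds for ALL `ν` -/
theorem theta_rec
    (hw : ∀ ν, w ν = (w (ν ++ [false]))⁻¹ * w (ν ++ [true]) * w (ν ++ [false]) *
      (w (ν ++ [true]))⁻¹) (ν : FreeGroup Ltr) :
    theta w ν = (theta w (ν * of 7))⁻¹ * theta w (ν * of 8) * theta w (ν * of 7) *
      (theta w (ν * of 8))⁻¹ := by
  rw [theta_mul_of, theta_mul_of, theta]
  generalize (ν⁻¹).toWord = L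
  cases L with
  | nil =>
    simpa [codeInv] using hw []
  | cons hd tl =>
    by_cases h7 : hd = (7, true)
    · subst h7
      simp [codeInv]
    by_cases h8 : hd = (8, true)
    · subst h8
      simp [codeInv]
    have h7' : ¬ ((7 : Ltr) = hd.1 ∧ hd.2 = true) := by
      rintro ⟨h1, h2⟩; exact h7 (Prod.ext h1.symm h2)
    have h8' : ¬ ((8 : Ltr) = hd.1 ∧ hd.2 = true) := by
      rintro ⟨h1, h2⟩; exact h8 (Prod.ext h1.symm h2)
    simp only [if_neg h7', if_neg h8']
    have e7 : codeInv ((7, false) :: hd :: tl) =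
        (codeInv (hd :: tl)).map (fun t => t ++ [false]) := by
      conv_lhs => rw [codeInv]
      simp
    have e8 : codeInv ((8, false) :: hd :: tl) =
        (codeInv (hd :: tl)).map (fun t => t ++ [true]) := by
      conv_lhs => rw [codeInv]
      simp
    rw [e7, e8]
    cases codeInv (hd :: tl) with
    | none => simp
    | some t => simpa using hw t

theorem codeInv_chi : ∀ (L : List (Ltr × Bool)) (t : List Bool), codeInv L = some t →
    chiL (FreeGroup.mk L) = Multiplicative.ofAdd (-(t.length : ℤ)) := by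
  intro L
  induction L with
  | nil =>
    intro t h
    simp only [codeInv, Option.some.injEq] at h
    subst h
    simp [← FreeGroup.one_eq_mk]
  | cons x L ih =>
    intro t h
    have hmk : (FreeGroup.mk (x :: L)) = FreeGroup.mk [x] * FreeGroup.mk L := by
      rw [FreeGroup.mul_mk]; rfl
    rw [codeInv] at h
    split_ifs at h with h1 h2
    · subst h1
      obtain ⟨t', ht', rfl⟩ := Option.map_eq_some_iff.mp h
      rw [hmk, _root_.map_mul, ih t' ht']
      simp only [chiL, FreeGroup.lift_mk, List.map_cons, List.map_nil, cond_false, List.prod_cons,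
        List.prod_nil, mul_one, List.length_append, List.length_cons, List.length_nil]
      rw [← ofAdd_neg, ← ofAdd_add]
      congr 1
      push_cast
      ring
    · subst h2
      obtain ⟨t', ht', rfl⟩ := Option.map_eq_some_iff.mp h
      rw [hmk, _root_.map_mul, ih t' ht']
      simp only [chiL, FreeGroup.lift_mk, List.map_cons, List.map_nil, cond_false, List.prod_cons,
        List.prod_nil, mul_one, List.length_append, List.length_cons, List.length_nil]
      rw [← ofAdd_neg, ← ofAdd_add]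
      congr 1
      push_cast
      ring

/-- either `theta w ν = 1` or it is `w t` with `t` of length `χ ν` -/
theorem theta_cases (ν : FreeGroup Ltr) :
    theta w ν = 1 ∨ ∃ t : List Bool, (t.length : ℤ) = (chiL ν).toAdd ∧ theta w ν = w t := by
  unfold theta
  cases h : codeInv (ν⁻¹).toWord with
  | none => left; rfl
  | some t =>
    right
    refine ⟨t, ?_, rfl⟩
    have h1 := codeInv_chi _ t h
    rw [FreeGroup.mk_toWord, _root_.map_inv] at h1
    have h2 : chiL ν = Multiplicative.ofAdd (t.length : ℤ) := by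
      rw [← inv_inj, h1, ofAdd_neg]
    rw [h2]
    rfl

theorem theta_eq_one_of_chi {ν : FreeGroup Ltr} (h : (chiL ν).toAdd < 0) : theta w ν = 1 := by
  rcases theta_cases w ν with h1 | ⟨t, ht, -⟩
  · exact h1
  · omega

theorem theta_mem {V : Subgroup W} {d : ℕ} (hV : ∀ t : List Bool, t.length ≤ d → w t ∈ V)
    {ν : FreeGroup Ltr} (h : (chiL ν).toAdd ≤ d) : theta w ν ∈ V := by
  rcases theta_cases w ν with h1 | ⟨t, ht, h1⟩
  · rw [h1]; exact V.one_mem
  · rw [h1]; exact hV t (by omega)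

/-- the node matrix at `ν` -/
def gm (ν : FreeGroup Ltr) : Fin 4 → Fin 4 → W :=
  ![![1, 1, 1, 1],
    ![1, theta w ν, (theta w (ν * of 7))⁻¹, (theta w (ν * of 7))⁻¹],
    ![1, (theta w (ν * of 8))⁻¹, (theta w (ν * of 7))⁻¹ * (theta w (ν * of 8))⁻¹,
      (theta w (ν * of 7))⁻¹],
    ![1, (theta w (ν * of 8))⁻¹, (theta w (ν * of 8))⁻¹, 1]]

@[simp] theorem gm_zero_left (ν : FreeGroup Ltr) (k : Fin 4) : gm w ν 0 k = 1 := by
  fin_cases k <;> rfl

@[simp] theorem gm_zero_right (ν : FreeGroup Ltr) (i : Fin 4) : gm w ν i 0 = 1 := by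
  fin_cases i <;> rfl

theorem chiL_mul_of (ν : FreeGroup Ltr) (α : Ltr) :
    (chiL (ν * of α)).toAdd = (chiL ν).toAdd + 1 := by
  rw [_root_.map_mul, chiL_of, toAdd_mul, toAdd_ofAdd]

/-- the node matrix is trivial below height `-1` -/
theorem gm_eq_one_of_chi {ν : FreeGroup Ltr} (h : (chiL ν).toAdd < -1) (i k : Fin 4) :
    gm w ν i k = 1 := by
  have h0 : theta w ν = 1 := theta_eq_one_of_chi w (by omega)
  have h7 : theta w (ν * of 7) = 1 := theta_eq_one_of_chi w (by rw [chiL_mul_of]; omega)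
  have h8 : theta w (ν * of 8) = 1 := theta_eq_one_of_chi w (by rw [chiL_mul_of]; omega)
  fin_cases i <;> fin_cases k <;> simp [gm, h0, h7, h8]

theorem gm_mem {V : Subgroup W} {d : ℕ} (hV : ∀ t : List Bool, t.length ≤ d → w t ∈ V)
    {ν : FreeGroup Ltr} (h : (chiL ν).toAdd + 1 ≤ d) (i k : Fin 4) : gm w ν i k ∈ V := by
  have h0 : theta w ν ∈ V := theta_mem w hV (by omega)
  have h7 : theta w (ν * of 7) ∈ V := theta_mem w hV (by rw [chiL_mul_of]; omega)
  have h8 : theta w (ν * of 8) ∈ V := theta_mem w hV (by rw [chiL_mul_of]; omega)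
  fin_cases i <;> fin_cases k <;>
    simp [gm, h0, h7, h8, V.one_mem, V.mul_mem, V.inv_mem]

/-- gauge lemma for a 2×2 block -/
theorem gauge2 (e g : Fin 4 → Fin 4 → W) (i j k l : Fin 4) (hij : j ≠ i) (hkl : l ≠ k) (c : W)
    (h : c⁻¹ * (e i l * (e j l)⁻¹ * e j k * (e i k)⁻¹) * c =
      g i l * (g j l)⁻¹ * g j k * (g i k)⁻¹) :
    ∃ U V : Fin 4 → W, (U i)⁻¹ * e i k * V k = g i k ∧ (U i)⁻¹ * e i l * V l = g i l ∧
      (U j)⁻¹ * e j k * V k = g j k ∧ (U j)⁻¹ * e j l * V l = g j l := by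
  refine ⟨fun m => if m = i then c else e j k * ((e i k)⁻¹ * c * g i k) * (g j k)⁻¹,
    fun m => if m = k then (e i k)⁻¹ * c * g i k else (e i l)⁻¹ * c * g i l, ?_, ?_, ?_, ?_⟩
  · simp only [if_true]; group
  · simp only [if_true, if_neg hkl]; group
  · simp only [if_true, if_neg hij]; group
  · simp only [if_neg hij, if_neg hkl]
    have h1 : c * (g i l * (g j l)⁻¹ * g j k * (g i k)⁻¹) =
        (e i l * (e j l)⁻¹ * e j k * (e i k)⁻¹) * c := by
      rw [← h]; group
    have h2 : e j k * (e i k)⁻¹ * c = e j l * (e i l)⁻¹ * c * g i l * (g j l)⁻¹ * g j k * (g i k)⁻¹ := by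
      have : e j k * (e i k)⁻¹ * c = e j l * (e i l)⁻¹ * ((e i l * (e j l)⁻¹ * e j k * (e i k)⁻¹) * c) := by
        group
      rw [this, ← h1]; group
    have h3 : e j k * ((e i k)⁻¹ * c * g i k) * (g j k)⁻¹ =
        e j l * ((e i l)⁻¹ * c * g i l) * (g j l)⁻¹ := by
      calc e j k * ((e i k)⁻¹ * c * g i k) * (g j k)⁻¹
          = (e j k * (e i k)⁻¹ * c) * g i k * (g j k)⁻¹ := by group
        _ = _ := by rw [h2]; group
    rw [h3]; group

/-- trivial holonomy of the node matrix on the seven faces -/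
theorem face_hol (hw : ∀ ν, w ν = (w (ν ++ [false]))⁻¹ * w (ν ++ [true]) * w (ν ++ [false]) *
      (w (ν ++ [true]))⁻¹) (ν : FreeGroup Ltr) (α : Ltr) (h7 : α ≠ 7) (h8 : α ≠ 8) :
    gm w ν (x1 α) (y2 α) * (gm w ν (x2 α) (y2 α))⁻¹ *
      gm w ν (x2 α) (y1 α) * (gm w ν (x1 α) (y1 α))⁻¹ = 1 := by
  have r0 := theta_rec w hw ν
  fin_cases α
  · simp [gm, x1, x2, y1, y2]
  · simp only [gm, x1, x2, y1, y2]
    simp [r0, mul_assoc]
  · simp [gm, x1, x2, y1, y2]
  · simp [gm, x1, x2, y1, y2]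
  · simp [gm, x1, x2, y1, y2]
  · simp [gm, x1, x2, y1, y2]
  · simp [gm, x1, x2, y1, y2]
  · exact absurd rfl h7
  · exact absurd rfl h8

/-- the block gauge -/
theorem block_gauge (hw : ∀ ν, w ν = (w (ν ++ [false]))⁻¹ * w (ν ++ [true]) * w (ν ++ [false]) *
      (w (ν ++ [true]))⁻¹) (ν : FreeGroup Ltr) (α : Ltr) :
    ∃ U V : Fin 4 → W, ∀ i k, inX α i → inY α k →
      (U i)⁻¹ * gm w ν i k * V k = gm w (ν * of α) (pX α i) (pY α k) := by
  have key : ∃ c : W, c⁻¹ * (gm w ν (x1 α) (y2 α) * (gm w ν (x2 α) (y2 α))⁻¹ *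
      gm w ν (x2 α) (y1 α) * (gm w ν (x1 α) (y1 α))⁻¹) * c =
      gm w (ν * of α) (pX α (x1 α)) (pY α (y2 α)) *
        (gm w (ν * of α) (pX α (x2 α)) (pY α (y2 α)))⁻¹ *
        gm w (ν * of α) (pX α (x2 α)) (pY α (y1 α)) *
        (gm w (ν * of α) (pX α (x1 α)) (pY α (y1 α)))⁻¹ := by
    by_cases h7 : α = 7
    · subst h7
      refine ⟨theta w (ν * of 8), ?_⟩
      have e1 : gm w ν (x1 7) (y2 7) * (gm w ν (x2 7) (y2 7))⁻¹ *
          gm w ν (x2 7) (y1 7) * (gm w ν (x1 7) (y1 7))⁻¹ = theta w (ν * of 7) * theta w ν := by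
        simp [gm, x1, x2, y1, y2]
      have e2 : gm w (ν * of 7) (pX 7 (x1 7)) (pY 7 (y2 7)) *
        (gm w (ν * of 7) (pX 7 (x2 7)) (pY 7 (y2 7)))⁻¹ *
        gm w (ν * of 7) (pX 7 (x2 7)) (pY 7 (y1 7)) *
        (gm w (ν * of 7) (pX 7 (x1 7)) (pY 7 (y1 7)))⁻¹ = theta w (ν * of 7) := by
        have p1 : pX 7 (x1 7) = 0 := by decide
        have p2 : pX 7 (x2 7) = 1 := by decide
        have p3 : pY 7 (y1 7) = 1 := by decide
        have p4 : pY 7 (y2 7) = 0 := by decide
        rw [p1, p2, p3, p4]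
        simp [gm]
      rw [e1, e2]
      conv_lhs => rw [theta_rec w hw ν]
      group
    by_cases h8 : α = 8
    · subst h8
      refine ⟨(theta w (ν * of 7))⁻¹, ?_⟩
      have e1 : gm w ν (x1 8) (y2 8) * (gm w ν (x2 8) (y2 8))⁻¹ *
          gm w ν (x2 8) (y1 8) * (gm w ν (x1 8) (y1 8))⁻¹ = theta w ν * theta w (ν * of 8) := by
        simp [gm, x1, x2, y1, y2]
      have e2 : gm w (ν * of 8) (pX 8 (x1 8)) (pY 8 (y2 8)) *
        (gm w (ν * of 8) (pX 8 (x2 8)) (pY 8 (y2 8)))⁻¹ *
        gm w (ν * of 8) (pX 8 (x2 8)) (pY 8 (y1 8)) *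
        (gm w (ν * of 8) (pX 8 (x1 8)) (pY 8 (y1 8)))⁻¹ = theta w (ν * of 8) := by
        have p1 : pX 8 (x1 8) = 1 := by decide
        have p2 : pX 8 (x2 8) = 0 := by decide
        have p3 : pY 8 (y1 8) = 0 := by decide
        have p4 : pY 8 (y2 8) = 1 := by decide
        rw [p1, p2, p3, p4]
        simp [gm]
      rw [e1, e2]
      conv_lhs => rw [theta_rec w hw ν]
      group
    · refine ⟨1, ?_⟩
      have hpX : pX α = 1 := by revert h7 h8; fin_cases α <;> simp [pX]
      have hpY : pY α = 1 := by revert h7 h8; fin_cases α <;> simp [pY]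
      rw [face_hol w hw ν α h7 h8, hpX, hpY]
      simp only [Equiv.Perm.coe_one, id_eq]
      rw [face_hol w hw (ν * of α) α h7 h8]
      simp
  obtain ⟨c, hc⟩ := key
  have hx : x2 α ≠ x1 α := by fin_cases α <;> decide
  have hy : y2 α ≠ y1 α := by fin_cases α <;> decide
  obtain ⟨U, V, h1, h2, h3, h4⟩ := gauge2 (gm w ν)
    (fun i k => gm w (ν * of α) (pX α i) (pY α k)) (x1 α) (x2 α) (y1 α) (y2 α) hx hy c hc
  refine ⟨U, V, ?_⟩
  rintro i k (rfl | rfl) (rfl | rfl)
  · exact h1
  · exact h2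
  · exact h3
  · exact h4


/-- `D_a` is conjugate to `(theta (ν * of 7))⁻¹` -/
theorem hol_a (hw : ∀ ν, w ν = (w (ν ++ [false]))⁻¹ * w (ν ++ [true]) * w (ν ++ [false]) *
      (w (ν ++ [true]))⁻¹) (ν : FreeGroup Ltr) :
    gm w ν 0 1 * (gm w ν 1 1)⁻¹ * gm w ν 1 2 * (gm w ν 0 2)⁻¹ =
      theta w (ν * of 8) * (theta w (ν * of 7))⁻¹ * (theta w (ν * of 8))⁻¹ := by
  have e1 : gm w ν 0 1 * (gm w ν 1 1)⁻¹ * gm w ν 1 2 * (gm w ν 0 2)⁻¹ =
      (theta w ν)⁻¹ * (theta w (ν * of 7))⁻¹ := by simp [gm]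
  rw [e1]
  conv_lhs => rw [theta_rec w hw ν]
  group


end

end Crest.Agent.R197
private theorem rz_7601ad2ad3 : type_of% @_root_.Crest.Agent.R197.codeInv.eq_def := @_root_.Crest.Agent.R197.codeInv.eq_def -- L26
private theorem rz_71bcd3045e : type_of% @_root_.Crest.Agent.R197.codeInv.eq_1 := @_root_.Crest.Agent.R197.codeInv.eq_1 -- L26
end

-- ▼ part R197/DetTower
section

/-! Row 197, task B1c: the wreath product tower `(W, V, w)`. -/

set_option autoImplicit false

namespace Crest.Agent.R197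

namespace Tower

section gam
variable {E F : Type*} [Group E] [Group F]

theorem gam_mono {N M : Subgroup E} (h : N ≤ M) (k : ℕ) : gam N k ≤ gam M k := by
  induction k with
  | zero => exact h
  | succ k ih => exact Subgroup.commutator_mono ih h

theorem gam_map (f : E →* F) (N : Subgroup E) (k : ℕ) : (gam N k).map f = gam (N.map f) k := by
  induction k with
  | zero => rfl
  | succ k ih => simp only [gam, Subgroup.map_commutator, ih]

end gam

/-- functions with values in the `k`-th term -/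
theorem gam_pi_le {S U : Type*} [Group U] (k : ℕ) :
    gam (⊤ : Subgroup (S → U)) k ≤ Subgroup.pi Set.univ (fun _ => gam (⊤ : Subgroup U) k) := by
  intro f hf
  rw [Subgroup.mem_pi]
  intro s _
  have h : (gam (⊤ : Subgroup (S → U)) k).map (Pi.evalMonoidHom (fun _ : S => U) s) ≤ gam (⊤ : Subgroup U) k := by
    rw [gam_map]
    exact gam_mono le_top k
  exact h ⟨f, hf, rfl⟩

/-- translation action of `S` on functions `S → U` -/
def transl (S U : Type*) [Group S] [Group U] : S →* MulAut (S → U) where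
  toFun s :=
    { toFun := fun f x => f (s⁻¹ * x)
      invFun := fun f x => f (s * x)
      left_inv := fun f => by ext x; simp
      right_inv := fun f => by ext x; simp
      map_mul' := fun f g => rfl }
  map_one' := by ext f x; simp
  map_mul' := fun s t => by ext f x; simp [mul_assoc]

/-- solve `x s⁻¹ * x (τ⁻¹ s) = f s` -/
theorem solve_orbit {S U : Type*} [Group S] [Group U] (τ : S) (hτ : ∀ n : ℤ, τ ^ n = 1 → n = 0)
    (f : S → U) : ∃ x : S → U, ∀ s, (x s)⁻¹ * x (τ⁻¹ * s) = f s := by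
  classical
  -- orbit representatives for the left action of ⟨τ⟩
  let r : S → Quotient (QuotientGroup.rightRel (Subgroup.zpowers τ)) := fun s => Quotient.mk'' s
  -- representative
  let ρ : S → S := fun s => (Quotient.out (r s))
  have hρ : ∀ s, ∃ n : ℤ, τ ^ n * s = ρ s := by
    intro s
    have h : (Quotient.mk'' (ρ s) : Quotient (QuotientGroup.rightRel (Subgroup.zpowers τ))) = r s :=
      Quotient.out_eq' (r s)
    have h2 := Quotient.eq''.mp h
    rw [QuotientGroup.rightRel_apply] at h2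
    obtain ⟨n, hn⟩ := Subgroup.mem_zpowers_iff.mp h2
    refine ⟨-n, ?_⟩
    rw [zpow_neg, hn]
    group
  choose e he using hρ
  have hρ1 : ∀ s, ρ (τ⁻¹ * s) = ρ s := by
    intro s
    have : r (τ⁻¹ * s) = r s := by
      apply Quotient.eq''.mpr
      rw [QuotientGroup.rightRel_apply]
      refine Subgroup.mem_zpowers_iff.mpr ⟨1, by group⟩
    simp only [ρ, this]
  have he1 : ∀ s, e (τ⁻¹ * s) = e s + 1 := by
    intro s
    have h1 := he (τ⁻¹ * s)
    rw [hρ1, ← he s] at h1
    have h2 : τ ^ (e (τ⁻¹ * s) - e s - 1) = 1 := by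
      have h3 : τ ^ (e (τ⁻¹ * s)) * τ⁻¹ = τ ^ (e s) := by
        have := congrArg (· * s⁻¹) h1
        simpa [mul_assoc] using this
      rw [sub_sub, zpow_sub, zpow_add, zpow_one, ← h3]
      group
    have := hτ _ h2
    omega
  -- product along the orbit
  -- y ρ n = value at τ^{-n} ρ
  have key : ∀ c : S, ∃ y : ℤ → U, ∀ n : ℤ, (y n)⁻¹ * y (n + 1) = f (τ ^ (-n) * c) := by
    intro c
    let g : ℤ → U := fun n => f (τ ^ (-n) * c)
    -- nonnegative and negative parts
    let p : ℕ → U := fun n => Nat.rec 1 (fun k acc => acc * g k) n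
    let q : ℕ → U := fun n => Nat.rec 1 (fun k acc => acc * (g (-(k : ℤ) - 1))⁻¹) n
    refine ⟨fun n => match n with
      | Int.ofNat n => p n
      | Int.negSucc n => q (n + 1), ?_⟩
    intro n
    rcases n with n | n
    · show (p n)⁻¹ * p (n + 1) = g n
      simp [p]
    · rcases n with _ | n
      · show (q 1)⁻¹ * p 0 = g (-1)
        simp [p, q]
      · show (q (n + 1 + 1))⁻¹ * q (n + 1) = g (Int.negSucc (n + 1))
        have : (Int.negSucc (n + 1)) = -((n + 1 : ℕ) : ℤ) - 1 := by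
          rw [Int.negSucc_eq]; push_cast; ring
        rw [this]
        have h : q (n + 1 + 1) = q (n + 1) * (g (-((n + 1 : ℕ) : ℤ) - 1))⁻¹ := rfl
        rw [h]
        group
  choose y hy using key
  refine ⟨fun s => y (ρ s) (e s), fun s => ?_⟩
  simp only [hρ1, he1]
  rw [hy, ← he s]
  congr 1
  group

variable {S U : Type} [Group S] [Group U]

abbrev WW (S U : Type) [Group S] [Group U] := (S → U) ⋊[transl S U] S

/-- the set of good elements -/
def Good (w : WW S U) : Prop :=
  (∃ v : S → U, w = SemidirectProduct.inl v) ∨ (∃ s : S, w = SemidirectProduct.inr s)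

theorem good_split (hS : ∀ q : S, ∃ s t : S, q = s⁻¹ * t * s * t⁻¹) (τ : S)
    (hτ : ∀ n : ℤ, τ ^ n = 1 → n = 0) (w : WW S U) (hw : Good w) :
    ∃ a b : WW S U, Good a ∧ Good b ∧ w = a⁻¹ * b * a * b⁻¹ := by
  rcases hw with ⟨v, rfl⟩ | ⟨q, rfl⟩
  · obtain ⟨x, hx⟩ := solve_orbit τ hτ v
    refine ⟨SemidirectProduct.inl x, SemidirectProduct.inr τ, Or.inl ⟨x, rfl⟩, Or.inr ⟨τ, rfl⟩, ?_⟩
    have h1 : (SemidirectProduct.inl x : WW S U)⁻¹ * SemidirectProduct.inr τ * SemidirectProduct.inl x *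
        (SemidirectProduct.inr τ)⁻¹ = SemidirectProduct.inl (x⁻¹ * transl S U τ x) := by
      rw [map_mul, map_inv, SemidirectProduct.inl_aut]
      simp only [map_inv, mul_assoc]
    rw [h1]
    congr 1
    ext s
    exact (hx s).symm
  · obtain ⟨s, t, h⟩ := hS q
    refine ⟨SemidirectProduct.inr s, SemidirectProduct.inr t, Or.inr ⟨s, rfl⟩, Or.inr ⟨t, rfl⟩, ?_⟩
    rw [h]
    simp

end Tower

open Tower in
theorem tower_of {S U : Type} [Group S] [Group U] (hS : ∀ q : S, ∃ s t : S, q = s⁻¹ * t * s * t⁻¹)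
    (hτ : ∃ τ : S, ∀ n : ℤ, τ ^ n = 1 → n = 0) (c d : ℕ) (hc : gam (⊤ : Subgroup U) c = ⊥)
    (u : List Bool → U)
    (hu : ∀ ν : List Bool, ν.length < d →
      u ν = (u (ν ++ [false]))⁻¹ * u (ν ++ [true]) * u (ν ++ [false]) * (u (ν ++ [true]))⁻¹)
    (hu0 : u [] ≠ 1) :
    ∃ (W : Type) (_ : Group W) (V : Subgroup W) (_ : V.Normal) (c : ℕ) (w : List Bool → W),
      gam V c = ⊥ ∧
      (∀ ν, w ν = (w (ν ++ [false]))⁻¹ * w (ν ++ [true]) * w (ν ++ [false]) * (w (ν ++ [true]))⁻¹) ∧
      (∀ ν, ν.length ≤ d → w ν ∈ V) ∧ w [] ≠ 1 := by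
  classical
  obtain ⟨τ, hτ⟩ := hτ
  have hsplit : ∀ w : WW S U, ∃ a b : WW S U, Good w → (Good a ∧ Good b ∧ w = a⁻¹ * b * a * b⁻¹) := by
    intro w
    by_cases h : Good w
    · obtain ⟨a, b, h1⟩ := good_split hS τ hτ w h
      exact ⟨a, b, fun _ => h1⟩
    · exact ⟨1, 1, fun h' => absurd h' h⟩
  choose A B hAB using hsplit
  let step : WW S U → Bool → WW S U := fun g b => cond b (B g) (A g)
  have hstep : ∀ (l : List Bool) (g : WW S U), Good g → Good (l.foldl step g) := by
    intro l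
    induction l with
    | nil => intro g hg; exact hg
    | cons b l ih =>
      intro g hg
      rw [List.foldl_cons]
      apply ih
      cases b
      · exact (hAB g hg).1
      · exact (hAB g hg).2.1
  let w : List Bool → WW S U := fun ν =>
    (ν.drop d).foldl step (SemidirectProduct.inl (fun _ => u (ν.take d)))
  have hgood : ∀ ν, Good (w ν) := fun ν => hstep _ _ (Or.inl ⟨_, rfl⟩)
  have hle : ∀ ν : List Bool, ν.length ≤ d → w ν = SemidirectProduct.inl (fun _ => u ν) := by
    intro ν h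
    simp only [w, List.drop_eq_nil_of_le h, List.take_of_length_le h, List.foldl_nil]
  refine ⟨WW S U, inferInstance, (SemidirectProduct.inl : (S → U) →* WW S U).range, ?_, c, w,
    ?_, ?_, ?_, ?_⟩
  · rw [SemidirectProduct.range_inl_eq_ker_rightHom]
    infer_instance
  · rw [MonoidHom.range_eq_map, ← gam_map]
    rw [eq_bot_iff]
    rintro _ ⟨f, hf, rfl⟩
    have h := gam_pi_le (S := S) c hf
    rw [hc] at h
    have : f = 1 := by
      ext s
      have := (Subgroup.mem_pi _).mp h s trivial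
      simpa using this
    simp [this]
  · intro ν
    rcases lt_or_ge ν.length d with h | h
    · rw [hle ν h.le, hle (ν ++ [false]) (by simp; omega), hle (ν ++ [true]) (by simp; omega)]
      rw [← map_inv, ← map_mul, ← map_mul, ← map_inv, ← map_mul]
      congr 1
      ext s
      exact hu ν h
    · have h1 : ∀ b, w (ν ++ [b]) = step (w ν) b := by
        intro b
        simp only [w]
        rw [List.drop_append_of_le_length h, List.take_append_of_le_length h, List.foldl_append]
        rfl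
      rw [h1, h1]
      exact (hAB (w ν) (hgood ν)).2.2
  · intro ν h
    rw [hle ν h]
    exact ⟨_, rfl⟩
  · rw [hle [] (by simp)]
    intro h
    apply hu0
    have h2 : (fun _ : S => u []) = 1 := by
      apply SemidirectProduct.inl_injective (φ := transl S U)
      rw [h]; simp
    exact congrFun h2 1

end Crest.Agent.R197
end

-- ▼ part R197/DetHol
section

/-!
# Row 197, module B5: holonomy of the scaled loops and the detection theorem.
-/

set_option autoImplicit false

namespace Crest.Agent.R197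

namespace Wr

variable {S W : Type*} [Group W]

/-- elements whose label is the coboundary of `u` -/
def cob (u : S → W) : Subgroup (Wr S W) where
  carrier := {a | ∀ g, a.lab g = u g * (u (a.perm g))⁻¹}
  one_mem' := fun g => by simp
  mul_mem' := by
    intro a b ha hb g
    simp only [mul_lab, mul_perm, ha g, hb (a.perm g)]
    group
  inv_mem' := by
    intro a ha g
    have h := ha (a.perm.symm g)
    rw [Equiv.apply_symm_apply] at h
    rw [inv_lab, h, inv_perm]
    group

theorem mem_cob {u : S → W} {a : Wr S W} :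
    a ∈ cob u ↔ ∀ g, a.lab g = u g * (u (a.perm g))⁻¹ := Iff.rfl

theorem zpow_perm (a : Wr S W) (n : ℤ) : (a ^ n).perm = a.perm ^ n := by
  let h : Wr S W →* (Equiv.Perm S)ᵐᵒᵖ :=
    { toFun := fun a => MulOpposite.op a.perm
      map_one' := rfl
      map_mul' := fun a b => rfl }
  have := map_zpow h a n
  exact congrArg MulOpposite.unop this

theorem gam_labIn_le (V : Subgroup W) (k : ℕ) : gam (labIn S V) k ≤ labIn S (gam V k) := by
  induction k with
  | zero => exact le_refl _
  | succ k ih =>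
    exact (Subgroup.commutator_mono ih le_rfl).trans (commutator_labIn_le _ _ _ le_rfl)

end Wr

namespace Det

open FreeGroup (of)
open Beta

namespace NodeData

variable {W : Type} [Group W] (D : NodeData W)

/-- the potential of the labels of `A_ik` -/
def pot (k : Fin 4) (g : Pt) : W :=
  if tot g = -3 ∧ g.2.2 = 1 then D.gm g.1 (bt g.2.1) k else 1

theorem Psi_A_mem_cob (i k : Fin 4) : D.Psi (Aw EE.x EE.y i k) ∈ Wr.cob (D.pot k) := by
  intro g
  rw [Psi_A_lab, Psi_A_perm]
  obtain ⟨ν, p, q⟩ := g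
  have ht : tot (ν, p * (of i)⁻¹, q * of k) = tot (ν, p, q) := by
    simp only [tot, ch_mul, ch_inv, ch_of]; ring
  simp only [pot, ht]
  by_cases hg : tot (ν, p, q) = -3
  swap
  · simp [hg]
  simp only [hg, true_and, if_true]
  simp only [tot] at hg
  by_cases hq : q = 1
  · subst hq
    rw [f_one_right, one_mul, if_pos rfl, if_neg (FreeGroup.of_ne_one k)]
    simp [f]
  · rw [if_neg hq]
    by_cases hq2 : q * of k = 1
    · have hqk : q = (of k)⁻¹ := eq_inv_of_mul_eq_one_left hq2
      have hcq : ch q = -1 := by rw [hqk, ch_inv, ch_of]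
      rw [if_pos hq2, hq2, f_one_right, mul_one, one_mul]
      have hbq : bt q = k := by rw [hqk, bt_of_inv]
      simp only [f, hbq]
      by_cases hν : ch ν < -1
      · rw [D.triv ν hν, D.triv ν hν]
      · have hp1 : p ≠ 1 := by
          rintro rfl
          rw [ch_one] at hg
          omega
        have hp2 : p * (of i)⁻¹ ≠ 1 := by
          intro h
          have : ch (p * (of i)⁻¹) = 0 := by rw [h, ch_one]
          rw [ch_mul, ch_inv, ch_of] at this
          omega
        rw [bt_mul_of_inv i hp1 hp2]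
    · rw [if_neg hq2]
      simp [f, bt_mul_of k hq hq2]

theorem Psi_A_zpow_perm (i k : Fin 4) (n : ℤ) (g : Pt) :
    (D.Psi (Aw EE.x EE.y i k) ^ n).perm g = (g.1, g.2.1 * (of i) ^ (-n), g.2.2 * (of k) ^ n) := by
  rw [Wr.zpow_perm]
  have key : ∀ n : ℤ, ∀ g : Pt, ((D.Psi (Aw EE.x EE.y i k)).perm ^ n) g =
      (g.1, g.2.1 * (of i) ^ (-n), g.2.2 * (of k) ^ n) := by
    intro n
    induction n using Int.induction_on with
    | zero => intro g; simp
    | succ n ih =>
      intro g
      rw [zpow_add_one, Equiv.Perm.mul_apply, ih, Psi_A_perm]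
      simp only [mul_assoc]
      rw [← zpow_neg_one, ← zpow_add, ← zpow_one_add]
      congr 4 <;> ring
    | pred n ih =>
      intro g
      rw [zpow_sub_one, Equiv.Perm.mul_apply, ih]
      have h1 : (D.Psi (Aw EE.x EE.y i k)).perm⁻¹ g = (g.1, g.2.1 * of i, g.2.2 * (of k)⁻¹) := by
        rw [Equiv.Perm.inv_eq_iff_eq, Psi_A_perm]
        simp
      rw [h1]
      simp only [mul_assoc]
      rw [← zpow_neg_one (of k), ← zpow_add, ← zpow_one_add]
      congr 3
      · congr 1; ring
      · congr 1; ring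
  exact key n g

theorem Psi_lam (i j k l : Fin 4) (n : ℤ) (g : Pt) :
    (D.Psi (lam EE.x EE.y i j k l n)).perm g = g ∧
    (D.Psi (lam EE.x EE.y i j k l n)).lab g =
      D.pot k g * (D.pot k (g.1, g.2.1 * (of i) ^ (-n) * (of j) ^ n, g.2.2))⁻¹ *
        D.pot l (g.1, g.2.1 * (of i) ^ (-n) * (of j) ^ n, g.2.2) * (D.pot l g)⁻¹ := by
  have hc : ∀ (i k : Fin 4) (n : ℤ), D.Psi (Aw EE.x EE.y i k) ^ n ∈ Wr.cob (D.pot k) :=
    fun i k n => Subgroup.zpow_mem _ (D.Psi_A_mem_cob i k) n
  have hc' : ∀ (i k : Fin 4) (n : ℤ) (g : Pt), (D.Psi (Aw EE.x EE.y i k) ^ n).lab g =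
      D.pot k g * (D.pot k (g.1, g.2.1 * (of i) ^ (-n), g.2.2 * (of k) ^ n))⁻¹ := by
    intro i k n g
    rw [Wr.mem_cob.1 (hc i k n) g, Psi_A_zpow_perm]
  constructor
  · simp only [lam, map_mul, map_zpow, Wr.mul_perm, Psi_A_zpow_perm]
    simp [mul_assoc]
  · simp only [lam, map_mul, map_zpow, Wr.mul_perm, Wr.mul_lab, Psi_A_zpow_perm, hc', neg_neg]
    have e1 : g.2.2 * of k ^ n * of k ^ (-n) = g.2.2 := by simp [mul_assoc]
    have e2 : g.2.1 * of i ^ (-n) * of j ^ n * of j ^ (-n) = g.2.1 * of i ^ (-n) := by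
      simp [mul_assoc]
    have e3 : g.2.2 * of l ^ n * of l ^ (-n) = g.2.2 := by simp [mul_assoc]
    have e4 : g.2.1 * of i ^ (-n) * of i ^ n = g.2.1 := by simp [mul_assoc]
    rw [e1, e2, e3, e4]
    group

/-- all labels of the scaled loops at scale `-m` lie in `V` -/
theorem Psi_lam_mem (V : Subgroup W) (m : ℕ)
    (hV : ∀ ν, ch ν + 1 ≤ m → ∀ i k, D.gm ν i k ∈ V) (i j k l : Fin 4) :
    D.Psi (lam EE.x EE.y i j k l (-(m : ℤ))) ∈ Wr.labIn Pt V := by
  refine ⟨fun g => (D.Psi_lam i j k l _ g).1, fun g => ?_⟩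
  rw [(D.Psi_lam i j k l _ g).2]
  obtain ⟨ν, p, q⟩ := g
  simp only [neg_neg]
  have ht : tot (ν, p * of i ^ (m : ℤ) * of j ^ (-(m : ℤ)), q) = tot (ν, p, q) := by
    simp only [tot, ch_mul, ch_zpow, ch_of]; ring
  simp only [pot, ht]
  by_cases hg : tot (ν, p, q) = -3 ∧ q = 1
  swap
  · simp only [if_neg hg]
    simp [V.one_mem]
  simp only [if_pos hg]
  obtain ⟨hg, rfl⟩ := hg
  simp only [tot, ch_one] at hg
  by_cases hν : ch ν < -1
  · simp only [D.triv ν hν]
    simp [V.one_mem]
  have hp1 : p ≠ 1 := by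
    rintro rfl
    rw [ch_one] at hg
    omega
  by_cases hp2 : p * of i ^ (m : ℤ) = 1
  · have hcp : ch p = -m := by
      have : ch (p * of i ^ (m : ℤ)) = 0 := by rw [hp2, ch_one]
      rw [ch_mul, ch_zpow, ch_of] at this
      omega
    have h := hV ν (by omega)
    exact V.mul_mem (V.mul_mem (V.mul_mem (h _ _) (V.inv_mem (h _ _))) (h _ _))
      (V.inv_mem (h _ _))
  · have hb1 : bt (p * of i ^ (m : ℤ)) = bt p := bt_mul_zpow hp1 hp2
    have hp3 : p * of i ^ (m : ℤ) * of j ^ (-(m : ℤ)) ≠ 1 := by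
      intro h
      have : ch (p * of i ^ (m : ℤ) * of j ^ (-(m : ℤ))) = 0 := by rw [h, ch_one]
      simp only [ch_mul, ch_zpow, ch_of] at this
      omega
    have hb2 := bt_mul_zpow (i := j) (n := -(m : ℤ)) hp2 hp3
    rw [hb2, hb1]
    simp [V.one_mem]

/-- the label of `p0` at a special point -/
theorem Psi_p0 : (D.Psi p0).lab ((of 7)⁻¹, (of 0) ^ (-2 : ℤ), 1) =
    D.gm (of 7)⁻¹ 0 1 * (D.gm (of 7)⁻¹ 1 1)⁻¹ * D.gm (of 7)⁻¹ 1 2 * (D.gm (of 7)⁻¹ 0 2)⁻¹ := by
  rw [p0, (D.Psi_lam 0 1 1 2 (-2) _).2]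
  have e1 : (of 0 : F4) ^ (-2 : ℤ) * of 0 ^ (-(-2) : ℤ) * of 1 ^ (-2 : ℤ) = of 1 ^ (-2 : ℤ) := by
    rw [← zpow_add]; simp
  have h1 : tot ((of 7 : FL)⁻¹, (of 0 : F4) ^ (-2 : ℤ), (1 : F4)) = -3 := by
    simp only [tot, ch_inv, ch_of, ch_zpow, ch_one]; norm_num
  have h2 : tot ((of 7 : FL)⁻¹, (of 1 : F4) ^ (-2 : ℤ), (1 : F4)) = -3 := by
    simp only [tot, ch_inv, ch_of, ch_zpow, ch_one]; norm_num
  simp only [pot, e1, h1, h2, true_and, if_true]
  rw [bt_zpow (by norm_num), bt_zpow (by norm_num)]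

end NodeData

/-- detection from a tower of groups -/
theorem detection_of_tower (m : ℕ) {W : Type} [Group W] (V : Subgroup W) [V.Normal] (c : ℕ)
    (w : List Bool → W) (hc : gam V c = ⊥)
    (hw : ∀ ν, w ν = (w (ν ++ [false]))⁻¹ * w (ν ++ [true]) * w (ν ++ [false]) *
      (w (ν ++ [true]))⁻¹)
    (hV : ∀ ν : List Bool, ν.length ≤ m → w ν ∈ V) (h0 : w [] ≠ 1) :
    ∃ k, p0 ∉ gam (PP m) k := by
  have hch : ∀ ν : FL, (chiL ν).toAdd = ch ν := fun ν => rfl
  obtain ⟨D, hD⟩ := NodeData.exists (gm w) (gm_zero_left w) (gm_zero_right w)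
    (fun ν h i k => gm_eq_one_of_chi w h i k) (fun ν α => block_gauge w hw ν α)
  refine ⟨c, fun hp => ?_⟩
  have hPP : (PP m).map D.Psi ≤ Wr.labIn Pt V := by
    rw [Subgroup.map_le_iff_le_comap]
    refine Subgroup.normalClosure_le_normal ?_
    have h := D.Psi_lam_mem V m (fun ν hν i k => by
      rw [hD]; exact gm_mem w hV hν i k)
    rintro _ (rfl | rfl)
    · exact h 0 1 1 2
    · exact h 1 2 0 1
  have h1 : D.Psi p0 ∈ Wr.labIn Pt (⊥ : Subgroup W) := by
    rw [← hc]
    refine Wr.gam_labIn_le V c (Tower.gam_mono hPP c ?_)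
    rw [← Tower.gam_map]
    exact ⟨p0, hp, rfl⟩
  have h2 := (Wr.mem_labIn.1 h1).2 ((of 7)⁻¹, (of 0) ^ (-2 : ℤ), 1)
  rw [Subgroup.mem_bot, D.Psi_p0, hD, hol_a w hw] at h2
  rw [inv_mul_cancel, theta_one] at h2
  apply h0
  have h3 : theta w ((of 7)⁻¹ * of 8) * (w [])⁻¹ = theta w ((of 7)⁻¹ * of 8) := by
    rwa [mul_inv_eq_one] at h2
  simpa using h3

end Det

end Crest.Agent.R197
end

-- ▼ part R197/DetU
section

/-!
# Row 197, module B1a: a nilpotent group with a nontrivial iterated commutator of depth `d`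
-/

set_option autoImplicit false

namespace Crest.Agent.R197.DetU

open Matrix

/-- index type of the matrices -/
abbrev Ix (N : ℕ) := Fin (N + 1)
abbrev Mt (N : ℕ) := Matrix (Ix N) (Ix N) (ZMod 2)

/-- strictly upper triangular -/
def SU {N : ℕ} (M : Mt N) : Prop := ∀ i j : Ix N, j ≤ i → M i j = 0

theorem SU.add {N : ℕ} {M M' : Mt N} (h : SU M) (h' : SU M') : SU (M + M') := by
  intro i j hij
  simp [h i j hij, h' i j hij]

theorem SU.mul {N : ℕ} {M M' : Mt N} (h : SU M) (h' : SU M') : SU (M * M') := by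
  intro i j hij
  rw [Matrix.mul_apply]
  apply Finset.sum_eq_zero
  intro k _
  by_cases hk : k ≤ i
  · rw [h i k hk, zero_mul]
  · rw [h' k j (hij.trans (le_of_not_ge hk)), mul_zero]

theorem SU.pow_apply {N : ℕ} {M : Mt N} (h : SU M) (n : ℕ) :
    ∀ i j : Ix N, (j : ℕ) < (i : ℕ) + n → (M ^ n) i j = 0 := by
  induction n with
  | zero =>
    intro i j hij
    rw [pow_zero, Matrix.one_apply_ne]
    intro e
    subst e
    simp at hij
  | succ n ih =>
    intro i j hij
    rw [pow_succ, Matrix.mul_apply]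
    apply Finset.sum_eq_zero
    intro k _
    by_cases hk : (k : ℕ) < (i : ℕ) + n
    · rw [ih i k hk, zero_mul]
    · rw [h k j (by rw [Fin.le_def]; omega), mul_zero]

theorem SU.pow_eq_zero {N : ℕ} {M : Mt N} (h : SU M) {n : ℕ} (hn : N < n) : M ^ n = 0 := by
  ext i j
  exact h.pow_apply n i j (by omega)

/-- the submonoid of upper unitriangular matrices -/
def UM (N : ℕ) : Submonoid (Mt N)ˣ where
  carrier := {g | SU ((g : Mt N) - 1)}
  one_mem' := by
    intro i j _
    simp
  mul_mem' := by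
    intro a b ha hb
    have e : ((a * b : (Mt N)ˣ) : Mt N) - 1
        = (((a : Mt N) - 1) * ((b : Mt N) - 1) + ((a : Mt N) - 1)) + ((b : Mt N) - 1) := by
      rw [Units.val_mul]
      noncomm_ring
    change SU _
    rw [e]
    exact ((SU.mul ha hb).add ha).add hb

theorem pow_two_pow {N : ℕ} (g : (Mt N)ˣ) (hg : g ∈ UM N) : g ^ (2 ^ (N + 1)) = 1 := by
  have hN : N < 2 ^ (N + 1) := (Nat.lt_succ_self N).trans (Nat.lt_two_pow_self)
  have : CharP (Mt N) 2 := inferInstance
  have h0 : ((g : Mt N) - 1) ^ (2 ^ (N + 1)) = 0 := SU.pow_eq_zero hg hN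
  have h1 : (g : Mt N) ^ (2 ^ (N + 1)) = 1 := by
    have := add_pow_char_pow_of_commute (R := Mt N) (p := 2) (n := N + 1) (x := (g : Mt N) - 1) (y := 1)
      (Commute.one_right _)
    rw [sub_add_cancel, h0, one_pow, zero_add] at this
    exact this
  exact Units.ext (by rw [Units.val_pow_eq_pow_val, h1, Units.val_one])

/-- the group of upper unitriangular matrices over `ZMod 2` -/
def UU (N : ℕ) : Subgroup (Mt N)ˣ where
  toSubmonoid := UM N
  inv_mem' := by
    intro g hg
    have h := pow_two_pow g hg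
    have h2 : g⁻¹ = g ^ (2 ^ (N + 1) - 1) := by
      apply inv_eq_of_mul_eq_one_left
      rw [← pow_succ, Nat.sub_add_cancel Nat.one_le_two_pow, h]
    rw [h2]
    exact (UM N).pow_mem hg _

theorem isPGroup (N : ℕ) : IsPGroup 2 (UU N) := by
  intro g
  refine ⟨N + 1, ?_⟩
  ext1
  exact pow_two_pow g.1 g.2

instance (N : ℕ) : Finite (UU N) := inferInstance

theorem nilp (N : ℕ) : Group.IsNilpotent (UU N) := (isPGroup N).isNilpotent

theorem gam_top {U : Type*} [Group U] (n : ℕ) :
    gam (⊤ : Subgroup U) n = Subgroup.lowerCentralSeries ⊤ n := by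
  induction n with
  | zero => rfl
  | succ n ih =>
    simp only [gam, ih]
    rfl

/-- `1 + E_{ij}` (for `i < j ≤ N`) -/
def el (N : ℕ) (i j : ℕ) : UU N :=
  if h : i < j ∧ j < N + 1 then
    ⟨⟨transvection ⟨i, h.1.trans h.2⟩ ⟨j, h.2⟩ 1, transvection ⟨i, h.1.trans h.2⟩ ⟨j, h.2⟩ 1, by
        have hne : (⟨i, h.1.trans h.2⟩ : Ix N) ≠ ⟨j, h.2⟩ := by
          intro e; simp at e; omega
        rw [transvection_mul_transvection_same _ _ hne]
        have : (1 : ZMod 2) + 1 = 0 := by decide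
        rw [this, transvection_zero], by
        have hne : (⟨i, h.1.trans h.2⟩ : Ix N) ≠ ⟨j, h.2⟩ := by
          intro e; simp at e; omega
        rw [transvection_mul_transvection_same _ _ hne]
        have : (1 : ZMod 2) + 1 = 0 := by decide
        rw [this, transvection_zero]⟩, by
      change SU _
      intro a b hab
      simp only [transvection, add_sub_cancel_left]
      rw [Matrix.single_apply_of_ne]
      rintro ⟨rfl, rfl⟩
      rw [Fin.le_def] at hab
      simp at hab
      omega⟩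
  else 1

theorem el_val {N i j : ℕ} (hij : i < j) (hj : j < N + 1) :
    ((el N i j : (Mt N)ˣ) : Mt N) = transvection ⟨i, hij.trans hj⟩ ⟨j, hj⟩ 1 := by
  rw [el, dif_pos ⟨hij, hj⟩]

theorem el_inv {N i j : ℕ} (hij : i < j) (hj : j < N + 1) : (el N i j)⁻¹ = el N i j := by
  rw [inv_eq_iff_mul_eq_one]
  ext1
  apply Units.ext
  simp only [Subgroup.coe_mul, Units.val_mul, el_val hij hj, Subgroup.coe_one, Units.val_one]
  have hne : (⟨i, hij.trans hj⟩ : Ix N) ≠ ⟨j, hj⟩ := by
    intro e; simp at e; omega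
  rw [transvection_mul_transvection_same _ _ hne]
  have : (1 : ZMod 2) + 1 = 0 := by decide
  rw [this, transvection_zero]

theorem el_comm {N a m b : ℕ} (ham : a < m) (hmb : m < b) (hb : b < N + 1) :
    el N a b = (el N a m)⁻¹ * el N m b * el N a m * (el N m b)⁻¹ := by
  have hm : m < N + 1 := hmb.trans hb
  have hab : a < b := ham.trans hmb
  rw [el_inv ham hm, el_inv hmb hb]
  ext1
  apply Units.ext
  simp only [Subgroup.coe_mul, Units.val_mul, el_val ham hm, el_val hmb hb, el_val hab hb]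
  have h1 : (⟨a, ham.trans hm⟩ : Ix N) ≠ ⟨m, hm⟩ := by
    intro e; simp at e; omega
  have h2 : (⟨m, hm⟩ : Ix N) ≠ ⟨b, hb⟩ := by
    intro e; simp at e; omega
  have h3 : (⟨a, ham.trans hm⟩ : Ix N) ≠ ⟨b, hb⟩ := by
    intro e; simp at e; omega
  generalize (⟨a, ham.trans hm⟩ : Ix N) = A at *
  generalize (⟨m, hm⟩ : Ix N) = M at *
  generalize (⟨b, hb⟩ : Ix N) = B at *
  simp only [transvection]
  set x : Mt N := Matrix.single A M 1 with hx
  set y : Mt N := Matrix.single M B 1 with hy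
  set z : Mt N := Matrix.single A B 1 with hz
  have hxy : x * y = z := by simp [hx, hy, hz]
  have hyx : y * x = 0 := by simp [hx, hy, Matrix.single_mul_single_of_ne, h3.symm]
  have hxx : x * x = 0 := by simp [hx, Matrix.single_mul_single_of_ne, h1.symm]
  have hyy : y * y = 0 := by simp [hy, Matrix.single_mul_single_of_ne, h2.symm]
  have hxyx : x * y * x = 0 := by rw [mul_assoc, hyx, mul_zero]
  have h2' : ∀ w : Mt N, w + w = 0 := fun w => CharTwo.add_self_eq_zero w
  have key : (1 + x) * (1 + y) * (1 + x) * (1 + y)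
      = 1 + x * y + ((x + x) + (y + y) + (x * y + x * y) + (x * x + x * x * y) + (y * x + y * x * y)
          + (y * y + x * y * y) + x * y * x + x * y * x * y) := by
    noncomm_ring
  rw [key, h2', h2', h2', hxyx, hxx, hyy, hyx, mul_assoc x y y, hyy, hxy]
  simp [h2']

theorem el_ne_one {N a b : ℕ} (hab : a < b) (hb : b < N + 1) : el N a b ≠ 1 := by
  intro h
  have h' : ((el N a b : (Mt N)ˣ) : Mt N) = 1 := by rw [h]; rfl
  rw [el_val hab hb] at h'
  have h3 : (⟨a, hab.trans hb⟩ : Ix N) ≠ ⟨b, hb⟩ := by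
    intro e; simp at e; omega
  have := congrFun (congrFun h' ⟨a, hab.trans hb⟩) ⟨b, hb⟩
  rw [transvection, Matrix.add_apply, Matrix.one_apply_ne h3, Matrix.single_apply_same] at this
  simp at this

/-- the binary number of a word -/
def num (ν : List Bool) : ℕ := ν.foldl (fun n b => 2 * n + b.toNat) 0

theorem num_append (ν : List Bool) (b : Bool) : num (ν ++ [b]) = 2 * num ν + b.toNat := by
  simp [num, List.foldl_append]

theorem num_lt (ν : List Bool) : num ν + 1 ≤ 2 ^ ν.length := by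
  induction ν using List.reverseRecOn with
  | nil => simp [num]
  | append_singleton ν b ih =>
    rw [num_append, List.length_append, List.length_singleton, pow_succ]
    have : b.toNat ≤ 1 := by cases b <;> simp
    omega

/-- For every `d` there is a nilpotent group with a binary tree of commutators of depth `d` whose root
is nontrivial. -/
theorem exists_detU (d : ℕ) :
    ∃ (U : Type) (_ : Group U) (c : ℕ) (u : List Bool → U),
      gam (⊤ : Subgroup U) c = ⊥ ∧
      (∀ ν : List Bool, ν.length < d →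
        u ν = (u (ν ++ [false]))⁻¹ * u (ν ++ [true]) * u (ν ++ [false]) * (u (ν ++ [true]))⁻¹) ∧
      u [] ≠ 1 := by
  obtain ⟨c, hc⟩ := Subgroup.nilpotent_iff_lowerCentralSeries.mp (nilp (2 ^ d))
  refine ⟨UU (2 ^ d), inferInstance, c,
    fun ν => el (2 ^ d) (num ν * 2 ^ (d - ν.length)) ((num ν + 1) * 2 ^ (d - ν.length)), ?_, ?_, ?_⟩
  · rw [gam_top, hc]
  · intro ν hν
    simp only [num_append, List.length_append, List.length_singleton, Bool.toNat_false, add_zero,
      Bool.toNat_true]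
    obtain ⟨e, he⟩ : ∃ e, d - ν.length = e + 1 := ⟨d - ν.length - 1, by omega⟩
    have he' : d - (ν.length + 1) = e := by omega
    rw [he, he']
    have hpos : 0 < 2 ^ e := by positivity
    have e1 : num ν * 2 ^ (e + 1) = 2 * num ν * 2 ^ e := by ring
    have e2 : (num ν + 1) * 2 ^ (e + 1) = (2 * num ν + 1 + 1) * 2 ^ e := by ring
    rw [e1, e2]
    apply el_comm
    · nlinarith
    · nlinarith
    · have h1 := num_lt ν
      have h2 : (2 * num ν + 1 + 1) * 2 ^ e = (num ν + 1) * 2 ^ (e + 1) := by ring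
      have h3 : (2 : ℕ) ^ d = 2 ^ ν.length * 2 ^ (e + 1) := by
        rw [← pow_add]; congr 1; omega
      rw [h2, h3]
      have := Nat.mul_le_mul_right (2 ^ (e + 1)) h1
      omega
  · have : num [] = 0 := rfl
    simp only [this, List.length_nil, Nat.sub_zero, zero_mul, zero_add, one_mul]
    exact el_ne_one (by positivity) (by omega)

end Crest.Agent.R197.DetU
end

-- ▼ part R197/DetS

/-!
# Row 197, module B1b

A group in which every element is a commutator `s⁻¹ t s t⁻¹` and which contains an element of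
infinite order: the unit quaternions (written out by components).
-/

set_option autoImplicit false

namespace Crest.Agent.R197

namespace DetS

/-- the unit quaternions -/
@[ext]
structure SQ : Type where
  a : ℝ
  b : ℝ
  c : ℝ
  d : ℝ
  h : a ^ 2 + b ^ 2 + c ^ 2 + d ^ 2 = 1

namespace SQ

noncomputable instance : Mul SQ where
  mul p q :=
    { a := p.a * q.a - p.b * q.b - p.c * q.c - p.d * q.d
      b := p.a * q.b + p.b * q.a + p.c * q.d - p.d * q.c
      c := p.a * q.c - p.b * q.d + p.c * q.a + p.d * q.b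
      d := p.a * q.d + p.b * q.c - p.c * q.b + p.d * q.a
      h := by
        have h1 := p.h
        have h2 := q.h
        have : (p.a * q.a - p.b * q.b - p.c * q.c - p.d * q.d) ^ 2 +
            (p.a * q.b + p.b * q.a + p.c * q.d - p.d * q.c) ^ 2 +
            (p.a * q.c - p.b * q.d + p.c * q.a + p.d * q.b) ^ 2 +
            (p.a * q.d + p.b * q.c - p.c * q.b + p.d * q.a) ^ 2 =
            (p.a ^ 2 + p.b ^ 2 + p.c ^ 2 + p.d ^ 2) * (q.a ^ 2 + q.b ^ 2 + q.c ^ 2 + q.d ^ 2) := by
          ring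
        rw [this, h1, h2, one_mul] }

noncomputable instance : One SQ where
  one := { a := 1, b := 0, c := 0, d := 0, h := by norm_num }

noncomputable instance : Inv SQ where
  inv p := { a := p.a, b := -p.b, c := -p.c, d := -p.d, h := by have := p.h; nlinarith }

@[simp] theorem mul_a (p q : SQ) : (p * q).a = p.a * q.a - p.b * q.b - p.c * q.c - p.d * q.d := rfl
@[simp] theorem mul_b (p q : SQ) : (p * q).b = p.a * q.b + p.b * q.a + p.c * q.d - p.d * q.c := rfl
@[simp] theorem mul_c (p q : SQ) : (p * q).c = p.a * q.c - p.b * q.d + p.c * q.a + p.d * q.b := rfl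
@[simp] theorem mul_d (p q : SQ) : (p * q).d = p.a * q.d + p.b * q.c - p.c * q.b + p.d * q.a := rfl
@[simp] theorem one_a : (1 : SQ).a = 1 := rfl
@[simp] theorem one_b : (1 : SQ).b = 0 := rfl
@[simp] theorem one_c : (1 : SQ).c = 0 := rfl
@[simp] theorem one_d : (1 : SQ).d = 0 := rfl
@[simp] theorem inv_a (p : SQ) : (p⁻¹).a = p.a := rfl
@[simp] theorem inv_b (p : SQ) : (p⁻¹).b = -p.b := rfl
@[simp] theorem inv_c (p : SQ) : (p⁻¹).c = -p.c := rfl
@[simp] theorem inv_d (p : SQ) : (p⁻¹).d = -p.d := rfl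

noncomputable instance : Group SQ :=
  Group.ofLeftAxioms
    (fun p q r => by ext <;> simp <;> ring)
    (fun p => by ext <;> simp)
    (fun p => by
      have := p.h
      ext
      · simp; nlinarith
      · simp; ring
      · simp; ring
      · simp; ring)

/-- every unit quaternion has a square root -/
theorem exists_sqrt (q : SQ) : ∃ w : SQ, q = w * w := by
  by_cases h0 : q.a = -1
  · have hb : q.b = 0 := by have := q.h; nlinarith [sq_nonneg q.b, sq_nonneg q.c, sq_nonneg q.d]
    have hc : q.c = 0 := by have := q.h; nlinarith [sq_nonneg q.b, sq_nonneg q.c, sq_nonneg q.d]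
    have hd : q.d = 0 := by have := q.h; nlinarith [sq_nonneg q.b, sq_nonneg q.c, sq_nonneg q.d]
    refine ⟨⟨0, 1, 0, 0, by norm_num⟩, ?_⟩
    ext <;> simp [h0, hb, hc, hd]
  · have hq := q.h
    have ha : -1 < q.a := by
      rcases lt_or_gt_of_ne h0 with h | h
      · exfalso; nlinarith [sq_nonneg q.b, sq_nonneg q.c, sq_nonneg q.d]
      · exact h
    have hpos : 0 < 2 + 2 * q.a := by linarith
    set r : ℝ := Real.sqrt (2 + 2 * q.a) with hr
    have hr0 : 0 < r := Real.sqrt_pos.mpr hpos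
    have hr2 : r ^ 2 = 2 + 2 * q.a := Real.sq_sqrt hpos.le
    have hrne : r ≠ 0 := hr0.ne'
    have hbcd : q.b ^ 2 + q.c ^ 2 + q.d ^ 2 = 1 - q.a ^ 2 := by linarith
    refine ⟨⟨(1 + q.a) / r, q.b / r, q.c / r, q.d / r, ?_⟩, ?_⟩
    · have : ((1 + q.a) / r) ^ 2 + (q.b / r) ^ 2 + (q.c / r) ^ 2 + (q.d / r) ^ 2 =
          ((1 + q.a) ^ 2 + (q.b ^ 2 + q.c ^ 2 + q.d ^ 2)) / r ^ 2 := by
        field_simp; ring
      rw [this, hbcd, hr2, div_eq_one_iff_eq hpos.ne']
      ring
    · ext
      · simp only [mul_a]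
        have : (1 + q.a) / r * ((1 + q.a) / r) - q.b / r * (q.b / r) - q.c / r * (q.c / r) -
            q.d / r * (q.d / r) = ((1 + q.a) ^ 2 - (q.b ^ 2 + q.c ^ 2 + q.d ^ 2)) / r ^ 2 := by
          field_simp; ring
        rw [this, hbcd, hr2, eq_div_iff hpos.ne']
        ring
      · simp only [mul_b]
        have : (1 + q.a) / r * (q.b / r) + q.b / r * ((1 + q.a) / r) + q.c / r * (q.d / r) -
            q.d / r * (q.c / r) = (q.b * (2 + 2 * q.a)) / r ^ 2 := by
          field_simp; ring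
        rw [this, hr2, mul_div_assoc, div_self hpos.ne', mul_one]
      · simp only [mul_c]
        have : (1 + q.a) / r * (q.c / r) - q.b / r * (q.d / r) + q.c / r * ((1 + q.a) / r) +
            q.d / r * (q.b / r) = (q.c * (2 + 2 * q.a)) / r ^ 2 := by
          field_simp; ring
        rw [this, hr2, mul_div_assoc, div_self hpos.ne', mul_one]
      · simp only [mul_d]
        have : (1 + q.a) / r * (q.d / r) + q.b / r * (q.c / r) - q.c / r * (q.b / r) +
            q.d / r * ((1 + q.a) / r) = (q.d * (2 + 2 * q.a)) / r ^ 2 := by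
          field_simp; ring
        rw [this, hr2, mul_div_assoc, div_self hpos.ne', mul_one]

/-- for every unit quaternion there is a unit imaginary quaternion orthogonal to it -/
theorem exists_orth (w : SQ) :
    ∃ t : SQ, t.a = 0 ∧ t.b * w.b + t.c * w.c + t.d * w.d = 0 := by
  by_cases h0 : w.b ^ 2 + w.c ^ 2 = 0
  · have hb : w.b = 0 := by nlinarith [sq_nonneg w.b, sq_nonneg w.c]
    have hc : w.c = 0 := by nlinarith [sq_nonneg w.b, sq_nonneg w.c]
    exact ⟨⟨0, 1, 0, 0, by norm_num⟩, rfl, by simp [hb]⟩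
  · have hpos : 0 < w.b ^ 2 + w.c ^ 2 :=
      lt_of_le_of_ne (by positivity) (Ne.symm h0)
    set r : ℝ := Real.sqrt (w.b ^ 2 + w.c ^ 2) with hr
    have hr0 : 0 < r := Real.sqrt_pos.mpr hpos
    have hr2 : r ^ 2 = w.b ^ 2 + w.c ^ 2 := Real.sq_sqrt hpos.le
    have hrne : r ≠ 0 := hr0.ne'
    refine ⟨⟨0, w.c / r, -w.b / r, 0, ?_⟩, rfl, ?_⟩
    · have : (0:ℝ) ^ 2 + (w.c / r) ^ 2 + (-w.b / r) ^ 2 + 0 ^ 2 = (w.b ^ 2 + w.c ^ 2) / r ^ 2 := by
        field_simp; ring
      rw [this, hr2, div_self hpos.ne']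
    · simp only
      field_simp
      ring

theorem exists_comm (q : SQ) : ∃ s t : SQ, q = s⁻¹ * t * s * t⁻¹ := by
  obtain ⟨w, hw⟩ := exists_sqrt q
  obtain ⟨t, ht0, ht⟩ := exists_orth w
  have key : t * w⁻¹ = w * t := by
    ext
    · simp only [mul_a, inv_a, inv_b, inv_c, inv_d, ht0]; linarith
    · simp only [mul_b, inv_a, inv_b, inv_c, inv_d, ht0]; ring
    · simp only [mul_c, inv_a, inv_b, inv_c, inv_d, ht0]; ring
    · simp only [mul_d, inv_a, inv_b, inv_c, inv_d, ht0]; ring
  refine ⟨w⁻¹, t, ?_⟩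
  rw [inv_inv, mul_assoc w t, key, hw]
  group

/-- the element `(3 + 4 i) / 5` -/
noncomputable def tau : SQ := ⟨3 / 5, 4 / 5, 0, 0, by norm_num⟩

theorem tau_pow (n : ℕ) : ∃ u v : ℤ, (tau ^ (n + 1)).a = u / 5 ^ (n + 1) ∧
    (tau ^ (n + 1)).b = v / 5 ^ (n + 1) ∧ (tau ^ (n + 1)).c = 0 ∧ (tau ^ (n + 1)).d = 0 ∧
    u % 5 = 3 ∧ v % 5 = 4 := by
  induction n with
  | zero => exact ⟨3, 4, by simp [tau], by simp [tau], by simp [tau], by simp [tau], by norm_num,
      by norm_num⟩
  | succ n ih =>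
    obtain ⟨u, v, hu, hv, hc, hd, hu5, hv5⟩ := ih
    refine ⟨3 * u - 4 * v, 4 * u + 3 * v, ?_, ?_, ?_, ?_, ?_, ?_⟩
    · rw [pow_succ, mul_a, hu, hv, hc, hd]
      simp only [tau]
      push_cast
      field_simp
      ring
    · rw [pow_succ, mul_b, hu, hv, hc, hd]
      simp only [tau]
      push_cast
      field_simp
      ring
    · rw [pow_succ, mul_c, hu, hv, hc, hd]
      simp [tau]
    · rw [pow_succ, mul_d, hu, hv, hc, hd]
      simp [tau]
    · omega
    · omega

theorem tau_pow_ne (n : ℕ) : tau ^ (n + 1) ≠ 1 := by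
  intro h
  obtain ⟨u, v, -, hv, -, -, -, hv5⟩ := tau_pow n
  rw [h, one_b] at hv
  have h5 : (5 : ℝ) ^ (n + 1) ≠ 0 := by positivity
  have : (v : ℝ) = 0 := by
    rcases (div_eq_zero_iff.mp hv.symm) with h | h
    · exact h
    · exact absurd h h5
  have : v = 0 := by exact_mod_cast this
  omega

theorem tau_zpow (n : ℤ) (h : tau ^ n = 1) : n = 0 := by
  by_contra hn
  have h2 : tau ^ n.natAbs = 1 := by
    rcases Int.natAbs_eq n with h3 | h3
    · rw [h3, zpow_natCast] at h; exact h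
    · rw [h3, zpow_neg, zpow_natCast, inv_eq_one] at h; exact h
  obtain ⟨m, hm⟩ : ∃ m, n.natAbs = m + 1 := ⟨n.natAbs - 1, by omega⟩
  rw [hm] at h2
  exact tau_pow_ne m h2

end SQ

/-- **Module B1b**. -/
theorem exists_group :
    ∃ (S : Type) (_ : Group S), (∀ q : S, ∃ s t : S, q = s⁻¹ * t * s * t⁻¹) ∧
      ∃ τ : S, ∀ n : ℤ, τ ^ n = 1 → n = 0 :=
  ⟨SQ, inferInstance, SQ.exists_comm, SQ.tau, SQ.tau_zpow⟩

end DetS

end Crest.Agent.R197
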