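import Crest.Agent.R197.DetS_Mg

/-!
# Row 197, module B: the detection theorem.
-/

set_option autoImplicit false

namespace Crest.Agent.R197

/-- module B: for every `m` the element `p0` is not in the residual of `P m`. -/
theorem detection (m : ℕ) : ∃ k, p0 ∉ gam (PP m) k := by
  obtain ⟨S, _, hS, hτ⟩ := DetS.exists_group
  obtain ⟨U, _, c, u, hc, hu, hu0⟩ := DetU.exists_detU m
  obtain ⟨W, _, V, _, c', w, hc', hw, hV, hw0⟩ := tower_of hS hτ c m hc u hu hu0
  exact Det.detection_of_tower m V c' w hc' hw hV hw0

end Crest.Agent.R197
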