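import Mathlib
import Crest.Agent.R197.NDefs
import Crest.Agent.R197.RFree
import Crest.Agent.R197.Omega

-- ▼ part R197/RRep
section

/-! Row 197, module R (part 2): reduced representations of elements of `G` and permutation
representations which detect them. -/

set_option autoImplicit false

namespace Crest.Agent.R197

/-- signed letter -/
def rr (α : Ltr) (e : Bool) : GG := cond e (GG.r α) (GG.r α)⁻¹

/-- `Rep k g`: `g` is a product of `k` signed letters, separated by elements of `Nbar`. -/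
def Rep : ℕ → GG → Prop
  | 0, g => g ∈ Nbar
  | k + 1, g => ∃ n ∈ Nbar, ∃ (α : Ltr) (e : Bool) (g' : GG), Rep k g' ∧ g = n * rr α e * g'

theorem Rep.mul_left {k : ℕ} {g n : GG} (hn : n ∈ Nbar) (h : Rep k g) : Rep k (n * g) := by
  cases k with
  | zero => exact mul_mem hn h
  | succ k =>
    obtain ⟨n', hn', α, e, g', hg', rfl⟩ := h
    exact ⟨n * n', mul_mem hn hn', α, e, g', hg', by simp only [mul_assoc]⟩

theorem Rep.mul_right {k : ℕ} {n : GG} (hn : n ∈ Nbar) : ∀ {g : GG}, Rep k g → Rep k (g * n) := by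
  induction k with
  | zero => intro g h; exact mul_mem h hn
  | succ k ih =>
    rintro g ⟨n', hn', α, e, g', hg', rfl⟩
    exact ⟨n', hn', α, e, g' * n, ih hg', by simp only [mul_assoc]⟩

theorem Rep.mul_rr {k : ℕ} (β : Ltr) (b : Bool) :
    ∀ {g : GG}, Rep k g → Rep (k + 1) (g * rr β b) := by
  induction k with
  | zero => intro g h; exact ⟨g, h, β, b, 1, one_mem Nbar, by rw [mul_one]⟩
  | succ k ih =>
    rintro g ⟨n', hn', α, e, g', hg', rfl⟩
    exact ⟨n', hn', α, e, g' * rr β b, ih hg', by simp only [mul_assoc]⟩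

theorem exists_rep (g : GG) : ∃ k, Rep k g := by
  have hg : g ∈ Subgroup.closure (Set.range (PresentedGroup.of (rels := relsG))) := by
    rw [PresentedGroup.closure_range_of relsG]; trivial
  refine Subgroup.closure_induction_right (p := fun g _ => ∃ k, Rep k g) ⟨0, one_mem Nbar⟩ ?_ ?_ hg
  · rintro g _ _ ⟨u, rfl⟩ ⟨k, h⟩
    rcases u with i | i | α
    · exact ⟨k, h.mul_right (x_mem_Nbar i)⟩
    · exact ⟨k, h.mul_right (y_mem_Nbar i)⟩
    · exact ⟨k + 1, h.mul_rr α true⟩
  · rintro g _ _ ⟨u, rfl⟩ ⟨k, h⟩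
    rcases u with i | i | α
    · exact ⟨k, h.mul_right (inv_mem (x_mem_Nbar i))⟩
    · exact ⟨k, h.mul_right (inv_mem (y_mem_Nbar i))⟩
    · exact ⟨k + 1, h.mul_rr α false⟩

open Classical in
/-- the least number of letters -/
noncomputable def rlen (g : GG) : ℕ := Nat.find (exists_rep g)

theorem rlen_spec (g : GG) : Rep (rlen g) g := by
  classical
  exact Nat.find_spec (exists_rep g)

theorem rlen_le {k : ℕ} {g : GG} (h : Rep k g) : rlen g ≤ k := by
  classical
  exact Nat.find_min' (exists_rep g) h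

theorem rlen_mul_left {n : GG} (hn : n ∈ Nbar) (g : GG) : rlen (n * g) ≤ rlen g :=
  rlen_le ((rlen_spec g).mul_left hn)

theorem exists_chain (k : ℕ) : ∀ g : GG, rlen g = k →
    ∃ (p : ℕ → GG) (a : ℕ → Ltr) (e : ℕ → Bool) (ν : ℕ → GG), p k = g ∧ p 0 ∈ Nbar ∧
      (∀ m ≤ k, rlen (p m) = m) ∧
      ∀ m < k, ν m ∈ Nbar ∧ p (m + 1) = ν m * rr (a m) (e m) * p m := by
  induction k with
  | zero =>
    intro g hg
    refine ⟨fun _ => g, fun _ => 0, fun _ => true, fun _ => 1, rfl, ?_, ?_, ?_⟩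
    · have := rlen_spec g
      rw [hg] at this
      exact this
    · intro m hm
      rw [Nat.le_zero.mp hm]
      exact hg
    · intro m hm
      omega
  | succ k ih =>
    intro g hg
    have h1 := rlen_spec g
    rw [hg] at h1
    obtain ⟨n, hn, α, b, g', hg', hgg⟩ := h1
    have h2 : rlen g' = k := by
      have h3 : rlen g' ≤ k := rlen_le hg'
      by_contra hne
      have h4 : Rep (rlen g' + 1) g := ⟨n, hn, α, b, g', rlen_spec g', hgg⟩
      have h5 := rlen_le h4
      omega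
    obtain ⟨p, a, e, ν, hp, hp0, hlen, hstep⟩ := ih g' h2
    refine ⟨fun m => if m ≤ k then p m else g, fun m => if m < k then a m else α,
      fun m => if m < k then e m else b, fun m => if m < k then ν m else n, ?_, ?_, ?_, ?_⟩
    · simp
    · simpa using hp0
    · intro m hm
      by_cases h : m ≤ k
      · simp only [h, if_true]
        exact hlen m h
      · simp only [h, if_false]
        omega
    · intro m hm
      by_cases h : m < k
      · have h' : m ≤ k := h.le
        have h'' : m + 1 ≤ k := h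
        simp only [h, h', h'', if_true]
        exact hstep m h
      · have h' : m = k := by omega
        subst h'
        simp only [lt_irrefl, if_false, le_refl, if_true, Nat.not_succ_le_self]
        exact ⟨hn, by rw [hgg, hp]⟩

theorem chain_reduced {p : ℕ → GG} {a : ℕ → Ltr} {e : ℕ → Bool} {ν : ℕ → GG} {k : ℕ}
    (hlen : ∀ m ≤ k, rlen (p m) = m)
    (hstep : ∀ m < k, ν m ∈ Nbar ∧ p (m + 1) = ν m * rr (a m) (e m) * p m)
    {m : ℕ} (hm : m + 1 < k) (ha : a m = a (m + 1)) :
    (e m = true → e (m + 1) = false → ν m ∉ Qbar (a m)) ∧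
    (e m = false → e (m + 1) = true → GG.r (a m) * ν m * (GG.r (a m))⁻¹ ∉ Qbar (a m)) := by
  have key : ∀ z : GG, z ∈ Nbar → p (m + 2) = ν (m + 1) * z * p m → False := by
    intro z hz h
    have h1 := hlen (m + 2) (by omega)
    have h2 := rlen_mul_left (mul_mem (hstep (m + 1) hm).1 hz) (p m)
    rw [← h, h1, hlen m (by omega)] at h2
    omega
  have h1 := (hstep m (by omega)).2
  have h2 := (hstep (m + 1) hm).2
  rw [h1] at h2
  constructor
  · intro e1 e2 hq
    refine key _ (r_conj_mem_Nbar hq) ?_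
    rw [show m + 2 = m + 1 + 1 from rfl, h2, ← ha, e1, e2]
    simp only [rr, cond_true, cond_false, mul_assoc]
  · intro e1 e2 hq
    refine key _ (Qbar_le_Nbar _ hq) ?_
    rw [show m + 2 = m + 1 + 1 from rfl, h2, ← ha, e1, e2]
    simp only [rr, cond_true, cond_false, mul_assoc]

/-! ### permutations -/

section perm
variable {F : Type*} [Group F] {J : Type*}

/-- left multiplication on the first coordinate -/
def Lm (F J : Type*) [Group F] : F →* Equiv.Perm (F × J) where
  toFun h := (Equiv.mulLeft h).prodCongr (Equiv.refl J)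
  map_one' := by ext ⟨o, j⟩ <;> simp
  map_mul' a b := by ext ⟨o, j⟩ <;> simp [mul_assoc]

@[simp] theorem Lm_apply (h : F) (o : F) (j : J) : Lm F J h (o, j) = (h * o, j) := rfl

/-- right coset of `H` -/
def rc (H : Subgroup F) (o : F) : Set F := {x | x * o⁻¹ ∈ H}

theorem rc_mul (H : Subgroup F) {h : F} (hh : h ∈ H) (o : F) : rc H (h * o) = rc H o := by
  ext x
  simp only [rc, Set.mem_ofPred_eq, mul_inv_rev, ← mul_assoc]
  exact mul_mem_cancel_right (inv_mem hh)

theorem mem_of_rc_eq {H : Subgroup F} {o o' : F} (h : rc H o = rc H o') : o * o'⁻¹ ∈ H := by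
  have : o ∈ rc H o := by simp [rc]
  rw [h] at this
  exact this

/-- permutation of the second coordinate depending on the right coset of the first. -/
def zc (H : Subgroup F) (π : Set F → Equiv.Perm J) : Equiv.Perm (F × J) :=
  Equiv.prodShear (Equiv.refl F) fun o => π (rc H o)

@[simp] theorem zc_apply (H : Subgroup F) (π : Set F → Equiv.Perm J) (o : F) (j : J) :
    zc H π (o, j) = (o, π (rc H o) j) := rfl


theorem Lm_zc (H : Subgroup F) (π : Set F → Equiv.Perm J) {h : F} (hh : h ∈ H) :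
    Lm F J h * zc H π = zc H π * Lm F J h := by
  ext1 ⟨o, j⟩
  simp only [Equiv.Perm.mul_apply, zc_apply, Lm_apply, rc_mul H hh]

end perm

section perm2
variable {F : Type*} [Group F] {J : Type*} (f : GG →* F) (π : Ltr → Set F → Equiv.Perm J)

/-- image of the letter -/
def rz (α : Ltr) : Equiv.Perm (F × J) := zc ((Qbar α).map f) (π α) * Lm F J (f (GG.r α))

theorem rz_rel : RelG (fun i => (Lm F J).comp f (GG.x i)) (fun k => (Lm F J).comp f (GG.y k))
    (rz f π) := by
  refine { x0 := ?_, hex := ?_, la := ?_, lb := ?_ }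
  · rw [GG.rel.x0, map_one]
  · intro α i k hi hk
    rw [← map_Aw, ← map_Bw, rz]
    have h1 : f (Aw GG.x GG.y i k) ∈ (Qbar α).map f := ⟨_, Aw_mem_Qbar hi hk, rfl⟩
    rw [MonoidHom.comp_apply, MonoidHom.comp_apply, ← mul_assoc, Lm_zc _ _ h1, mul_assoc,
      mul_assoc, ← map_mul, ← map_mul, ← map_mul, ← map_mul, GG.rel.hex α i k hi hk]
  · intro n
    rw [← map_lam, GG.rel.la, map_one]
  · intro n
    rw [← map_lam, GG.rel.lb, map_one]

/-- the permutation representation -/
def rzHom : GG →* Equiv.Perm (F × J) := GG.lift (rz_rel f π)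

theorem rzHom_r (α : Ltr) : rzHom f π (GG.r α) = rz f π α := GG.lift_r _ α

theorem rzHom_of_mem {n : GG} (hn : n ∈ Nbar) : rzHom f π n = Lm F J (f n) := by
  unfold Nbar at hn
  induction hn using Subgroup.closure_induction with
  | mem g hg =>
    rcases hg with ⟨i, rfl⟩ | ⟨k, rfl⟩
    · exact GG.lift_x _ i
    · exact GG.lift_y _ k
  | one => simp
  | mul a b _ _ ha hb => rw [map_mul, map_mul, map_mul, ha, hb]
  | inv a _ ha => rw [map_inv, map_inv, map_inv, ha]

end perm2

/-- Elements outside `Nbar` are detected by finite quotients, if the edge groups are separable. -/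
theorem exists_finiteIndex_of_notMem_Nbar
    (hsep1 : ∀ (α : Ltr) (n : GG), n ∈ Nbar → n ∉ Qbar α → Sep (Qbar α) n)
    (hsep2 : ∀ (α : Ltr) (n : GG), n ∈ Nbar → GG.r α * n * (GG.r α)⁻¹ ∉ Qbar α →
      Sep (Qbar α) (GG.r α * n * (GG.r α)⁻¹))
    (g : GG) (hg : g ∉ Nbar) : ∃ M : Subgroup GG, M.FiniteIndex ∧ g ∉ M := by
  classical
  obtain ⟨p, a, e, ν, hp, hp0, hlen, hstep⟩ := exists_chain (rlen g) g rfl
  set k := rlen g with hk
  have hkpos : 0 < k := by
    by_contra h0
    apply hg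
    have h1 := rlen_spec g
    rw [← hk, Nat.eq_zero_of_not_pos h0] at h1
    exact h1
  -- the separating subgroups
  have hM : ∀ m : Fin k, ∃ M : Subgroup GG, M.FiniteIndex ∧
      (ν m ∉ Qbar (a m) → Qbar (a m) ≤ M ∧ ν m ∉ M) := by
    intro m
    by_cases h : ν m ∈ Qbar (a m)
    · exact ⟨⊤, inferInstance, fun h' => absurd h h'⟩
    · obtain ⟨M, h1, h2, h3⟩ := hsep1 (a m) (ν m) (hstep m m.2).1 h
      exact ⟨M, h1, fun _ => ⟨h2, h3⟩⟩
  have hM' : ∀ m : Fin k, ∃ M : Subgroup GG, M.FiniteIndex ∧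
      (GG.r (a m) * ν m * (GG.r (a m))⁻¹ ∉ Qbar (a m) →
        Qbar (a m) ≤ M ∧ GG.r (a m) * ν m * (GG.r (a m))⁻¹ ∉ M) := by
    intro m
    by_cases h : GG.r (a m) * ν m * (GG.r (a m))⁻¹ ∈ Qbar (a m)
    · exact ⟨⊤, inferInstance, fun h' => absurd h h'⟩
    · obtain ⟨M, h1, h2, h3⟩ := hsep2 (a m) (ν m) (hstep m m.2).1 h
      exact ⟨M, h1, fun _ => ⟨h2, h3⟩⟩
  choose M1 hM1 hM1' using hM
  choose M2 hM2 hM2' using hM'
  have hI : (⨅ m : Fin k, (M1 m ⊓ M2 m)).FiniteIndex := by
    refine Subgroup.finiteIndex_iInf fun m => ?_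
    have := hM1 m
    have := hM2 m
    infer_instance
  set K := (⨅ m : Fin k, (M1 m ⊓ M2 m)).normalCore with hK
  have hKle : ∀ m : Fin k, K ≤ M1 m ∧ K ≤ M2 m := by
    intro m
    have h1 : K ≤ M1 m ⊓ M2 m := (Subgroup.normalCore_le _).trans (iInf_le _ m)
    exact ⟨h1.trans inf_le_left, h1.trans inf_le_right⟩
  have hKf : K.FiniteIndex := inferInstance
  have hfin : Finite (GG ⧸ K) := Subgroup.finite_quotient_of_finiteIndex
  let f := QuotientGroup.mk' K
  -- separation in the quotient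
  have hsepq : ∀ (M : Subgroup GG), K ≤ M → ∀ (α : Ltr) (z : GG), Qbar α ≤ M → z ∉ M →
      f z ∉ (Qbar α).map f := by
    rintro M hKM α z hQ hz ⟨q, hq, hqz⟩
    apply hz
    have h1 : q⁻¹ * z ∈ K := QuotientGroup.eq.mp hqz
    have h2 : z = q * (q⁻¹ * z) := by group
    rw [h2]
    exact mul_mem (hQ hq) (hKM h1)
  -- labels
  let lab : ℕ → Ltr × Set (GG ⧸ K) := fun m =>
    (a m, rc ((Qbar (a m)).map f) (cond (e m) (f (GG.r (a m)) * f (p m)) (f (p m))))
  obtain ⟨π, hπ⟩ := exists_perm_path k lab e (by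
    intro m hm hlab
    have ha : a m = a (m + 1) := congrArg Prod.fst hlab
    have hc := congrArg Prod.snd hlab
    simp only [lab] at hc
    rw [← ha] at hc
    have hred := chain_reduced hlen hstep hm ha
    have hmk : m < k := by omega
    have hpm : f (p (m + 1)) = f (ν m) * f (rr (a m) (e m)) * f (p m) := by
      rw [(hstep m hmk).2, map_mul, map_mul]
    rcases hb : e m with _ | _ <;> rcases hb' : e (m + 1) with _ | _
    · rfl
    · exfalso
      have h1 := hred.2 hb hb'
      have h2 := hM2' ⟨m, hmk⟩ h1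
      refine hsepq _ (hKle ⟨m, hmk⟩).2 _ _ h2.1 h2.2 ?_
      rw [hb, hb', hpm, hb] at hc
      have h3 := mem_of_rc_eq hc.symm
      simp only [cond_true, cond_false, rr, map_inv] at h3
      have h4 : f (GG.r (a m) * ν m * (GG.r (a m))⁻¹) =
          f (GG.r (a m)) * (f (ν m) * (f (GG.r (a m)))⁻¹ * f (p m)) * (f (p m))⁻¹ := by
        rw [map_mul, map_mul, map_inv]; group
      rw [h4]
      exact h3
    · exfalso
      have h1 := hred.1 hb hb'
      have h2 := hM1' ⟨m, hmk⟩ h1
      refine hsepq _ (hKle ⟨m, hmk⟩).1 _ _ h2.1 h2.2 ?_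
      rw [hb, hb', hpm, hb] at hc
      have h3 := mem_of_rc_eq hc.symm
      simp only [cond_true, cond_false, rr] at h3
      have h4 : f (ν m) =
          f (ν m) * f (GG.r (a m)) * f (p m) * (f (GG.r (a m)) * f (p m))⁻¹ := by
        group
      rw [h4]
      exact h3
    · rfl)
  let Φ := rzHom f (fun α s => π (α, s))
  have key : ∀ m (hm : m ≤ k), Φ (p m) (1, ⟨0, by omega⟩) = (f (p m), ⟨m, by omega⟩) := by
    intro m
    induction m with
    | zero =>
      intro _
      show rzHom f (fun α s => π (α, s)) (p 0) _ = _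
      rw [rzHom_of_mem _ _ hp0, Lm_apply, mul_one]
    | succ m ih =>
      intro hm
      have hmk : m < k := by omega
      have h1 := hstep m hmk
      have h2 := hπ m hmk
      have h3 : Φ (rr (a m) (e m)) (f (p m), ⟨m, by omega⟩) =
          (f (rr (a m) (e m)) * f (p m), ⟨m + 1, by omega⟩) := by
        rcases hb : e m with _ | _
        · simp only [rr, cond_false]
          rw [map_inv, Equiv.Perm.inv_eq_iff_eq]
          show _ = rzHom f (fun α s => π (α, s)) _ _
          rw [rzHom_r, rz, Equiv.Perm.mul_apply, Lm_apply, map_inv, mul_inv_cancel_left, zc_apply]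
          have h4 := h2.2 hb
          simp only [lab, hb, cond_false] at h4
          rw [h4]
        · simp only [rr, cond_true]
          show rzHom f (fun α s => π (α, s)) _ _ = _
          rw [rzHom_r, rz, Equiv.Perm.mul_apply, Lm_apply, zc_apply]
          have h4 := h2.1 hb
          simp only [lab, hb, cond_true] at h4
          rw [h4]
      rw [h1.2, map_mul, map_mul, Equiv.Perm.mul_apply, Equiv.Perm.mul_apply, ih (by omega), h3]
      show rzHom f (fun α s => π (α, s)) _ _ = _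
      rw [rzHom_of_mem _ _ h1.1, Lm_apply, map_mul, map_mul, mul_assoc]
  refine ⟨Φ.ker, inferInstance, ?_⟩
  intro hker
  have h1 := key k le_rfl
  rw [hp, (MonoidHom.mem_ker).mp hker] at h1
  have h2 := congrArg (fun z => (z.2 : Fin (k + 1)).1) h1
  simp only [Equiv.Perm.coe_one, id_eq] at h2
  omega

end Crest.Agent.R197
end

-- ▼ part R197/RSep

/-! Row 197, module R (part 3): the edge groups are separable; `G` is residually finite, given that
`toOmega` is injective on `Nbar`. -/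

set_option autoImplicit false

namespace Crest.Agent.R197

open SemidirectProduct

/-- the constant homomorphism of generators -/
def cst (a : FreeGroup (Fin 4)) : FreeGroup (Fin 4) →* FreeGroup (Fin 4) :=
  FreeGroup.lift fun _ => a

@[simp] theorem cst_of (a : FreeGroup (Fin 4)) (i : Fin 4) : cst a (FreeGroup.of i) = a := by
  simp [cst]

theorem cst_mem (a w : FreeGroup (Fin 4)) : cst a w ∈ Subgroup.closure {a} := by
  have h : (cst a).range ≤ Subgroup.closure {a} := by
    rw [cst, FreeGroup.range_lift_eq_closure]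
    refine Subgroup.closure_mono ?_
    rintro _ ⟨i, rfl⟩
    rfl
  exact h ⟨w, rfl⟩

theorem cst_comm (a w : FreeGroup (Fin 4)) : a⁻¹ * cst a w * a = cst a w := by
  have h := cst_mem a w
  rw [Subgroup.mem_closure_singleton] at h
  obtain ⟨n, hn⟩ := h
  rw [← hn]
  group

theorem cst_cst (a w : FreeGroup (Fin 4)) (k : Fin 4) :
    cst a⁻¹ (cst (FreeGroup.of k)⁻¹ w) = cst a w := by
  have h : (cst a⁻¹).comp (cst (FreeGroup.of k)⁻¹) = cst a := by
    apply FreeGroup.ext_hom
    intro i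
    simp
  exact DFunLike.congr_fun h w

theorem cst_phi4 (a w : FreeGroup (Fin 4)) (σ : Equiv.Perm (Fin 4)) :
    cst a (phi4 σ w) = cst a w := by
  have h : (cst a).comp (phi4 σ).toMonoidHom = cst a := by
    apply FreeGroup.ext_hom
    intro i
    simp
  exact DFunLike.congr_fun h w

/-- elements with trivial permutation part and total exponent `0` -/
def Good (g : GG) : Prop :=
  ∃ u v : FreeGroup (Fin 4), toOmega g = (inl u, inl v) ∧ ∀ a, cst a u = cst a⁻¹ v

theorem good_of_mem {g : GG} (hg : g ∈ Nbar) : Good g := by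
  unfold Nbar at hg
  induction hg using Subgroup.closure_induction with
  | mem g hg =>
    rcases hg with ⟨i, rfl⟩ | ⟨k, rfl⟩
    · refine ⟨FreeGroup.of i * (FreeGroup.of 0)⁻¹, 1, ?_, ?_⟩
      · rw [toOmega_x, omgX, map_one]
      · intro a; simp
    · refine ⟨(FreeGroup.of 0)⁻¹, FreeGroup.of k, ?_, ?_⟩
      · rw [toOmega_y, omgY]
      · intro a; simp
  | one => exact ⟨1, 1, by simp only [map_one]; rfl, fun a => by simp⟩
  | mul a b _ _ ha hb =>
    obtain ⟨u, v, h1, h2⟩ := ha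
    obtain ⟨u', v', h1', h2'⟩ := hb
    refine ⟨u * u', v * v', ?_, ?_⟩
    · rw [map_mul, h1, h1', Prod.mk_mul_mk, map_mul, map_mul]
    · intro a
      rw [map_mul, map_mul, h2, h2']
  | inv a _ ha =>
    obtain ⟨u, v, h1, h2⟩ := ha
    refine ⟨u⁻¹, v⁻¹, ?_, ?_⟩
    · rw [map_inv, h1, Prod.inv_mk, map_inv, map_inv]
    · intro a
      rw [map_inv, map_inv, h2]

theorem good_conj {g : GG} (hg : Good g) (α : Ltr) : Good (GG.r α * g * (GG.r α)⁻¹) := by
  obtain ⟨u, v, h1, h2⟩ := hg
  refine ⟨phi4 (pX α) ((FreeGroup.of 0)⁻¹ * u * FreeGroup.of 0), phi4 (pY α) v, ?_, ?_⟩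
  · rw [map_mul, map_mul, map_inv, h1, toOmega_r, omgR]
    simp only [Prod.mk_mul_mk, Prod.inv_mk, Prod.mk.injEq]
    constructor
    · rw [mul_inv_rev, mul_assoc, ← map_inv inl, inv_inv, ← mul_assoc (inl u), ← map_mul,
        ← mul_assoc, mul_assoc (inr (pX α)), ← map_mul]
      ext1
      · simp [mul_assoc]
      · simp
    · ext1
      · simp
      · simp
  · intro a
    rw [cst_phi4, cst_phi4, map_mul, map_mul, map_inv, cst_of, cst_comm, h2]

/-- free factor of the `X`-letters -/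
def WX (α : Ltr) : Subgroup (FreeGroup (Fin 4)) := Subgroup.closure (FreeGroup.of '' {i | inX α i})
/-- free factor of the `Y`-letters -/
def WY (α : Ltr) : Subgroup (FreeGroup (Fin 4)) := Subgroup.closure (FreeGroup.of '' {i | inY α i})

theorem inX_x1 (α : Ltr) : inX α (x1 α) := Or.inl rfl
theorem inY_y1 (α : Ltr) : inY α (y1 α) := Or.inl rfl

theorem exq1 (α : Ltr) {u : FreeGroup (Fin 4)} (hu : u ∈ WX α) :
    ∃ q ∈ Qbar α, toOmega q = (inl u, inl (cst (FreeGroup.of (y1 α))⁻¹ u)) := by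
  unfold WX at hu
  induction hu using Subgroup.closure_induction with
  | mem u hu =>
    obtain ⟨i, hi, rfl⟩ := hu
    refine ⟨(Aw GG.x GG.y i (y1 α))⁻¹, inv_mem (Aw_mem_Qbar hi (inY_y1 α)), ?_⟩
    rw [map_inv, toOmega_Aw, Prod.inv_mk, cst_of, ← map_inv, ← map_inv, inv_inv]
  | one => exact ⟨1, one_mem _, by simp only [map_one]; rfl⟩
  | mul a b _ _ ha hb =>
    obtain ⟨q, hq, h1⟩ := ha
    obtain ⟨q', hq', h1'⟩ := hb
    refine ⟨q * q', mul_mem hq hq', ?_⟩
    rw [map_mul, h1, h1', Prod.mk_mul_mk, ← map_mul, ← map_mul, ← map_mul]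
  | inv a _ ha =>
    obtain ⟨q, hq, h1⟩ := ha
    refine ⟨q⁻¹, inv_mem hq, ?_⟩
    rw [map_inv, h1, Prod.inv_mk, ← map_inv, ← map_inv, ← map_inv]

theorem exq2 (α : Ltr) {v : FreeGroup (Fin 4)} (hv : v ∈ WY α) :
    ∃ q ∈ Qbar α, toOmega q = (inl (cst (FreeGroup.of (x1 α))⁻¹ v), inl v) := by
  unfold WY at hv
  induction hv using Subgroup.closure_induction with
  | mem u hu =>
    obtain ⟨i, hi, rfl⟩ := hu
    refine ⟨Aw GG.x GG.y (x1 α) i, Aw_mem_Qbar (inX_x1 α) hi, ?_⟩
    rw [toOmega_Aw, cst_of]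
  | one => exact ⟨1, one_mem _, by simp only [map_one]; rfl⟩
  | mul a b _ _ ha hb =>
    obtain ⟨q, hq, h1⟩ := ha
    obtain ⟨q', hq', h1'⟩ := hb
    refine ⟨q * q', mul_mem hq hq', ?_⟩
    rw [map_mul, h1, h1', Prod.mk_mul_mk, ← map_mul, ← map_mul, ← map_mul]
  | inv a _ ha =>
    obtain ⟨q, hq, h1⟩ := ha
    refine ⟨q⁻¹, inv_mem hq, ?_⟩
    rw [map_inv, h1, Prod.inv_mk, ← map_inv, ← map_inv, ← map_inv]

theorem exq (α : Ltr) {u v : FreeGroup (Fin 4)} (hu : u ∈ WX α) (hv : v ∈ WY α)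
    (h : ∀ a, cst a u = cst a⁻¹ v) : ∃ q ∈ Qbar α, toOmega q = (inl u, inl v) := by
  obtain ⟨q1, hq1, h1⟩ := exq1 α hu
  have hv' : (cst (FreeGroup.of (y1 α))⁻¹ u)⁻¹ * v ∈ WY α := by
    refine mul_mem (inv_mem ?_) hv
    have h2 : Subgroup.closure {(FreeGroup.of (y1 α))⁻¹} ≤ WY α := by
      rw [Subgroup.closure_le, Set.singleton_subset_iff]
      exact inv_mem (Subgroup.subset_closure ⟨_, inY_y1 α, rfl⟩)
    exact h2 (cst_mem _ _)
  obtain ⟨q2, hq2, h2⟩ := exq2 α hv'
  refine ⟨q1 * q2, mul_mem hq1 hq2, ?_⟩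
  have h3 : cst (FreeGroup.of (x1 α))⁻¹ ((cst (FreeGroup.of (y1 α))⁻¹ u)⁻¹ * v) = 1 := by
    rw [map_mul, map_inv, cst_cst, h, inv_mul_cancel]
  rw [map_mul, h1, h2, h3, Prod.mk_mul_mk, ← map_mul, ← map_mul, mul_one, mul_inv_cancel_left]

theorem inl_range_finiteIndex :
    (inl : FreeGroup (Fin 4) →* Om4).range.FiniteIndex := by
  rw [SemidirectProduct.range_inl_eq_ker_rightHom]
  infer_instance

theorem sepX {A : Set (Fin 4)} {V : Subgroup GG} {g : GG} {u : FreeGroup (Fin 4)}
    (hg : (toOmega g).1 = inl u) (hu : u ∉ Subgroup.closure (FreeGroup.of '' A))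
    (hV : ∀ q ∈ V, ∃ w ∈ Subgroup.closure (FreeGroup.of '' A), (toOmega q).1 = inl w) :
    Sep V g := by
  have h1 := (sep_freeFactor A u hu).map (inl : FreeGroup (Fin 4) →* Om4)
    SemidirectProduct.inl_injective inl_range_finiteIndex
  rw [← hg] at h1
  refine Sep.comap ((MonoidHom.fst Om4 Om4).comp toOmega) h1 ?_
  intro q hq
  obtain ⟨w, hw, h2⟩ := hV q hq
  exact ⟨w, hw, h2.symm⟩

theorem sepY {A : Set (Fin 4)} {V : Subgroup GG} {g : GG} {u : FreeGroup (Fin 4)}
    (hg : (toOmega g).2 = inl u) (hu : u ∉ Subgroup.closure (FreeGroup.of '' A))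
    (hV : ∀ q ∈ V, ∃ w ∈ Subgroup.closure (FreeGroup.of '' A), (toOmega q).2 = inl w) :
    Sep V g := by
  have h1 := (sep_freeFactor A u hu).map (inl : FreeGroup (Fin 4) →* Om4)
    SemidirectProduct.inl_injective inl_range_finiteIndex
  rw [← hg] at h1
  refine Sep.comap ((MonoidHom.snd Om4 Om4).comp toOmega) h1 ?_
  intro q hq
  obtain ⟨w, hw, h2⟩ := hV q hq
  exact ⟨w, hw, h2.symm⟩

theorem toOmega_Qbar {α : Ltr} {q : GG} (hq : q ∈ Qbar α) :
    ∃ w ∈ WX α, ∃ w' ∈ WY α, toOmega q = (inl w, inl w') := by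
  unfold Qbar at hq
  induction hq using Subgroup.closure_induction with
  | mem q hq =>
    obtain ⟨i, k, hi, hk, rfl⟩ := hq
    refine ⟨(FreeGroup.of i)⁻¹, inv_mem (Subgroup.subset_closure ⟨i, hi, rfl⟩),
      FreeGroup.of k, Subgroup.subset_closure ⟨k, hk, rfl⟩, toOmega_Aw i k⟩
  | one => exact ⟨1, one_mem _, 1, one_mem _, by simp only [map_one]; rfl⟩
  | mul a b _ _ ha hb =>
    obtain ⟨u, hu, v, hv, h1⟩ := ha
    obtain ⟨u', hu', v', hv', h1'⟩ := hb
    refine ⟨u * u', mul_mem hu hu', v * v', mul_mem hv hv', ?_⟩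
    rw [map_mul, h1, h1', Prod.mk_mul_mk, map_mul, map_mul]
  | inv a _ ha =>
    obtain ⟨u, hu, v, hv, h1⟩ := ha
    refine ⟨u⁻¹, inv_mem hu, v⁻¹, inv_mem hv, ?_⟩
    rw [map_inv, h1, Prod.inv_mk, map_inv, map_inv]

theorem sep_of_good {α : Ltr} {g : GG} (hg : Good g)
    (hne : ∀ q ∈ Qbar α, toOmega q ≠ toOmega g) : Sep (Qbar α) g := by
  obtain ⟨u, v, h1, h2⟩ := hg
  by_cases hu : u ∈ WX α
  · by_cases hv : v ∈ WY α
    · obtain ⟨q, hq, h3⟩ := exq α hu hv h2
      exact absurd (h3.trans h1.symm) (hne q hq)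
    · refine sepY (congrArg Prod.snd h1) hv ?_
      intro q hq
      obtain ⟨w, hw, w', hw', h3⟩ := toOmega_Qbar hq
      exact ⟨w', hw', congrArg Prod.snd h3⟩
  · refine sepX (congrArg Prod.fst h1) hu ?_
    intro q hq
    obtain ⟨w, hw, w', hw', h3⟩ := toOmega_Qbar hq
    exact ⟨w, hw, congrArg Prod.fst h3⟩

/-- residual finiteness of `G`, given injectivity on `Nbar`. -/
theorem rf_of_injOn (hinj : ∀ g : GG, g ∈ Nbar → toOmega g = 1 → g = 1) :
    Group.ResiduallyFinite GG := by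
  rw [Group.residuallyFinite_iff_exists_finiteIndex]
  intro g hg1
  by_cases hg : g ∈ Nbar
  · obtain ⟨u, v, h1, h2⟩ := good_of_mem hg
    have hne : toOmega g ≠ 1 := fun h => hg1 (hinj g hg h)
    have hbot : Subgroup.closure (FreeGroup.of '' (∅ : Set (Fin 4))) = ⊥ := by simp
    by_cases hu : u = 1
    · have hv : v ∉ Subgroup.closure (FreeGroup.of '' (∅ : Set (Fin 4))) := by
        rw [hbot, Subgroup.mem_bot]
        rintro rfl
        apply hne
        rw [h1, hu]
        simp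
      obtain ⟨M, hM, -, hM2⟩ := sepY (V := ⊥) (congrArg Prod.snd h1) hv (by
        intro q hq
        rw [Subgroup.mem_bot] at hq
        subst hq
        exact ⟨1, one_mem _, by simp⟩)
      exact ⟨M, hM, hM2⟩
    · have hu' : u ∉ Subgroup.closure (FreeGroup.of '' (∅ : Set (Fin 4))) := by
        rw [hbot, Subgroup.mem_bot]
        exact hu
      obtain ⟨M, hM, -, hM2⟩ := sepX (V := ⊥) (congrArg Prod.fst h1) hu' (by
        intro q hq
        rw [Subgroup.mem_bot] at hq
        subst hq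
        exact ⟨1, one_mem _, by simp⟩)
      exact ⟨M, hM, hM2⟩
  · refine exists_finiteIndex_of_notMem_Nbar ?_ ?_ g hg
    · intro α n hn hq
      refine sep_of_good (good_of_mem hn) ?_
      intro q hq' h
      have h1 : q⁻¹ * n = 1 := by
        apply hinj _ (mul_mem (inv_mem (Qbar_le_Nbar α hq')) hn)
        rw [map_mul, map_inv, h, inv_mul_cancel]
      exact hq (inv_mul_eq_one.mp h1 ▸ hq')
    · intro α n hn hq
      refine sep_of_good (good_conj (good_of_mem hn) α) ?_
      intro q hq' h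
      have h1 : ((GG.r α)⁻¹ * q * GG.r α)⁻¹ * n = 1 := by
        apply hinj _ (mul_mem (inv_mem (r_conj_mem_Nbar hq')) hn)
        rw [map_mul, map_inv, map_mul, map_mul, h, map_mul, map_mul, map_inv]
        group
      apply hq
      rw [← inv_mul_eq_one.mp h1]
      have h2 : GG.r α * ((GG.r α)⁻¹ * q * GG.r α) * (GG.r α)⁻¹ = q := by group
      rw [h2]
      exact hq'

end Crest.Agent.R197
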