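import Mathlib
import Crest.Agent.R197.NPres
import Crest.Agent.R197.RSep
import Crest.Prelude.Def_ClassifyingComplex
import Crest.Agent.R197.Defs
import Crest.Agent.R197.AsphExt_Mg
import Crest.Agent.R197.Detection
import Crest.Agent.R197.Perfect
import Crest.Agent.R197.Class3_Mg

-- ▼ part R197/RF
section

/-! Row 197, module R: `G` is finitely generated and residually finite. -/

set_option autoImplicit false

namespace Crest.Agent.R197

theorem fg_GG : Group.FG GG :=
  Group.fg_of_surjective (f := PresentedGroup.mk relsG) (PresentedGroup.mk_surjective relsG)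

theorem rf_GG : Group.ResiduallyFinite GG :=
  rf_of_injOn fun _ hg h => toOm_injOn_Nbar hg h

end Crest.Agent.R197
end

-- ▼ part R197/Final

/-! Row 197: final assembly of the theorem (captain helper197). -/

set_option autoImplicit false

namespace Crest.Agent.R197

theorem pp_normal (m : ℕ) : (PP m).Normal := by
  unfold PP; infer_instance

theorem pp_fng (m : ℕ) : (PP m).IsFinitelyNormallyGenerated :=
  ⟨_, by simp, rfl⟩

theorem asph_of_classifying (G : Type) [Group G] (h : Crest.Topology.HasClassifyingComplex G 2) :
    AsphericalPresentation G :=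
  asph_of_classifying_final G h

theorem not_classifying_two : ¬ Crest.Topology.HasClassifyingComplex GG 2 := by
  intro h
  have hE := extProp_of_asph GG (asph_of_classifying GG h)
  haveI := ee_fp
  obtain ⟨n₀, hn₀⟩ := obstruction proj proj_surjective PP pp_normal pp_mono pp_fng proj_ker
    proj_perfect hE 2
  obtain ⟨k, hk⟩ := detection n₀
  exact hk (hn₀ n₀ le_rfl k (Subgroup.subset_normalClosure (by simp [p0])))

theorem main :
    ∃ (G : Type) (_ : Group G),
      Group.FG G ∧ Group.ResiduallyFinite G ∧
      (∀ (A : _root_.Rep ℤ G) (n : ℕ), 3 ≤ n → CategoryTheory.Limits.IsZero (groupCohomology A n)) ∧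
      (∃ A : _root_.Rep ℤ G, ¬ CategoryTheory.Limits.IsZero (groupCohomology A 2)) ∧
      Crest.Topology.HasClassifyingComplex G 3 ∧ ¬ Crest.Topology.HasClassifyingComplex G 2 :=
  ⟨GG, inferInstance, fg_GG, rf_GG, cd_GG, h2_GG, classifying_three, not_classifying_two⟩

end Crest.Agent.R197
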